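import Crest.Agent.H0163.Prod

/-! Epochs of growth and the counting theorem for the fibre orbits. -/

set_option autoImplicit false

namespace Crest.Agent.H0163

open Real Finset

/-- the fibre orbit -/
noncomputable def orb (t : ℝ) (v : W) : ℕ → W
  | 0 => v
  | n + 1 => FF (t + n * al) (orb t v n)

theorem orb_add (t : ℝ) (v : W) (m n : ℕ) :
    orb t v (m + n) = orb (t + m * al) (orb t v m) n := by
  induction n with
  | zero => rfl
  | succ n ih =>
    rw [← add_assoc, orb, orb, ih]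
    congr 1; push_cast; ring

theorem nu_orb_le (t : ℝ) (v : W) (n : ℕ) : nu (orb t v n) ≤ (6 * KK) ^ n * nu v := by
  have := KK_pos
  induction n with
  | zero => simp [orb]
  | succ n ih =>
    rw [orb, pow_succ]
    refine (nu_FF_le _ _).trans ?_
    calc 6 * KK * nu (orb t v n) ≤ 6 * KK * ((6 * KK) ^ n * nu v) := by gcongr
      _ = _ := by ring

theorem Src.succ {j : ℕ} {t : ℝ} {M θ : ℂ} {R : ℝ} (h : Src j t M θ R) : Src (j + 1) t M θ R := by
  intro h1
  have h1 := h1.resolve_left (by omega)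
  have h2 := abs_xx_mono (Nat.le_succ j) t
  obtain ⟨ρ, hρ, h3, h4⟩ := h (Or.inr (h2.trans_lt h1))
  exact ⟨ρ, hρ, h3, fun h5 => h4 (Or.inr (h2.trans (h5.resolve_left (by omega))))⟩

theorem Src.mix {j : ℕ} {t : ℝ} {M M' θ : ℂ} {R s : ℝ} (h : Src j t M θ R) (h' : Src j t M' θ R)
    (h0 : 0 ≤ s) (h1 : s ≤ 1) : Src j t ((1 - s) • M + s • M') θ R := by
  intro hx
  obtain ⟨ρ, hρ, rfl, h4⟩ := h hx
  obtain ⟨ρ', hρ', rfl, h4'⟩ := h' hx
  have h2 : 0 ≤ 1 - s := by linarith
  refine ⟨(1 - s) * ρ + s * ρ', by positivity, by rw [smul_smul, smul_smul, add_smul],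
    fun h5 => ?_⟩
  have := h4 h5
  have := h4' h5
  nlinarith

theorem Src.of_eq {j : ℕ} {t : ℝ} {θ : ℂ} {R ρ : ℝ} (hρ : 0 ≤ ρ) (hR : R ≤ ρ) :
    Src j t (ρ • θ) θ R := fun _ => ⟨ρ, hρ, rfl, fun _ => hR⟩

/-- the invariant of an epoch -/
def EI (k : ℕ) (μ t : ℝ) (w : W) (θ : ℂ) (R : ℝ) : Prop :=
  (DD k * rr k 4 ≤ μ → Inv k t w.1 θ R) ∧ (μ < DD k * rr k 3 → Inv (k + 1) t w.2 θ R)

section

variable {k : ℕ} {μ t R : ℝ} {w : W} {θ : ℂ}

theorem st_zero' {i : ℕ} (h1 : μ ≤ DD k * nu w) (h : DD k * rr k i ≤ μ) : st k i w = 0 :=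
  st_zero (le_of_mul_le_mul_left (h.trans h1) (DD_pos k))

theorem st_one' {i : ℕ} (h2 : nu w ≤ DD k * μ) (h : μ < DD k * rr k (i + 1)) : st k i w = 1 := by
  refine st_one (h2.trans (le_trans ?_ (rr_succ k i)))
  have := DD_pos k
  nlinarith

theorem DD_rr_anti {i j : ℕ} (h : i ≤ j) : DD k * rr k j ≤ DD k * rr k i :=
  mul_le_mul_of_nonneg_left (rr_anti k h) (DD_pos k).le

theorem EI.src_hi (hθ : ‖θ‖ = 1) (h : EI k μ t w θ R) (h1 : μ ≤ DD k * nu w)
    (h2 : nu w ≤ DD k * μ) : Src (k + 1) t (Mhi k w) θ R := by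
  have h34 := DD_rr_anti (k := k) (show 3 ≤ 4 by norm_num)
  rw [Mhi]
  by_cases ha : DD k * rr k 3 ≤ μ
  · rw [st_zero' h1 ha]
    simpa using ((h.1 (h34.trans ha)).src hθ).succ
  · by_cases hb : DD k * rr k 4 ≤ μ
    · exact ((h.1 hb).src hθ).succ.mix ((h.2 (not_le.1 ha)).src hθ) (st_nonneg _ _ _) (st_le _ _ _)
    · rw [st_one' h2 (not_le.1 hb)]
      simpa using (h.2 (not_le.1 ha)).src hθ

theorem EI.src_lo (hθ : ‖θ‖ = 1) (h : EI k μ t w θ R) (h1 : μ ≤ DD k * nu w)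
    (hb : DD k * rr k 4 ≤ μ) : Src k t (Mlo k t w) θ R := by
  rw [Mlo]
  by_cases ha : DD k * rr k 3 ≤ μ
  · rw [st_zero' h1 ha]
    simpa using (h.1 hb).src hθ
  · by_cases hx : 5 / 6 ≤ |xx (k + 1) t|
    · rw [pu_zero hx]
      simpa using (h.1 hb).src hθ
    · obtain ⟨ρ, hρ, h3, h4⟩ := (h.2 (not_le.1 ha)).src hθ (Or.inr (by linarith))
      refine ((h.1 hb).src hθ).mix ?_ (mul_nonneg (st_nonneg _ _ _) (pu_nonneg _))
        (mul_le_one₀ (st_le _ _ _) (pu_nonneg _) (pu_le _))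
      rw [h3]
      exact Src.of_eq hρ (h4 (Or.inr (by linarith)))

theorem EI.le_nu (hθ : ‖θ‖ = 1) (h : EI k μ t w θ R) : R ≤ nu w := by
  refine le_trans ?_ (norm_le_nu w)
  by_cases hb : DD k * rr k 4 ≤ μ
  · exact ((h.1 hb).le_norm hθ).trans (norm_fst_le w)
  · have h34 := DD_rr_anti (k := k) (show 3 ≤ 4 by norm_num)
    exact ((h.2 (by linarith)).le_norm hθ).trans (norm_snd_le w)

theorem ei_step (hθ : ‖θ‖ = 1)
    (h : (|xx (k + 1) t| ≤ 2 / 3 ∧ Mhi k w = R • θ) ∨ EI k μ t w θ R)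
    (h1 : μ ≤ DD k * nu w) (h2 : nu w ≤ DD k * μ) (hR : 0 ≤ R) (hμ : 0 < μ)
    (h3 : nu w ≤ DD k * R) :
    EI k μ (t + al) (GG k t w) (θ ^ 2) (gam k t * R) := by
  have hD := DD_pos k
  have hK := KK_pos
  have hnu : 0 < nu w := by
    by_contra h4
    nlinarith [nu_nonneg w]
  have hN : 0 < NN w := by rw [← nu_sq]; positivity
  have hN1 : NN w ≤ DD k ^ 2 * R ^ 2 := by
    rw [← nu_sq, ← mul_pow]; exact pow_le_pow_left₀ hnu.le h3 2
  have hN2 : NN w ≤ DD (k + 1) ^ 2 * R ^ 2 := hN1.trans (by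
    have := DD_mono (Nat.le_succ k); gcongr)
  have hw1 := ww_nonneg k t
  have hw2 := ww_nonneg (k + 1) t
  constructor
  · intro hb
    have hS : Src k t (Mlo k t w) θ R := by
      rcases h with h | h
      · rw [Mlo_full h.1, h.2]; exact Src.of_eq hR le_rfl
      · exact h.src_lo hθ h1 hb
    have := inv_step (s := 1) (κ := 1) (N := NN w) (y := w.1) hθ
      (h.imp (fun h => (abs_xx_mono (Nat.le_succ k) t).trans h.1) fun h => h.1 hb) hS
      zero_le_one zero_le_one (fun _ => ⟨rfl, rfl, hN, hN1⟩)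
    have h4 : (GG k t w).1 = (1 : ℝ) • Lin k t w.1 + (1 : ℝ) • Load k t (NN w) (Mlo k t w) := by
      rw [GG, st_zero' h1 hb]; simp
    rw [h4]
    refine this.mono ?_
    have := ww_le (k + 1) t
    rw [gam]
    gcongr
    exact mul_le_of_le_one_right hw1 this
  · intro ha
    have hS : Src (k + 1) t (Mhi k w) θ R := by
      rcases h with h | h
      · rw [h.2]; exact Src.of_eq hR le_rfl
      · exact h.src_hi hθ h1 h2
    have := inv_step (s := 1) (κ := 1) (N := NN w) (y := w.2) hθ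
      (h.imp (fun h => h.1) fun h => h.2 ha) hS
      zero_le_one zero_le_one (fun _ => ⟨rfl, rfl, hN, hN2⟩)
    have h23 := DD_rr_anti (k := k) (show 2 ≤ 3 by norm_num)
    have h4 : (GG k t w).2 =
        (1 : ℝ) • Lin (k + 1) t w.2 + (1 : ℝ) • Load (k + 1) t (NN w) (Mhi k w) := by
      rw [GG, st_one' (i := 2) h2 ha, st_one' (i := 1) h2 (ha.trans_le h23)]; simp
    rw [h4]
    refine this.mono ?_
    have := ww_le k t
    rw [gam]
    gcongr
    exact mul_le_of_le_one_left hw2 this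

end

/-- the growth bound over an epoch -/
noncomputable def AA (k : ℕ) : ℝ := 2 ^ (226 * qq (k + 1))

/-- the loss bound over an epoch -/
noncomputable def BB (k : ℕ) : ℝ := 2 ^ (108 * qq (k + 1))

theorem one_le_AA (k : ℕ) : 1 ≤ AA k := one_le_pow₀ (by norm_num)

theorem one_le_BB (k : ℕ) : 1 ≤ BB k := one_le_pow₀ (by norm_num)

theorem pow_le_AA (k : ℕ) {m : ℕ} (hm : m ≤ 2 * qq (k + 1)) : (6 * KK) ^ m ≤ AA k := by
  have h1 : 6 * KK ≤ 2 ^ 113 := by rw [KK_def]; norm_num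
  have := KK_pos
  calc (6 * KK) ^ m ≤ (2 ^ 113) ^ m := by gcongr
    _ = 2 ^ (113 * m) := by rw [pow_mul]
    _ ≤ _ := pow_le_pow_right₀ (by norm_num) (by omega)

theorem AB_le_DD' (k : ℕ) : 2 * AA (k + 1) * BB (k + 1) ≤ DD k := by
  rw [AA, BB, DD_def, ← pow_succ', ← pow_add]
  have := qq_pos (k + 2)
  exact pow_le_pow_right₀ (by norm_num) (by rw [show k + 1 + 1 = k + 2 from rfl]; omega)

theorem AB_le_DD (k : ℕ) : 2 * AA k * BB k ≤ DD k := by
  rw [AA, BB, DD_def, ← pow_succ', ← pow_add]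
  have := qq_pos (k + 1)
  have : 2 * qq (k + 1) ≤ qq (k + 2) := qq_succ_ge (k + 1)
  exact pow_le_pow_right₀ (by norm_num) (by omega)

theorem AA_le_DD (k : ℕ) : 2 * AA k ≤ DD k := by
  have := AB_le_DD k; have := one_le_AA k; have := one_le_BB k; nlinarith

theorem AA_le_DD' (k : ℕ) : 2 * AA (k + 1) ≤ DD k := by
  have := AB_le_DD' k; have := one_le_AA (k + 1); have := one_le_BB (k + 1); nlinarith

theorem prod_gam_ge' (k : ℕ) (t : ℝ) {m : ℕ} (hm : m ≤ 2 * qq (k + 1)) :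
    KK ^ m ≤ BB k * ∏ i ∈ range m, gam k (t + i * al) := by
  have h := prod_gam_ge k t hm
  have h1 : BB k * (1 / 2 ^ 108) ^ qq (k + 1) = 1 := by
    rw [BB, pow_mul, ← mul_pow]; norm_num
  have h2 := one_le_BB k
  calc KK ^ m = BB k * (KK ^ m * (1 / 2 ^ 108) ^ qq (k + 1)) := by
        rw [mul_left_comm, h1, mul_one]
    _ ≤ _ := by gcongr

/-- a good starting point for an epoch -/
structure Good (k : ℕ) (t : ℝ) (v : W) (μ : ℝ) : Prop where
  reset : |xx (k + 1) t| ≤ 2 / 3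
  src : ‖Mhi k (par k v)‖ = μ
  le : nu v ≤ DD k * μ
  lo : TT (k + 1) ≤ DD k ^ 2 * μ
  hi : μ ≤ TT k

theorem Good.pos {k : ℕ} {t μ : ℝ} {v : W} (h : Good k t v μ) : 0 < μ := by
  have h1 := h.lo
  have h2 := TT_pos (k + 1)
  have h3 := DD_pos k
  by_contra h4
  have : DD k ^ 2 * μ ≤ 0 := mul_nonpos_of_nonneg_of_nonpos (by positivity) (not_lt.1 h4)
  linarith

theorem Good.FF_eq {k : ℕ} {t μ : ℝ} {v : W} (h : Good k t v μ) (s : ℝ) {w : W}
    (h1 : μ ≤ DD k * nu w) (h2 : nu w ≤ DD k * μ) : FF s w = FZ k s w := by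
  have hD := DD_pos k
  refine H0163.FF_eq k s w ?_ ?_
  · rw [rr, div_le_iff₀ (by have := DD_pos (k + 1); positivity)]
    have h3 := DD_mono (Nat.le_succ k)
    have h4 := nu_nonneg w
    calc TT (k + 1) ≤ DD k ^ 2 * (DD k * nu w) := h.lo.trans (by gcongr)
      _ = nu w * DD k ^ 3 := by ring
      _ ≤ _ := by gcongr
  · rintro j rfl
    exact h2.trans (le_trans (by have := h.hi; gcongr) (DD_TT_succ j))

theorem Good.le_nu {k : ℕ} {t μ : ℝ} {v : W} (h : Good k t v μ) : μ ≤ nu v := by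
  rw [← h.src, ← nu_par k v]
  exact (norm_Mhi_le _ _).trans (norm_le_nu _)

theorem Good.epoch_ind {k : ℕ} {t μ : ℝ} {v : W} (h : Good k t v μ) :
    ∃ θ : ℂ, ‖θ‖ = 1 ∧ ∀ m, m + 1 ≤ 2 * qq (k + 1) →
      nu (orb t v (m + 1)) ≤ (6 * KK) ^ (m + 1) * μ ∧
      EI k μ (t + (m + 1 : ℕ) * al) (par k (orb t v (m + 1))) (θ ^ 2 ^ (m + 1))
        ((∏ i ∈ range (m + 1), gam k (t + i * al)) * μ) := by
  obtain ⟨θ, hθ, h1⟩ := exists_polar (Mhi k (par k v))
  rw [h.src] at h1
  have hμ := h.pos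
  have hD := two_le_DD k
  have hK := one_le_KK
  refine ⟨θ, hθ, fun m => ?_⟩
  induction m with
  | zero =>
    intro _
    have h2 : μ ≤ DD k * nu v := by have := h.le_nu; nlinarith
    have h3 : orb t v (0 + 1) = par k (GG k t (par k v)) := by
      simp only [orb, Nat.cast_zero, zero_mul, add_zero]
      rw [h.FF_eq t h2 h.le, FZ]
    rw [h3, nu_par, par_par]
    refine ⟨by simpa [h.src] using nu_GG_full h.reset (par k v), ?_⟩
    have := ei_step (μ := μ) hθ (Or.inl ⟨h.reset, h1⟩) (by rwa [nu_par]) (by rw [nu_par]; exact h.le)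
      hμ.le hμ (by rw [nu_par]; exact h.le)
    simpa using this
  | succ m ih =>
    intro hm
    obtain ⟨h2, h3⟩ := ih (by omega)
    have hθ' : ‖θ ^ 2 ^ (m + 1)‖ = 1 := by rw [norm_pow, hθ, one_pow]
    set P := ∏ i ∈ range (m + 1), gam k (t + i * al) with hP
    have hP0 : 0 ≤ P := prod_nonneg fun _ _ => gam_nonneg _ _
    have h4 := h3.le_nu hθ'
    rw [nu_par] at h4
    have h5 : 1 ≤ BB k * P := (one_le_pow₀ hK).trans (prod_gam_ge' k t (m := m + 1) (by omega))
    have h6 := pow_le_AA k (m := m + 1) (by omega)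
    have hA := one_le_AA k
    have hB := one_le_BB k
    have hAB := AB_le_DD k
    have h7 : nu (orb t v (m + 1)) ≤ AA k * μ := h2.trans (by gcongr)
    have h8 : μ ≤ DD k * nu (orb t v (m + 1)) := by
      calc μ ≤ BB k * P * μ := by nlinarith
        _ = BB k * (P * μ) := by ring
        _ ≤ DD k * nu (orb t v (m + 1)) := by
          gcongr
          nlinarith
    have h9 : nu (orb t v (m + 1)) ≤ DD k * μ := h7.trans (by gcongr; nlinarith)
    have h10 : nu (orb t v (m + 1)) ≤ DD k * (P * μ) := by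
      calc _ ≤ AA k * μ := h7
        _ ≤ AA k * (BB k * P * μ) := by gcongr; nlinarith
        _ = AA k * BB k * (P * μ) := by ring
        _ ≤ _ := by gcongr; nlinarith
    refine ⟨?_, ?_⟩
    · rw [orb, pow_succ]
      refine (nu_FF_le _ _).trans ?_
      calc 6 * KK * nu (orb t v (m + 1)) ≤ 6 * KK * ((6 * KK) ^ (m + 1) * μ) := by gcongr
        _ = _ := by ring
    · have := ei_step (μ := μ) hθ' (Or.inr h3) (by rwa [nu_par]) (by rwa [nu_par])
        (by positivity) hμ (by rwa [nu_par])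
      rw [orb, h.FF_eq _ h8 h9, FZ, par_par, prod_range_succ, ← hP]
      convert this using 1
      · push_cast; ring
      · rw [← pow_mul, ← pow_succ]
      · ring

theorem good_of {k : ℕ} {t μ : ℝ} {v : W} (h1 : |xx (k + 1) t| ≤ 2 / 3)
    (h2 : ‖Mhi k (par k v)‖ = μ) (h3 : nu v ≤ DD k * μ) (h4 : TT (k + 1) ≤ DD k ^ 2 * μ)
    (h5 : nu v ≤ AA k * TT k) : (∃ k' ≤ k, Good k' t v μ) ∨ (k = 0 ∧ 2 < ‖v.1.1‖) := by
  by_cases h6 : μ ≤ TT k
  · exact Or.inl ⟨k, le_rfl, h1, h2, h3, h4, h6⟩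
  push Not at h6
  have h7 : μ ≤ nu v := by
    rw [← h2, ← nu_par k v]
    exact (norm_Mhi_le _ _).trans (norm_le_nu _)
  have h8 : Mhi k (par k v) = (par k v).1.1 := by
    rw [Mhi, st_zero (by rw [nu_par]; linarith [rr_le_TT k 3])]; simp
  rw [h8] at h2
  cases k with
  | zero => exact Or.inr ⟨rfl, by simpa [TT, ← h2, par] using h6⟩
  | succ j =>
    have h9 := AA_le_DD (j + 1)
    have h10 := AA_le_DD' j
    have hA := one_le_AA (j + 1)
    have hT := TT_pos (j + 1)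
    have h11 : nu v ≤ rr j 4 / 2 := h5.trans (le_trans (by gcongr; linarith) (DD_TT_succ j))
    have h12 := rr_anti j (show 3 ≤ 4 by norm_num)
    have hD := two_le_DD j
    refine Or.inl ⟨j, Nat.le_succ j, (abs_xx_mono (Nat.le_succ _) t).trans h1, ?_,
      h5.trans (by gcongr; linarith),
      h6.le.trans (le_mul_of_one_le_left (by linarith) (one_le_pow₀ (by linarith))), ?_⟩
    · rw [Mhi, st_one (by rw [nu_par]; linarith), ← h2, par_succ]; simp
    · have := rr_le_TT j 4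
      have := rr_pos j 4
      linarith

/-- an epoch doubles the source -/
theorem Good.epoch {k : ℕ} {t μ : ℝ} {v : W} (h : Good k t v μ) :
    ∃ l, 1 ≤ l ∧ l ≤ 2 * qq (k + 1) ∧ (∀ m < l, nu (orb t v m) ≤ DD k * TT k) ∧
      ((∃ k' ≤ k, ∃ μ', 2 * μ ≤ μ' ∧ Good k' (t + l * al) (orb t v l) μ') ∨
        (k = 0 ∧ 2 < ‖(orb t v l).1.1‖)) := by
  obtain ⟨θ, hθ, hind⟩ := h.epoch_ind
  obtain ⟨m, hm, hres⟩ := exists_reset (k + 1) (t + qq (k + 1) * al)
  have hq := qq_pos (k + 1)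
  have hμ := h.pos
  have hD := two_le_DD k
  have hK := one_le_KK
  have hA := one_le_AA k
  have hB := one_le_BB k
  have hAB := AB_le_DD k
  have hAD := AA_le_DD k
  have hT := h.hi
  obtain ⟨l, hl⟩ : ∃ l, qq (k + 1) + m = l + 1 := ⟨qq (k + 1) + m - 1, by omega⟩
  have hres' : |xx (k + 1) (t + (l + 1 : ℕ) * al)| ≤ 2 / 3 := by
    rw [← hl]; convert hres using 3; push_cast; ring
  refine ⟨l + 1, by omega, by omega, fun i hi => ?_, ?_⟩
  · cases i with
    | zero => exact h.le.trans (by gcongr)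
    | succ i =>
      have h6 := pow_le_AA k (m := i + 1) (by omega)
      exact (hind i (by omega)).1.trans (by gcongr; linarith)
  · obtain ⟨h2, h3⟩ := hind l (by omega)
    have hθ' : ‖θ ^ 2 ^ (l + 1)‖ = 1 := by rw [norm_pow, hθ, one_pow]
    set P := ∏ i ∈ range (l + 1), gam k (t + i * al) with hP
    have h4 := h3.le_nu hθ'
    have h5 : 2 ≤ P := by
      have h5 := prod_gam_ge' k t (m := l + 1) (by omega)
      rw [← hP] at h5
      have h6 : BB k * 2 ≤ KK ^ (l + 1) := by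
        rw [BB, KK_def, ← pow_mul, ← pow_succ]
        exact pow_le_pow_right₀ (by norm_num) (by omega)
      exact le_of_mul_le_mul_left (h6.trans h5) (by linarith)
    have h6 := pow_le_AA k (m := l + 1) (by omega)
    have h7 : nu (orb t v (l + 1)) ≤ AA k * μ := h2.trans (by gcongr)
    obtain ⟨ρ, hρ, h8, h9⟩ := h3.src_hi hθ'
      (le_trans (by nlinarith) (h4.trans (le_mul_of_one_le_left (nu_nonneg _) (by linarith))))
      (by rw [nu_par]; nlinarith)
      (Or.inr (by linarith))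
    have h9 := h9 (Or.inr (by linarith))
    have h10 : ‖Mhi k (par k (orb t v (l + 1)))‖ = ρ := by
      rw [h8, norm_smul, hθ', mul_one, Real.norm_of_nonneg hρ]
    have h11 : 2 * μ ≤ ρ := by nlinarith
    rcases good_of hres' h10 (h7.trans (by gcongr <;> linarith))
      (h.lo.trans (by gcongr; linarith)) (h7.trans (by gcongr)) with ⟨k', hk', hg⟩ | hg
    · exact Or.inl ⟨k', hk', ρ, h11, hg⟩
    · exact Or.inr hg

/-- away from good points the orbit contracts -/
theorem drop {k : ℕ} {X : ℝ} (t : ℝ) {v : W} (h1 : TT (k + 1) < X) (h2 : X ≤ TT k)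
    (h3 : nu v ≤ X) :
    ∃ m < qq (k + 1), (∀ i ≤ m, nu (orb t v i) ≤ DD k * TT k) ∧
      (nu (orb t v (m + 1)) ≤ X / 2 ∨ (∃ k' μ, Good k' (t + m * al) (orb t v m) μ) ∨
        2 < ‖(orb t v m).1.1‖) := by
  obtain ⟨m, hm, hres⟩ := exists_reset (k + 1) t
  have hD := two_le_DD k
  have hK := one_le_KK
  have hA := one_le_AA k
  have hAD := AA_le_DD k
  have hT := TT_pos (k + 1)
  have hb : ∀ i ≤ m, nu (orb t v i) ≤ (6 * KK) ^ i * X := fun i _ =>
    (nu_orb_le t v i).trans (by gcongr)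
  have hb' : ∀ i ≤ m, nu (orb t v i) ≤ AA k * TT k := fun i hi =>
    (hb i hi).trans (by
      have := pow_le_AA k (m := i) (by omega)
      gcongr; linarith)
  refine ⟨m, hm, fun i hi => (hb' i hi).trans (by gcongr <;> linarith), ?_⟩
  have hK1 : 6 * KK ≤ AA k := by simpa using pow_le_AA k (m := 1) (by omega)
  by_cases h4 : rr (k + 1) 1 ≤ nu (orb t v m)
  · have h5 : nu (orb t v (m + 1)) ≤ 6 * KK * ‖Mhi k (par k (orb t v m))‖ := by
      rw [orb, FF_eq k _ _ h4, FZ, nu_par]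
      · exact nu_GG_full hres _
      · rintro j rfl
        have := TT_pos (j + 1)
        exact (hb' m le_rfl).trans (le_trans (by gcongr; linarith) (DD_TT_succ j))
    set μ := ‖Mhi k (par k (orb t v m))‖ with hμ
    have hμ0 : 0 ≤ μ := norm_nonneg _
    by_cases h6 : nu (orb t v m) ≤ DD k * μ
    · by_cases h7 : TT (k + 1) ≤ DD k ^ 2 * μ
      · rcases good_of hres hμ.symm h6 h7 (hb' m le_rfl) with ⟨k', -, hg⟩ | hg
        · exact Or.inr (Or.inl ⟨k', μ, hg⟩)
        · exact Or.inr (Or.inr hg.2)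
      · left
        have h8 : DD k * μ ≤ DD k ^ 2 * μ := by gcongr; nlinarith
        nlinarith
    · left
      have h7 := hb m le_rfl
      have h8 := pow_le_AA k (m := m + 1) (by omega)
      have h9 : DD k * (6 * KK * μ) ≤ DD k * (X / 2) := by
        calc DD k * (6 * KK * μ) = 6 * KK * (DD k * μ) := by ring
          _ ≤ 6 * KK * ((6 * KK) ^ m * X) :=
            mul_le_mul_of_nonneg_left (by linarith) (by linarith)
          _ = (6 * KK) ^ (m + 1) * X := by ring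
          _ ≤ AA k * X := by gcongr; linarith
          _ ≤ _ := by nlinarith
      exact h5.trans (le_of_mul_le_mul_left h9 (by linarith))
  · left
    rw [orb]
    refine (nu_FF_le _ _).trans ?_
    have h5 : DD k ^ 2 * rr (k + 1) 1 ≤ TT (k + 1) / 2 := by
      have h6 := rr_succ (k + 1) 0
      have h7 := DD_mono (Nat.le_succ k)
      have h8 := rr_pos (k + 1) 1
      refine le_trans (by gcongr) (h6.trans (by simp [rr]))
    have h6 := rr_pos (k + 1) 1
    have h7 : 6 * KK * rr (k + 1) 1 ≤ DD k ^ 2 * rr (k + 1) 1 := by gcongr; nlinarith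
    have h8 : 6 * KK * nu (orb t v m) ≤ 6 * KK * rr (k + 1) 1 := by gcongr; linarith
    linarith

/-- number of large points on an orbit -/
noncomputable def cnt (ε t : ℝ) (v : W) (n : ℕ) : ℕ :=
  ((range n).filter fun m => ε ≤ nu (orb t v m)).card

theorem cnt_le (ε t : ℝ) (v : W) (n : ℕ) : cnt ε t v n ≤ n :=
  (card_filter_le _ _).trans (card_range n).le

theorem cnt_add (ε t : ℝ) (v : W) (m n : ℕ) :
    cnt ε t v (m + n) = cnt ε t v m + cnt ε (t + m * al) (orb t v m) n := by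
  simp only [cnt, card_filter, sum_range_add, orb_add]

theorem cnt_eq_zero {ε t : ℝ} {v : W} {n : ℕ} (h : ∀ m < n, nu (orb t v m) < ε) :
    cnt ε t v n = 0 := by
  rw [cnt, card_eq_zero, filter_eq_empty_iff]
  exact fun m hm => not_le.2 (h m (mem_range.1 hm))

/-- the orbit stays in the chart up to time `n` -/
def Stay (t : ℝ) (v : W) (n : ℕ) : Prop := ∀ m < n, ‖(orb t v m).1.1‖ ≤ 2

theorem Stay.shift {t : ℝ} {v : W} {m n : ℕ} (h : Stay t v (m + n)) :
    Stay (t + m * al) (orb t v m) n := fun i hi => by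
  rw [← orb_add]; exact h _ (by omega)

theorem good_exit (K r : ℕ) : ∀ k ≤ K, ∀ t v μ, Good k t v μ → 2 < 2 ^ r * μ →
    ∀ n, Stay t v n → n ≤ r * (2 * qq (K + 1)) := by
  induction r with
  | zero =>
    intro k _ t v μ h h1
    have := h.hi
    have := TT_anti (Nat.zero_le k)
    simp only [TT] at this
    linarith
  | succ r ih =>
    intro k hk t v μ h h1 n hn
    obtain ⟨l, -, h2, -, h3⟩ := h.epoch
    have h4 := qq_mono (show k + 1 ≤ K + 1 by omega)
    by_cases h5 : n ≤ l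
    · rw [add_mul]; omega
    obtain ⟨n, rfl⟩ : ∃ n', n = l + n' := ⟨n - l, by omega⟩
    rcases h3 with ⟨k', hk', μ', h6, h7⟩ | h3
    · have := ih k' (hk'.trans hk) _ _ _ h7 (h1.trans_le (by
        rw [pow_succ, mul_assoc]; gcongr)) n hn.shift
      rw [add_mul]; omega
    · exact absurd (hn l (by omega)) (not_le.2 h3.2)

theorem DD_TT_lt {ε : ℝ} {K k : ℕ} (hK : TT K < ε) (hk : K < k) : DD k * TT k < ε := by
  obtain ⟨j, rfl⟩ : ∃ j, k = j + 1 := ⟨k - 1, by omega⟩
  have := DD_TT_succ j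
  have := rr_le_TT j 4
  have := rr_pos j 4
  have := TT_anti (show K ≤ j by omega)
  linarith

theorem good_cnt {ε : ℝ} {K : ℕ} (hK : TT K < ε) :
    ∃ B : ℕ, ∀ n k t v μ, Good k t v μ → Stay t v n → cnt ε t v n ≤ B := by
  have hD := DD_pos K
  have hT := TT_pos (K + 1)
  obtain ⟨r, hr⟩ := pow_unbounded_of_one_lt (2 * DD K ^ 2 / TT (K + 1)) (one_lt_two (α := ℝ))
  refine ⟨r * (2 * qq (K + 1)), fun n => ?_⟩
  induction n using Nat.strong_induction_on with
  | _ n ih =>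
    intro k t v μ h hn
    by_cases hk : k ≤ K
    · refine (cnt_le _ _ _ _).trans (good_exit K r k hk t v μ h ?_ n hn)
      rw [div_lt_iff₀ hT] at hr
      have h1 := TT_anti (show k + 1 ≤ K + 1 by omega)
      have h2 := DD_mono hk
      have h3 := DD_pos k
      have h4 := h.pos
      have h5 : TT (K + 1) ≤ DD K ^ 2 * μ := h1.trans (h.lo.trans (by gcongr))
      have h6 : 2 ^ r * TT (K + 1) ≤ 2 ^ r * (DD K ^ 2 * μ) := by gcongr
      have h7 : DD K ^ 2 * 2 < DD K ^ 2 * (2 ^ r * μ) := by linarith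
      exact lt_of_mul_lt_mul_left h7 (by positivity)
    · obtain ⟨l, h1, -, h2, h3⟩ := h.epoch
      have h4 := DD_TT_lt hK (not_le.1 hk)
      by_cases h5 : n ≤ l
      · rw [cnt_eq_zero fun m hm => (h2 m (by omega)).trans_lt h4]; exact Nat.zero_le _
      obtain ⟨n, rfl⟩ : ∃ n', n = l + n' := ⟨n - l, by omega⟩
      rw [cnt_add, cnt_eq_zero fun m hm => (h2 m hm).trans_lt h4, zero_add]
      rcases h3 with ⟨k', -, μ', -, h7⟩ | h3
      · exact ih n (by omega) k' _ _ _ h7 hn.shift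
      · omega

theorem exists_zone {X : ℝ} (h0 : 0 < X) (h2 : X ≤ 2) : ∃ k, TT (k + 1) < X ∧ X ≤ TT k := by
  refine ⟨zone X, zone_spec h0, ?_⟩
  cases h : zone X with
  | zero => exact h2
  | succ k => exact zone_spec' h

/-- the counting theorem -/
theorem cnt_bound {ε : ℝ} (hε : 0 < ε) :
    ∃ B : ℕ, ∀ t v, nu v ≤ 2 → ∀ n, Stay t v n → cnt ε t v n ≤ B := by
  obtain ⟨K, hK⟩ := exists_TT_lt hε
  obtain ⟨B, hB⟩ := good_cnt hK
  have hT := TT_pos (K + 1)
  have hT2 : TT (K + 1) ≤ 2 := TT_anti (Nat.zero_le _)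
  have h0 : ∀ n X t v, 0 < X → X ≤ TT (K + 1) → nu v ≤ X → Stay t v n → cnt ε t v n ≤ B := by
    intro n
    induction n using Nat.strong_induction_on with
    | _ n ih =>
      intro X t v hX hX' hv hn
      obtain ⟨k, h1, h2⟩ := exists_zone hX (hX'.trans hT2)
      have hk : K < k := by
        by_contra hk
        have := TT_anti (show k + 1 ≤ K + 1 by omega)
        linarith
      have h4 := DD_TT_lt hK hk
      obtain ⟨m, -, h5, h6⟩ := drop t h1 h2 hv
      by_cases h7 : n ≤ m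
      · rw [cnt_eq_zero fun i hi => (h5 i (by omega)).trans_lt h4]; exact Nat.zero_le _
      rcases h6 with h6 | ⟨k', μ, h6⟩ | h6
      · obtain ⟨n, rfl⟩ : ∃ n', n = m + 1 + n' := ⟨n - (m + 1), by omega⟩
        rw [cnt_add, cnt_eq_zero fun i hi => (h5 i (by omega)).trans_lt h4, zero_add]
        exact ih n (by omega) (X / 2) _ _ (by linarith) (by linarith) h6 hn.shift
      · obtain ⟨n, rfl⟩ : ∃ n', n = m + n' := ⟨n - m, by omega⟩
        rw [cnt_add, cnt_eq_zero fun i hi => (h5 i (by omega)).trans_lt h4, zero_add]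
        exact hB _ _ _ _ _ h6 hn.shift
      · exact absurd (hn m (by omega)) (not_le.2 h6)
  have h1 : ∀ r : ℕ, ∀ n X t v, 0 < X → X ≤ 2 → X ≤ 2 ^ r * TT (K + 1) → nu v ≤ X → Stay t v n →
      cnt ε t v n ≤ B + r * qq (K + 1) := by
    intro r
    induction r with
    | zero => intro n X t v hX _ hX' hv hn; simpa using h0 n X t v hX (by simpa using hX') hv hn
    | succ r ih =>
      intro n X t v hX hX2 hX' hv hn
      by_cases h : X ≤ TT (K + 1)
      · exact (h0 n X t v hX h hv hn).trans (Nat.le_add_right _ _)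
      obtain ⟨k, h1, h2⟩ := exists_zone hX hX2
      have hk : k ≤ K := by
        by_contra hk
        have := TT_anti (show K + 1 ≤ k by omega)
        linarith
      have h4 := qq_mono (show k + 1 ≤ K + 1 by omega)
      obtain ⟨m, hm, -, h6⟩ := drop t h1 h2 hv
      rw [add_mul]
      by_cases h7 : n ≤ m
      · have := cnt_le ε t v n; omega
      rcases h6 with h6 | ⟨k', μ, h6⟩ | h6
      · obtain ⟨n, rfl⟩ : ∃ n', n = m + 1 + n' := ⟨n - (m + 1), by omega⟩
        have := ih n (X / 2) _ _ (by linarith) (by linarith) (by rw [pow_succ] at hX'; linarith)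
          h6 hn.shift
        have := cnt_le ε t v (m + 1)
        rw [cnt_add]; omega
      · obtain ⟨n, rfl⟩ : ∃ n', n = m + n' := ⟨n - m, by omega⟩
        have := hB _ _ _ _ _ h6 hn.shift
        have := cnt_le ε t v m
        rw [cnt_add]; omega
      · exact absurd (hn m (by omega)) (not_le.2 h6)
  obtain ⟨r, hr⟩ := pow_unbounded_of_one_lt (2 / TT (K + 1)) (one_lt_two (α := ℝ))
  rw [div_lt_iff₀ hT] at hr
  exact ⟨_, fun t v hv n hn => h1 r n 2 t v two_pos le_rfl hr.le hv hn⟩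

end Crest.Agent.H0163
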