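import Mathlib

/-! A small calculus of scale-invariant `C¹` bounds along a filter. -/

set_option autoImplicit false

namespace Crest.Agent.H0163

open Filter Asymptotics Topology

variable {ι E V V' : Type*} [NormedAddCommGroup E] [NormedSpace ℝ E]
  [NormedAddCommGroup V] [NormedSpace ℝ V] [NormedAddCommGroup V'] [NormedSpace ℝ V']

/-- `G i` has size `O(s i)` at `p i` and varies by `O(s i)` at scale `σ i` -/
structure Cl (l : Filter ι) (p : ι → E) (σ s : ι → ℝ) (G : ι → E → V) : Prop where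
  diff : ∀ᶠ i in l, DifferentiableAt ℝ (G i) (p i)
  val : (fun i => G i (p i)) =O[l] s
  der : (fun i => ‖σ i‖ * ‖fderiv ℝ (G i) (p i)‖) =O[l] s

variable {l : Filter ι} {p : ι → E} {σ σ' s s' : ι → ℝ}

theorem isBigO_of_le {a b : ι → ℝ} (h : ∀ᶠ i in l, ‖σ i‖ * ‖a i‖ ≤ b i) (hb : b =O[l] s) :
    (fun i => ‖σ i‖ * ‖a i‖) =O[l] s :=
  (IsBigO.of_norm_eventuallyLE (h.mono fun i hi => by simpa using hi)).trans hb

theorem Cl.mk' {G : ι → E → V} (h1 : ∀ᶠ i in l, DifferentiableAt ℝ (G i) (p i))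
    (h2 : (fun i => G i (p i)) =O[l] s) {b : ι → ℝ}
    (h : ∀ᶠ i in l, ‖σ i‖ * ‖fderiv ℝ (G i) (p i)‖ ≤ b i) (hb : b =O[l] s) : Cl l p σ s G :=
  ⟨h1, h2, (IsBigO.of_norm_eventuallyLE (h.mono fun i hi => by simpa using hi)).trans hb⟩

theorem Cl.mono {G : ι → E → V} (h : Cl l p σ s G) (hs : s =O[l] s') : Cl l p σ s' G :=
  ⟨h.diff, h.val.trans hs, h.der.trans hs⟩

theorem Cl.of_eq {G : ι → E → V} (h : Cl l p σ s G) (hs : ∀ i, s i = s' i) : Cl l p σ s' G :=
  h.mono (by rw [funext hs])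

theorem Cl.scale {G : ι → E → V} (h : Cl l p σ s G) (hs : σ' =O[l] σ) : Cl l p σ' s G :=
  ⟨h.diff, h.val, (hs.norm_norm.mul (isBigO_refl _ _)).trans h.der⟩

theorem Cl.filter {G : ι → E → V} (h : Cl l p σ s G) {l' : Filter ι} (hl : l' ≤ l) :
    Cl l' p σ s G :=
  ⟨hl h.diff, h.val.mono hl, h.der.mono hl⟩

theorem Cl.congr {G G' : ι → E → V} (h : Cl l p σ s G) (hG : ∀ᶠ i in l, G i =ᶠ[𝓝 (p i)] G' i) :
    Cl l p σ s G' := by
  refine ⟨?_, h.val.congr' ?_ EventuallyEq.rfl, h.der.congr' ?_ EventuallyEq.rfl⟩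
  · filter_upwards [h.diff, hG] with i h1 h2 using h1.congr_of_eventuallyEq h2.symm
  · filter_upwards [hG] with i h2 using h2.eq_of_nhds
  · filter_upwards [hG] with i h2 using by rw [h2.fderiv_eq]

theorem Cl.const (c : ι → V) (hc : c =O[l] s) : Cl l p σ s (fun i _ => c i) :=
  ⟨Eventually.of_forall fun _ => differentiableAt_const _, hc, by simp [isBigO_zero]⟩

theorem Cl.add {G G' : ι → E → V} (h : Cl l p σ s G) (h' : Cl l p σ s G') :
    Cl l p σ s (fun i q => G i q + G' i q) := by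
  refine Cl.mk' ?_ (h.val.add h'.val) ?_ (h.der.add h'.der)
  · filter_upwards [h.diff, h'.diff] with i h1 h2 using h1.add h2
  · filter_upwards [h.diff, h'.diff] with i h1 h2
    rw [fderiv_fun_add h1 h2, ← mul_add]
    exact mul_le_mul_of_nonneg_left (norm_add_le _ _) (norm_nonneg _)

theorem Cl.neg {G : ι → E → V} (h : Cl l p σ s G) : Cl l p σ s (fun i q => -G i q) :=
  ⟨h.diff.mono fun _ h1 => h1.neg, h.val.neg_left, by simpa [fderiv_fun_neg] using h.der⟩

theorem Cl.sub {G G' : ι → E → V} (h : Cl l p σ s G) (h' : Cl l p σ s G') :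
    Cl l p σ s (fun i q => G i q - G' i q) := by
  simpa [sub_eq_add_neg] using h.add h'.neg

theorem Cl.smul {φ : ι → E → ℝ} {G : ι → E → V} (h : Cl l p σ s φ) (h' : Cl l p σ s' G) :
    Cl l p σ (fun i => s i * s' i) (fun i q => φ i q • G i q) := by
  refine Cl.mk' ?_ (h.val.smul h'.val) ?_
    ((h.val.norm_left.mul h'.der).add (h.der.mul h'.val.norm_left))
  · filter_upwards [h.diff, h'.diff] with i h1 h2 using h1.smul h2
  · filter_upwards [h.diff, h'.diff] with i h1 h2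
    rw [fderiv_fun_smul h1 h2]
    refine (mul_le_mul_of_nonneg_left (norm_add_le _ _) (norm_nonneg _)).trans (le_of_eq ?_)
    rw [norm_smul, ContinuousLinearMap.norm_smulRight_apply]
    ring

theorem Cl.mul {φ ψ : ι → E → ℝ} (h : Cl l p σ s φ) (h' : Cl l p σ s' ψ) :
    Cl l p σ (fun i => s i * s' i) (fun i q => φ i q * ψ i q) := h.smul h'

theorem Cl.smul_one {φ : ι → E → ℝ} {G : ι → E → V} (h : Cl l p σ (fun _ => 1) φ)
    (h' : Cl l p σ s' G) : Cl l p σ s' (fun i q => φ i q • G i q) :=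
  (h.smul h').of_eq fun _ => one_mul _

theorem Cl.one_sub {φ : ι → E → ℝ} (h : Cl l p σ (fun _ => 1) φ) :
    Cl l p σ (fun _ => 1) (fun i q => 1 - φ i q) :=
  (Cl.const (fun _ => (1 : ℝ)) (isBigO_refl _ _)).sub h

theorem Cl.prodMk {G : ι → E → V} {G' : ι → E → V'} (h : Cl l p σ s G) (h' : Cl l p σ s G') :
    Cl l p σ s (fun i q => (G i q, G' i q)) := by
  refine Cl.mk' ?_ (h.val.prod_left h'.val) ?_ (h.der.add h'.der)
  · filter_upwards [h.diff, h'.diff] with i h1 h2 using h1.prodMk h2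
  · filter_upwards [h.diff, h'.diff] with i h1 h2
    rw [h1.fderiv_prodMk h2, ← mul_add, ContinuousLinearMap.opNorm_prod, Prod.norm_def]
    refine mul_le_mul_of_nonneg_left (max_le ?_ ?_) (norm_nonneg _) <;> simp

theorem Cl.comp {G : ι → E → V} (h : Cl l p σ s G) (g : ι → V → V')
    (h1 : ∀ᶠ i in l, DifferentiableAt ℝ (g i) (G i (p i)))
    (h2 : (fun i => g i (G i (p i))) =O[l] s')
    (h3 : (fun i => ‖fderiv ℝ (g i) (G i (p i))‖ * s i) =O[l] s') :
    Cl l p σ s' (fun i q => g i (G i q)) := by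
  refine Cl.mk' ?_ h2 ?_ (((isBigO_refl _ _).mul h.der).trans h3)
  · filter_upwards [h.diff, h1] with i h1 h2 using h2.comp (p i) h1
  · filter_upwards [h.diff, h1] with i h1 h2
    rw [fderiv_fun_comp _ h2 h1, mul_left_comm]
    exact mul_le_mul_of_nonneg_left (ContinuousLinearMap.opNorm_comp_le _ _) (norm_nonneg _)

theorem Cl.clm {G : ι → E → V} (h : Cl l p σ s G) (L : ι → V →L[ℝ] V') (hL : ∀ i, ‖L i‖ ≤ 1) :
    Cl l p σ s (fun i q => L i (G i q)) := by
  refine h.comp (fun i => L i) (Eventually.of_forall fun i => (L i).differentiableAt)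
    (IsBigO.trans (IsBigO.of_bound' (Eventually.of_forall fun i => ?_)) h.val)
    (IsBigO.of_bound' (Eventually.of_forall fun i => ?_))
  · exact ((L i).le_opNorm _).trans (mul_le_of_le_one_left (norm_nonneg _) (hL i))
  · rw [ContinuousLinearMap.fderiv, norm_mul, norm_norm]
    exact mul_le_of_le_one_left (norm_nonneg _) (hL i)

theorem Cl.fst {G : ι → E → V × V'} (h : Cl l p σ s G) : Cl l p σ s (fun i q => (G i q).1) :=
  h.clm (fun _ => ContinuousLinearMap.fst ℝ V V') fun _ => ContinuousLinearMap.norm_fst_le _ _ _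

theorem Cl.snd {G : ι → E → V × V'} (h : Cl l p σ s G) : Cl l p σ s (fun i q => (G i q).2) :=
  h.clm (fun _ => ContinuousLinearMap.snd ℝ V V') fun _ => ContinuousLinearMap.norm_snd_le _ _ _

theorem Cl.comp_real {ψ : ι → E → ℝ} (h : Cl l p σ s ψ) (g : ι → ℝ → ℝ) (g' : ι → ℝ)
    (h1 : ∀ᶠ i in l, HasDerivAt (g i) (g' i) (ψ i (p i)))
    (h2 : (fun i => g i (ψ i (p i))) =O[l] s')
    (h3 : (fun i => g' i * s i) =O[l] s') :
    Cl l p σ s' (fun i q => g i (ψ i q)) := by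
  refine h.comp g (h1.mono fun i hi => hi.differentiableAt) h2 (IsBigO.trans ?_ h3)
  refine IsBigO.of_bound' (h1.mono fun i hi => ?_)
  rw [← norm_deriv_eq_norm_fderiv, hi.deriv]
  simp

theorem Cl.inv {ψ : ι → E → ℝ} (h : Cl l p σ s ψ) (hs : ∀ i, s i = ψ i (p i))
    (h0 : ∀ᶠ i in l, s i ≠ 0) : Cl l p σ (fun i => (s i)⁻¹) (fun i q => (ψ i q)⁻¹) := by
  obtain rfl : s = fun i => ψ i (p i) := funext hs
  refine h.comp_real (fun _ x => x⁻¹) (fun i => -(ψ i (p i) ^ 2)⁻¹)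
    (h0.mono fun i hi => hasDerivAt_inv hi) (isBigO_refl _ _)
    (IsBigO.of_bound' (h0.mono fun i hi => le_of_eq ?_))
  rw [← norm_neg]
  congr 1
  field_simp

theorem Cl.norm_sq {M : ι → E → ℂ} (h : Cl l p σ s M) :
    Cl l p σ (fun i => s i ^ 2) (fun i q => ‖M i q‖ ^ 2) := by
  refine h.comp (fun _ z => ‖z‖ ^ 2)
    (Eventually.of_forall fun i => (hasStrictFDerivAt_norm_sq _).hasFDerivAt.differentiableAt)
    (h.val.norm_left.pow 2) ?_
  simp only [sq]
  refine IsBigO.mul (IsBigO.trans (IsBigO.of_bound 2 (Eventually.of_forall fun i => ?_)) h.val)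
    (isBigO_refl _ _)
  simp only [← sq]
  rw [(hasStrictFDerivAt_norm_sq _).hasFDerivAt.fderiv, norm_norm, two_nsmul]
  refine (norm_add_le _ _).trans ?_
  rw [innerSL_apply_norm]
  linarith

theorem Cl.norm {M : ι → E → ℂ} (h : Cl l p σ s M) (h0 : ∀ᶠ i in l, M i (p i) ≠ 0) :
    Cl l p σ s (fun i q => ‖M i q‖) := by
  refine h.comp (fun _ z => ‖z‖) (h0.mono fun i hi => (differentiableAt_id.norm ℝ hi))
    h.val.norm_left (IsBigO.of_bound' (Eventually.of_forall fun i => ?_))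
  rw [norm_mul, norm_norm]
  exact mul_le_of_le_one_left (norm_nonneg _)
    (by simpa using norm_fderiv_le_of_lipschitz ℝ (lipschitzWith_one_norm (E := ℂ)))

theorem Cl.pow {u : ι → E → ℂ} (h : Cl l p σ (fun _ => 1) u) (h0 : ∀ᶠ i in l, ‖u i (p i)‖ = 1)
    (m : ι → ℕ) (hm : ∀ i, 1 ≤ m i) :
    Cl l p σ (fun i => (m i : ℝ)) (fun i q => u i q ^ m i) := by
  refine h.comp (fun i z => z ^ m i) (Eventually.of_forall fun i => differentiableAt_pow _)
    (IsBigO.of_bound' (h0.mono fun i hi => ?_)) (IsBigO.of_bound' (h0.mono fun i hi => ?_))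
  · rw [norm_pow, hi, one_pow, Real.norm_natCast]
    exact_mod_cast hm i
  · have := ((hasFDerivAt_id (𝕜 := ℝ) (u i (p i))).pow (m i)).fderiv
    rw [mul_one, norm_norm, show (fun z : ℂ => z ^ m i) = fun x => id x ^ m i from rfl, this, norm_smul]
    simp [hi]

theorem Cl.split {G : ι → E → V} (S : Set ι) (h : Cl (l ⊓ 𝓟 S) p σ s G)
    (h' : Cl (l ⊓ 𝓟 Sᶜ) p σ s G) : Cl l p σ s G := by
  have : l = (l ⊓ 𝓟 S) ⊔ (l ⊓ 𝓟 Sᶜ) := by
    rw [← inf_sup_left, sup_principal, Set.union_compl_self, principal_univ, inf_top_eq]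
  rw [this]
  exact ⟨eventually_sup.2 ⟨h.diff, h'.diff⟩, h.val.sup h'.val, h.der.sup h'.der⟩

theorem Cl.fderiv_isBigO {G : ι → E → V} (h : Cl l p σ (fun i => s i * σ i) G)
    (h0 : ∀ᶠ i in l, σ i ≠ 0) : (fun i => ‖fderiv ℝ (G i) (p i)‖) =O[l] s := by
  obtain ⟨c, hc⟩ := h.der.bound
  refine IsBigO.of_bound c ?_
  filter_upwards [hc, h0] with i h1 h2
  have h3 : 0 < ‖σ i‖ := norm_pos_iff.2 h2
  rw [norm_mul, norm_mul, norm_norm, norm_norm] at h1
  rw [norm_norm]
  refine le_of_mul_le_mul_left (h1.trans (le_of_eq (by ring))) h3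

theorem Cl.rescale {G : ι → E → V} (h : Cl l p σ (fun i => s i * σ i) G)
    (h0 : ∀ᶠ i in l, σ i ≠ 0) (hs : σ =O[l] σ') : Cl l p σ' (fun i => s i * σ' i) G :=
  ⟨h.diff, h.val.trans ((isBigO_refl _ _).mul hs),
    by simpa only [mul_comm] using (h.fderiv_isBigO h0).mul (isBigO_refl σ' l).norm_left⟩

theorem Cl.rescale' {G : ι → E → V} (h : Cl l p σ σ G) (h0 : ∀ᶠ i in l, σ i ≠ 0)
    (hs : (fun i => G i (p i)) =O[l] σ') : Cl l p σ' σ' G :=
  ⟨h.diff, hs, by
    simpa using (isBigO_refl σ' l).norm_left.mul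
      ((h.of_eq (s' := fun i => 1 * σ i) fun i => (one_mul _).symm).fderiv_isBigO h0)⟩

/-- a compactly supported `C¹` profile of a scale-invariant argument -/
theorem Cl.profile {ψ : ι → E → ℝ} (h : Cl l p σ s ψ) (hs' : ∀ i, s i = ψ i (p i)) {g : ℝ → ℝ}
    (hg : ContDiff ℝ 1 g) (hs : HasCompactSupport g) :
    Cl l p σ (fun _ => 1) (fun i q => g (ψ i q)) := by
  obtain rfl : s = fun i => ψ i (p i) := funext hs'
  obtain ⟨C, hC⟩ := hg.continuous.bounded_above_of_compact_support hs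
  obtain ⟨C', hC'⟩ := ((hg.continuous_deriv le_rfl).mul continuous_id).bounded_above_of_compact_support
    hs.deriv.mul_right
  exact h.comp_real (fun _ => g) (fun i => deriv g (ψ i (p i)))
    (Eventually.of_forall fun i => (hg.differentiable one_ne_zero _).hasDerivAt)
    (IsBigO.of_bound C (Eventually.of_forall fun i => by simpa using hC _))
    (IsBigO.of_bound C' (Eventually.of_forall fun i => by simpa using hC' _))

/-- the final regularity criterion -/
theorem contDiff_of_cl {T : Type*} [NormedAddCommGroup T] [NormedSpace ℝ T] {H : T × V → V'}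
    {η : T × V → ℝ} (h0 : ∀ t, H (t, 0) = 0) (h1 : ∀ q : T × V, q.2 ≠ 0 → ContDiffAt ℝ 1 H q)
    (h2 : Cl (comap Prod.snd (𝓝[≠] 0)) id (fun q => ‖q.2‖) (fun q => η q * ‖q.2‖) (fun _ => H))
    (h3 : Tendsto η (comap Prod.snd (𝓝[≠] 0)) (𝓝 0)) : ContDiff ℝ 1 H := by
  set l : Filter (T × V) := comap Prod.snd (𝓝[≠] 0) with hl
  have hne : ∀ᶠ q in l, ‖q.2‖ ≠ 0 := by
    rw [hl, eventually_comap]
    filter_upwards [self_mem_nhdsWithin] with v hv q hq
    simpa [hq] using hv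
  have hη : η =o[l] fun _ => (1 : ℝ) := (isLittleO_one_iff ℝ).2 h3
  have hsplit : ∀ t : T, 𝓝 (t, (0 : V)) ≤ l ⊔ 𝓟 {q | q.2 = 0} := by
    intro t s hs
    obtain ⟨⟨u, hu, hus⟩, hs2⟩ := mem_sup.1 hs
    rw [mem_nhdsWithin_iff_eventually] at hu
    have := (continuous_snd.tendsto (t, (0 : V))).eventually hu
    filter_upwards [this] with q hq
    by_cases h : q.2 = 0
    · exact hs2 h
    · exact hus (hq h)
  have hd : ∀ t, HasFDerivAt H (0 : T × V →L[ℝ] V') (t, 0) := by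
    intro t
    rw [hasFDerivAt_iff_isLittleO]
    simp only [h0, sub_zero, zero_apply]
    have ha : H =o[l] fun q => q - (t, 0) := by
      have := h2.val.trans_isLittleO (hη.mul_isBigO (isBigO_refl (fun q : T × V => ‖q.2‖) l))
      refine this.trans_isBigO (IsBigO.of_bound' (Eventually.of_forall fun q => ?_))
      exact le_trans (le_of_eq (by simp)) (norm_snd_le (q - (t, 0)))
    have hb : H =o[𝓟 {q | q.2 = 0}] fun q => q - (t, 0) := by
      refine (isLittleO_zero _ _).congr' ?_ EventuallyEq.rfl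
      rw [EventuallyEq, eventually_principal]
      rintro ⟨s, v⟩ (rfl : v = 0)
      exact (h0 s).symm
    exact (ha.sup hb).mono (hsplit t)
  rw [contDiff_one_iff_fderiv]
  refine ⟨fun q => ?_, continuous_iff_continuousAt.2 fun q => ?_⟩
  · by_cases h : q.2 = 0
    · obtain ⟨t, v⟩ := q
      obtain rfl : v = 0 := h
      exact (hd t).differentiableAt
    · exact (h1 q h).differentiableAt one_ne_zero
  · by_cases h : q.2 = 0
    · obtain ⟨t, v⟩ := q
      obtain rfl : v = 0 := h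
      rw [ContinuousAt, (hd t).fderiv]
      refine Tendsto.mono_left (tendsto_sup.2 ⟨?_, ?_⟩) (hsplit t)
      · rw [tendsto_zero_iff_norm_tendsto_zero]
        exact (h2.fderiv_isBigO hne).trans_tendsto h3
      · refine tendsto_const_nhds.congr' ?_
        rw [EventuallyEq, eventually_principal]
        rintro ⟨s, v⟩ (rfl : v = 0)
        exact (hd s).fderiv.symm
    · exact (h1 q h).continuousAt_fderiv (by norm_num)

end Crest.Agent.H0163
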