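import Crest.Agent.H0163.Map
import Crest.Agent.H0163.Cl

/-! The fibre map is `C¹`. -/

set_option autoImplicit false

namespace Crest.Agent.H0163

open Filter Asymptotics Topology Real

/-- a `C¹` profile supported in `[-3, 3]` -/
structure Prf (g : ℝ → ℝ) : Prop where
  smooth : ContDiff ℝ 1 g
  zero : ∀ x, 3 ≤ |x| → g x = 0

theorem Prf.compact {g : ℝ → ℝ} (h : Prf g) : HasCompactSupport g :=
  HasCompactSupport.intro (K := Set.Icc (-3) 3) isCompact_Icc fun x hx => h.zero x (by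
    by_contra h1
    exact hx (abs_le.1 (not_le.1 h1).le))

theorem contDiff_prof (a b : ℝ) : ContDiff ℝ 1 (prof a b) := by
  unfold prof
  exact smoothTransition.contDiff.comp (by fun_prop)

theorem prf_pu : Prf pu := ⟨contDiff_prof _ _, fun _ h => pu_zero (by linarith)⟩
theorem prf_pk : Prf pk := ⟨contDiff_prof _ _, fun _ h => pk_zero (by linarith)⟩
theorem prf_pb : Prf pb := ⟨contDiff_prof _ _, fun _ h => pb_zero (by linarith)⟩
theorem prf_pw : Prf pw := ⟨contDiff_prof _ _, fun _ h => pw_zero (by linarith)⟩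
theorem prf_pb1 : Prf fun x => pb (x - 1) :=
  ⟨prf_pb.smooth.comp (by fun_prop), fun x h => pb_zero (by
    have := abs_sub_abs_le_abs_sub x 1; rw [abs_one] at this; linarith)⟩
theorem prf_pb2 : Prf fun x => pb (x + 1) :=
  ⟨prf_pb.smooth.comp (by fun_prop), fun x h => pb_zero (by
    have := abs_sub_abs_le_abs_sub x (-1); rw [abs_neg, abs_one, sub_neg_eq_add] at this; linarith)⟩

theorem xx_local (j : ℕ) (t : ℝ) : (∃ n : ℤ, xx j =ᶠ[𝓝 t] fun s : ℝ => qq j * (s - n)) ∨
    ∀ᶠ s in 𝓝 t, 3 ≤ |xx j s| := by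
  by_cases h : |fr t| < 1 / 2
  · left
    refine ⟨round t, ?_⟩
    have h1 : ∀ᶠ s : ℝ in 𝓝 t, |s - round t| < 1 / 2 :=
      (show Continuous fun s : ℝ => |s - (round t : ℝ)| by fun_prop).continuousAt.eventually_lt
        continuousAt_const h
    filter_upwards [h1] with s hs
    have : round s = round t := by
      rw [abs_lt] at hs
      rw [round_eq_iff]
      constructor <;> linarith [hs.1, hs.2]
    rw [xx, fr, this]
  · right
    have h1 : ∀ᶠ s in 𝓝 t, |t - s| < 1 / 4 :=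
      (show Continuous fun s : ℝ => |t - s| by fun_prop).continuousAt.eventually_lt
        continuousAt_const (by simp)
    filter_upwards [h1] with s hs
    have h2 := round_le t (round s)
    have h3 := abs_add_le (t - s) (s - round s)
    rw [show t - s + (s - round s) = t - round s by ring] at h3
    have h4 := qq_geR j
    rw [xx, abs_mul, abs_of_pos (qq_posR j), fr]
    rw [fr] at h
    nlinarith

theorem Prf.contDiff_xx {g : ℝ → ℝ} (h : Prf g) (j : ℕ) : ContDiff ℝ 1 fun t => g (xx j t) := by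
  refine contDiff_iff_contDiffAt.2 fun t => ?_
  rcases xx_local j t with ⟨n, hn⟩ | hn
  · exact (h.smooth.contDiffAt.comp t (f := fun s : ℝ => qq j * (s - n))
      (by fun_prop)).congr_of_eventuallyEq (hn.fun_comp g)
  · exact contDiffAt_const.congr_of_eventuallyEq (hn.mono fun s hs => h.zero _ hs)

theorem Prf.deriv_xx {g : ℝ → ℝ} (h : Prf g) :
    ∃ C, ∀ j t, ‖deriv (fun t => g (xx j t)) t‖ ≤ C * qq j := by
  obtain ⟨C, hC⟩ := (h.smooth.continuous_deriv le_rfl).bounded_above_of_compact_support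
    h.compact.deriv
  refine ⟨C, fun j t => ?_⟩
  have h0 := qq_posR j
  rcases xx_local j t with ⟨n, hn⟩ | hn
  · have h1 : HasDerivAt (fun s : ℝ => qq j * (s - n)) (qq j) t := by
      simpa using ((hasDerivAt_id t).sub_const (n : ℝ)).const_mul (qq j : ℝ)
    have h2 := ((h.smooth.differentiable one_ne_zero _).hasDerivAt.comp t h1).deriv
    rw [show deriv (fun t => g (xx j t)) t = _ from (hn.fun_comp g).deriv_eq, h2, norm_mul,
      Real.norm_of_nonneg h0.le]
    gcongr
    exact hC _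
  · have : (fun t => g (xx j t)) =ᶠ[𝓝 t] fun _ => 0 := hn.mono fun s hs => h.zero _ hs
    rw [this.deriv_eq, deriv_const, norm_zero]
    have := (norm_nonneg _).trans (hC 0)
    positivity

theorem contDiff_aa : ContDiff ℝ 1 aa := by unfold aa; fun_prop

theorem norm_deriv_aa (t : ℝ) : ‖deriv aa t‖ ≤ 2 * π * KK := by
  have h1 : HasDerivAt (fun t => π * t) π t := by simpa using (hasDerivAt_id t).const_mul π
  have h2 : HasDerivAt aa _ t := (h1.sin.fun_pow 2).const_mul KK
  have hK := KK_pos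
  have := pi_pos
  rw [h2.deriv]
  simp only [norm_mul, Real.norm_eq_abs, Nat.cast_ofNat, Nat.add_one_sub_one, pow_one,
    abs_of_pos hK, abs_of_pos pi_pos, abs_two]
  calc _ ≤ KK * (2 * 1 * (1 * π)) := by
        gcongr
        exacts [abs_sin_le_one _, abs_cos_le_one _]
    _ = _ := by ring

theorem contDiff_NN : ContDiff ℝ 1 NN := by
  unfold NN
  refine ((ContDiff.add (ContDiff.add ?_ ?_) ?_).add ?_) <;>
    exact ContDiff.norm_sq ℝ (by fun_prop)

theorem contDiff_st (k i : ℕ) : ContDiff ℝ 1 (st k i) :=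
  prf_pw.smooth.comp (contDiff_NN.div_const _)

theorem apow_eq {m : ℕ} (hm : 1 ≤ m) (M : ℂ) : apow m M = ‖M‖ • (‖M‖⁻¹ • M) ^ m := by
  obtain ⟨θ, hθ, h⟩ := exists_polar M
  by_cases h0 : M = 0
  · simp [h0, apow, show m ≠ 0 by omega]
  · conv_lhs => rw [h, apow_smul hm (norm_nonneg _) hθ]
    congr 2
    nth_rewrite 2 [h]
    rw [smul_smul, inv_mul_cancel₀ (norm_ne_zero_iff.2 h0), one_smul]

theorem PP_eventually_zero {E : Type*} [TopologicalSpace E] (j e : ℕ) {n : E → ℝ} {M : E → ℂ}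
    {p : E} (hn : ContinuousAt n p) (hM : ContinuousAt M p) (h0 : 0 < n p) (h1 : M p = 0) :
    (fun _ => 0) =ᶠ[𝓝 p] fun q => PP j e (n q) (M q) := by
  have h2 : ContinuousAt (fun q => |DD j ^ 2 * ‖M q‖ ^ 2 / n q|) p :=
    ((continuousAt_const.mul (hM.norm.pow 2)).div hn h0.ne').abs
  filter_upwards [h2.eventually_lt (g := fun _ => 1 / 4) continuousAt_const (by simp [h1])]
    with q hq
  rw [PP, thr, pw_one hq.le]
  simp

theorem contDiffAt_PP {E : Type*} [NormedAddCommGroup E] [NormedSpace ℝ E] (j e : ℕ)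
    {n : E → ℝ} {M : E → ℂ} {p : E} (hn : ContDiffAt ℝ 1 n p) (hM : ContDiffAt ℝ 1 M p)
    (h0 : 0 < n p) : ContDiffAt ℝ 1 (fun q => PP j e (n q) (M q)) p := by
  by_cases h1 : M p = 0
  · exact contDiffAt_const.congr_of_eventuallyEq
      (PP_eventually_zero j e hn.continuousAt hM.continuousAt h0 h1).symm
  · have h2 := hM.norm ℝ h1
    unfold PP thr apow
    refine (contDiffAt_const.sub (prf_pw.smooth.contDiffAt.comp p
      ((contDiffAt_const.mul (h2.pow 2)).div hn h0.ne'))).smul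
      (((h2.pow _).inv (pow_ne_zero _ (norm_ne_zero_iff.2 h1))).smul (hM.pow _))

theorem NN_pos {v : W} (h : v ≠ 0) : 0 < NN v := by
  rw [← nu_sq]
  have := (norm_pos_iff.2 h).trans_le (norm_le_nu v)
  positivity

theorem contDiff_Lin (j : ℕ) : ContDiff ℝ 1 fun q : ℝ × ℂ × ℂ => Lin j q.1 q.2 := by
  unfold Lin
  split_ifs
  · exact contDiff_const
  · have h1 := prf_pu.contDiff_xx j
    have h2 := prf_pk.contDiff_xx j
    have h3 := contDiff_aa
    exact ((((h3.mul (contDiff_const.sub h1)).comp contDiff_fst).smul contDiff_snd.snd).prodMk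
      (((h3.mul (contDiff_const.sub h2)).comp contDiff_fst).smul contDiff_snd.fst))

theorem contDiffAt_Load {E : Type*} [NormedAddCommGroup E] [NormedSpace ℝ E] (j : ℕ)
    {τ n : E → ℝ} {M : E → ℂ} {p : E} (hτ : ContDiffAt ℝ 1 τ p) (hn : ContDiffAt ℝ 1 n p)
    (hM : ContDiffAt ℝ 1 M p) (h0 : 0 < n p) :
    ContDiffAt ℝ 1 (fun q => Load j (τ q) (n q) (M q)) p := by
  unfold Load
  split_ifs
  · exact ((contDiffAt_PP _ _ hn hM h0).const_smul KK).prodMk contDiffAt_const
  · have h1 := (prf_pu.contDiff_xx j).contDiffAt.comp p hτ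
    have h2 := (prf_pb.contDiff_xx j).contDiffAt.comp p hτ
    have h3 := (prf_pb1.contDiff_xx j).contDiffAt.comp p hτ
    have h4 := (prf_pb2.contDiff_xx j).contDiffAt.comp p hτ
    exact ((((contDiffAt_const.mul h1).mul h3).smul (contDiffAt_PP _ _ hn hM h0)).add
      (((contDiffAt_const.mul h1).mul h4).smul (contDiffAt_PP _ _ hn hM h0))).prodMk
      ((contDiffAt_const.mul h2).smul (contDiffAt_PP _ _ hn hM h0))

theorem contDiffAt_GG (k : ℕ) {p : ℝ × W} (h : p.2 ≠ 0) :
    ContDiffAt ℝ 1 (fun q : ℝ × W => GG k q.1 q.2) p := by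
  have hs : ∀ i, ContDiffAt ℝ 1 (fun q : ℝ × W => st k i q.2) p := fun i =>
    (contDiff_st k i).contDiffAt.comp p contDiffAt_snd
  have hu : ContDiffAt ℝ 1 (fun q : ℝ × W => pu (xx (k + 1) q.1)) p :=
    (prf_pu.contDiff_xx (k + 1)).contDiffAt.comp p contDiffAt_fst
  have hn : ContDiffAt ℝ 1 (fun q : ℝ × W => NN q.2) p :=
    contDiff_NN.contDiffAt.comp p contDiffAt_snd
  have hL1 : ∀ j, ContDiffAt ℝ 1 (fun q : ℝ × W => Lin j q.1 q.2.1) p := fun j =>
    (contDiff_Lin j).contDiffAt.comp p (f := fun q : ℝ × W => (q.1, q.2.1)) (by fun_prop)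
  have hL2 : ∀ j, ContDiffAt ℝ 1 (fun q : ℝ × W => Lin j q.1 q.2.2) p := fun j =>
    (contDiff_Lin j).contDiffAt.comp p (f := fun q : ℝ × W => (q.1, q.2.2)) (by fun_prop)
  have hlo : ContDiffAt ℝ 1 (fun q : ℝ × W => Mlo k q.1 q.2) p :=
    ((contDiffAt_const.sub ((hs 3).mul hu)).smul contDiffAt_snd.fst.fst).add
      (((hs 3).mul hu).smul contDiffAt_snd.snd.fst)
  have hhi : ContDiffAt ℝ 1 (fun q : ℝ × W => Mhi k q.2) p :=
    ((contDiffAt_const.sub (hs 3)).smul contDiffAt_snd.fst.fst).add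
      ((hs 3).smul contDiffAt_snd.snd.fst)
  exact ((hL1 k).add ((contDiffAt_const.sub (hs 4)).smul
    (contDiffAt_Load k contDiffAt_fst hn hlo (NN_pos h)))).prodMk
    ((((contDiffAt_const.sub (hs 1)).smul (hL2 _)).add ((hs 1).smul (hL2 _))).add
      ((hs 2).smul (contDiffAt_Load (k + 1) contDiffAt_fst hn hhi (NN_pos h))))

/-- `par` as a linear map -/
noncomputable def parL (k : ℕ) : W →L[ℝ] W :=
  if Even k then ContinuousLinearMap.id ℝ W else ContinuousLinearEquiv.prodComm ℝ (ℂ × ℂ) (ℂ × ℂ)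

theorem parL_apply (k : ℕ) (v : W) : parL k v = par k v := by
  unfold parL par; split_ifs <;> rfl

theorem norm_par (k : ℕ) (v : W) : ‖par k v‖ = ‖v‖ := by
  unfold par; split_ifs
  · rfl
  · rw [Prod.norm_def, Prod.norm_def v, max_comm]; rfl

theorem norm_parL (k : ℕ) : ‖parL k‖ ≤ 1 :=
  ContinuousLinearMap.opNorm_le_bound _ zero_le_one fun v => by rw [parL_apply, norm_par, one_mul]

theorem contDiffAt_FZ (k : ℕ) {p : ℝ × W} (h : p.2 ≠ 0) :
    ContDiffAt ℝ 1 (fun q : ℝ × W => FZ k q.1 q.2) p := by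
  have h1 : (p.1, parL k p.2).2 ≠ 0 := by
    rw [parL_apply, ← norm_ne_zero_iff, norm_par]; exact norm_ne_zero_iff.2 h
  have h2 := (contDiffAt_GG k h1).comp p (f := fun q : ℝ × W => (q.1, parL k q.2)) (by fun_prop)
  have h3 := (parL k).contDiff.contDiffAt.comp p h2
  simpa only [Function.comp_def, parL_apply, FZ] using h3

theorem continuous_nu : Continuous nu := contDiff_NN.continuous.sqrt

theorem FF_local {p : ℝ × W} (h : p.2 ≠ 0) :
    (fun q : ℝ × W => FZ (zone (nu p.2)) q.1 q.2) =ᶠ[𝓝 p] fun q => FF q.1 q.2 := by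
  have h0 : 0 < nu p.2 := (norm_pos_iff.2 h).trans_le (norm_le_nu _)
  have hc : ContinuousAt (fun q : ℝ × W => nu q.2) p :=
    (continuous_nu.comp continuous_snd).continuousAt
  have h1 := continuousAt_const.eventually_lt hc (zone_spec h0)
  have h2 : ∀ᶠ q : ℝ × W in 𝓝 p, ∀ j, zone (nu p.2) = j + 1 → nu q.2 ≤ rr j 4 / 2 := by
    cases hz : zone (nu p.2) with
    | zero => simp
    | succ j =>
      have h3 : nu p.2 < rr j 4 / 2 := by
        have := zone_spec' hz
        have := DD_TT_succ j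
        have := two_le_DD (j + 1)
        have := TT_pos (j + 1)
        nlinarith
      filter_upwards [hc.eventually_lt continuousAt_const h3] with q hq j' hj
      obtain rfl : j = j' := by omega
      exact hq.le
  filter_upwards [h1, h2] with q h3 h4
  exact (FF_eq _ _ _ ((rr_le_TT _ _).trans h3.le) h4).symm

section

variable {ι : Type*} {l : Filter ι} {p : ι → ℝ × W} {σ s : ι → ℝ} {j : ι → ℕ}

theorem cl_time (f : ι → ℝ → ℝ) (h1 : ∀ i, ContDiff ℝ 1 (f i))
    (h2 : (fun i => f i (p i).1) =O[l] s) (h3 : (fun i => σ i * deriv (f i) (p i).1) =O[l] s) :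
    Cl l p σ s (fun i q => f i q.1) := by
  refine Cl.mk' (Eventually.of_forall fun i =>
    ((h1 i).differentiable one_ne_zero _).comp _ differentiableAt_fst) h2
    (Eventually.of_forall fun i => ?_) h3.norm_left
  rw [norm_mul, fderiv_fun_comp _ ((h1 i).differentiable one_ne_zero _) differentiableAt_fst,
    norm_deriv_eq_norm_fderiv]
  refine mul_le_mul_of_nonneg_left ((ContinuousLinearMap.opNorm_comp_le _ _).trans
    (mul_le_of_le_one_right (norm_nonneg _) ?_)) (norm_nonneg _)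
  rw [fderiv_fst]
  exact ContinuousLinearMap.norm_fst_le _ _ _

theorem Prf.cl0 {g : ℝ → ℝ} (h : Prf g) :
    Cl l p (fun i => (qq (j i) : ℝ)⁻¹) (fun _ => 1) (fun i q => g (xx (j i) q.1)) := by
  obtain ⟨C, hC⟩ := h.smooth.continuous.bounded_above_of_compact_support h.compact
  obtain ⟨C', hC'⟩ := h.deriv_xx
  refine cl_time (fun i t => g (xx (j i) t)) (fun i => h.contDiff_xx _)
    (IsBigO.of_bound C (Eventually.of_forall fun i => by simpa using hC _))
    (IsBigO.of_bound C' (Eventually.of_forall fun i => ?_))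
  have h0 := qq_posR (j i)
  rw [norm_mul, norm_inv, Real.norm_of_nonneg h0.le, norm_one, mul_one, inv_mul_le_iff₀ h0,
    mul_comm]
  exact hC' _ _

theorem cl_aa0 : Cl l p (fun i => (qq (j i) : ℝ)⁻¹) (fun _ => 1) (fun _ q => aa q.1) := by
  refine cl_time (fun _ => aa) (fun _ => contDiff_aa)
    (IsBigO.of_bound KK (Eventually.of_forall fun i => by
      simpa [abs_of_nonneg (aa_nonneg _)] using aa_le _))
    (IsBigO.of_bound (2 * π * KK) (Eventually.of_forall fun i => ?_))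
  have h0 := qq_geR (j i)
  rw [norm_mul, norm_inv, Real.norm_of_nonneg (by linarith), norm_one, mul_one]
  exact (mul_le_of_le_one_left (norm_nonneg _) (inv_le_one_of_one_le₀ (by linarith))).trans
    (norm_deriv_aa _)

/-- the scale is small compared with the level -/
def Small (l : Filter ι) (σ : ι → ℝ) (j : ι → ℕ) : Prop :=
  σ =O[l] fun i => (qq (j i) : ℝ)⁻¹ * (qq (j i) : ℝ)⁻¹

theorem Small.isBigO (h : Small l σ j) : σ =O[l] fun i => (qq (j i) : ℝ)⁻¹ := by
  refine IsBigO.trans h (IsBigO.of_bound' (Eventually.of_forall fun i => ?_))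
  have h0 := qq_geR (j i)
  rw [norm_mul]
  refine mul_le_of_le_one_left (norm_nonneg _) ?_
  rw [norm_inv, Real.norm_of_nonneg (by linarith)]
  exact inv_le_one_of_one_le₀ (by linarith)

theorem Prf.cl {g : ℝ → ℝ} (h : Prf g) (hσ : Small l σ j) :
    Cl l p σ (fun _ => 1) (fun i q => g (xx (j i) q.1)) := h.cl0.scale hσ.isBigO

theorem Prf.cl_aa {g : ℝ → ℝ} (h : Prf g) (hσ : Small l σ j) :
    Cl l p σ (fun i => (qq (j i) : ℝ)⁻¹) (fun i q => aa q.1 * g (xx (j i) q.1)) := by
  have h1 := (cl_aa0 (l := l) (p := p) (j := j)).mul (h.cl0 (j := j))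
  obtain ⟨C, hC⟩ := h.smooth.continuous.bounded_above_of_compact_support h.compact
  have hC0 := (norm_nonneg _).trans (hC 0)
  have hK := KK_pos
  refine ⟨h1.diff, IsBigO.of_bound (KK * 144 * C) (Eventually.of_forall fun i => ?_), ?_⟩
  · have h0 := qq_geR (j i)
    rw [norm_inv, Real.norm_of_nonneg (r := (qq (j i) : ℝ)) (by linarith)]
    by_cases hx : 3 ≤ |xx (j i) (p i).1|
    · rw [h.zero _ hx, mul_zero, norm_zero]; positivity
    · rw [norm_mul, Real.norm_of_nonneg (aa_nonneg _), mul_right_comm]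
      refine mul_le_mul ?_ (hC _) (norm_nonneg _) (by positivity)
      rw [aa, mul_assoc]
      refine mul_le_mul_of_nonneg_left ((sin_sq_le _).trans ?_) hK.le
      rw [xx, abs_mul, abs_of_pos (qq_posR _)] at hx
      rw [← div_eq_mul_inv, le_div_iff₀ (by linarith), ← sq_abs]
      have := abs_fr_le (p i).1
      have := abs_nonneg (fr (p i).1)
      nlinarith
  · refine (IsBigO.mul (IsBigO.norm_left hσ) (isBigO_refl _ _)).trans ?_
    have := (isBigO_refl (fun i => (qq (j i) : ℝ)⁻¹) l).mul h1.der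
    simpa [mul_assoc] using this

theorem cl_PP {E : Type*} [NormedAddCommGroup E] [NormedSpace ℝ E] {p : ι → E} (j e : ι → ℕ)
    {n : ι → E → ℝ} {M : ι → E → ℂ} (hn : Cl l p σ s n) (hs' : ∀ i, s i = n i (p i))
    (hM : Cl l p σ σ M) (h0 : ∀ᶠ i in l, 0 < s i) (hσ : ∀ᶠ i in l, σ i ≠ 0) :
    Cl l p σ (fun i => 2 ^ e i * σ i) (fun i q => PP (j i) (e i) (n i q) (M i q)) := by
  obtain rfl : s = fun i => n i (p i) := funext hs'
  refine Cl.split {i | M i (p i) ≠ 0} ?_ ?_
  · set l' := l ⊓ 𝓟 {i | M i (p i) ≠ 0}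
    have hl : l' ≤ l := inf_le_left
    have hM0 : ∀ᶠ i in l', M i (p i) ≠ 0 := mem_inf_of_right (mem_principal_self _)
    have hM0' : ∀ᶠ i in l', ‖M i (p i)‖ ≠ 0 := hM0.mono fun i hi => norm_ne_zero_iff.2 hi
    have hs : (fun i => ‖M i (p i)‖) =O[l'] σ := (hM.val.mono hl).norm_left
    have hM' : Cl l' p (fun i => ‖M i (p i)‖) (fun i => ‖M i (p i)‖) M :=
      (hM.filter hl).rescale' (hl hσ) (isBigO_refl _ _).norm_right
    have hn' := ((hn.filter hl).scale hs).inv (fun _ => rfl) (hl (h0.mono fun i hi => hi.ne'))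
    have hψ := (((Cl.const (fun i => DD (j i) ^ 2) (isBigO_refl _ _)).mul hM'.norm_sq).mul
      hn').profile (fun _ => rfl) prf_pw.smooth prf_pw.compact
    have hu := ((hM'.norm hM0).inv (fun _ => rfl) hM0').smul hM'
    have hu' := (hu.mono (s' := fun _ => 1) (IsBigO.of_bound' (hM0'.mono fun i hi => by
      rw [inv_mul_cancel₀ hi]))).pow (hM0'.mono fun i hi => by
        rw [norm_smul, norm_inv, norm_norm, inv_mul_cancel₀ hi]) (fun i => 2 ^ e i)
        fun i => Nat.one_le_two_pow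
    have := (hψ.one_sub.smul_one ((hM'.norm hM0).smul hu')).of_eq
      (s' := fun i => 2 ^ e i * ‖M i (p i)‖) fun i => by push_cast; ring
    refine (this.rescale hM0' hs).congr (Eventually.of_forall fun i => Eventually.of_forall
      fun q => ?_)
    simp only [PP, thr, apow_eq Nat.one_le_two_pow, div_eq_mul_inv]
  · refine (Cl.const (fun _ => (0 : ℂ)) (isBigO_zero _ _)).congr ?_
    have hM0 : ∀ᶠ i in l ⊓ 𝓟 {i | M i (p i) ≠ 0}ᶜ, i ∈ {i | M i (p i) ≠ 0}ᶜ :=
      mem_inf_of_right (mem_principal_self _)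
    filter_upwards [hM0, mem_inf_of_left h0, mem_inf_of_left hn.diff, mem_inf_of_left hM.diff]
      with i h1 h2 h3 h4
    exact PP_eventually_zero _ _ h3.continuousAt h4.continuousAt h2 (by simpa using h1)

theorem cl_Lin {y : ι → ℝ × W → ℂ × ℂ} (hσ : Small l σ j) (hj : ∀ᶠ i in l, j i ≠ 0)
    (hy : Cl l p σ σ y) : Cl l p σ (fun i => (qq (j i) : ℝ)⁻¹ * σ i)
      (fun i q => Lin (j i) q.1 (y i q) - aa q.1 • (y i q).swap) := by
  refine (((prf_pu.cl_aa hσ).smul hy.snd).neg.prodMk ((prf_pk.cl_aa hσ).smul hy.fst).neg).congr ?_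
  filter_upwards [hj] with i hi
  refine Eventually.of_forall fun q => ?_
  simp only [Lin, if_neg hi, Prod.swap, Prod.smul_mk, Prod.mk_sub_mk, ← sub_smul, ← neg_smul]
  congr 2 <;> ring

theorem cc_isBigO (e : ι → ℕ) (he : ∀ i, e i ≤ qq (j i)) :
    (fun i => cc (j i) * (2 ^ e i * σ i)) =O[l] fun i => (qq (j i) : ℝ)⁻¹ * σ i := by
  simp only [← mul_assoc]
  refine IsBigO.mul (IsBigO.of_bound KK (Eventually.of_forall fun i => ?_)) (isBigO_refl _ _)
  have h0 := qq_posR (j i)
  have h1 := cc_pos (j i)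
  rw [Real.norm_of_nonneg (by positivity), Real.norm_of_nonneg (by positivity), cc, mul_assoc]
  refine mul_le_mul_of_nonneg_left ?_ KK_pos.le
  have h2 : ((qq (j i) : ℝ)) ≤ 2 ^ qq (j i) := by exact_mod_cast Nat.lt_two_pow_self.le
  calc (1 / 4 : ℝ) ^ qq (j i) * 2 ^ e i ≤ (1 / 4 : ℝ) ^ qq (j i) * 2 ^ qq (j i) := by
        gcongr
        · norm_num
        · exact he i
    _ = (2 ^ qq (j i))⁻¹ := by rw [← mul_pow, ← inv_pow]; norm_num
    _ ≤ _ := by gcongr

theorem cl_Load {n : ι → ℝ × W → ℝ} {M : ι → ℝ × W → ℂ} (hσ : Small l σ j)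
    (hj : ∀ᶠ i in l, j i ≠ 0) (hn : Cl l p σ s n) (hs : ∀ i, s i = n i (p i))
    (hM : Cl l p σ σ M) (h0 : ∀ᶠ i in l, 0 < s i) (hσ0 : ∀ᶠ i in l, σ i ≠ 0) :
    Cl l p σ (fun i => (qq (j i) : ℝ)⁻¹ * σ i)
      (fun i q => Load (j i) q.1 (n i q) (M i q)) := by
  have hc : Cl l p σ (fun i => cc (j i)) (fun i _ => cc (j i)) := Cl.const _ (isBigO_refl _ _)
  have h1 := ((((hc.mul (prf_pu.cl hσ)).mul (prf_pb1.cl hσ)).of_eq
    (s' := fun i => cc (j i)) (by simp)).smul (cl_PP j (fun i => hh (j i) 1) hn hs hM h0 hσ0)).mono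
    (cc_isBigO _ fun i => (hh_lt _ _).le)
  have h2 := ((((hc.mul (prf_pu.cl hσ)).mul (prf_pb2.cl hσ)).of_eq
    (s' := fun i => cc (j i)) (by simp)).smul (cl_PP j (fun i => hh (j i) (-1)) hn hs hM h0 hσ0)).mono
    (cc_isBigO _ fun i => (hh_lt _ _).le)
  have h3 := (((hc.mul (prf_pb.cl hσ)).of_eq
    (s' := fun i => cc (j i)) (by simp)).smul (cl_PP j (fun i => qq (j i)) hn hs hM h0 hσ0)).mono
    (cc_isBigO _ fun i => le_rfl)
  refine ((h1.add h2).prodMk h3).congr ?_
  filter_upwards [hj] with i hi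
  refine Eventually.of_forall fun q => ?_
  simp only [Load, if_neg hi]

theorem Small.anti {j' : ι → ℕ} (h : Small l σ j) (hj : ∀ i, j' i ≤ j i) : Small l σ j' := by
  refine IsBigO.trans h (IsBigO.of_bound' (Eventually.of_forall fun i => ?_))
  have h1 := qq_posR (j i)
  have h2 := qq_posR (j' i)
  have h3 : (qq (j' i) : ℝ) ≤ qq (j i) := by exact_mod_cast qq_mono (hj i)
  rw [Real.norm_of_nonneg (by positivity), Real.norm_of_nonneg (by positivity)]
  gcongr

theorem inv_qq_isBigO {j' : ι → ℕ} (hj : ∀ i, j' i ≤ j i) :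
    (fun i => (qq (j i) : ℝ)⁻¹ * σ i) =O[l] fun i => (qq (j' i) : ℝ)⁻¹ * σ i := by
  refine IsBigO.mul (IsBigO.of_bound' (Eventually.of_forall fun i => ?_)) (isBigO_refl _ _)
  have h1 := qq_posR (j i)
  have h2 := qq_posR (j' i)
  have h3 : (qq (j' i) : ℝ) ≤ qq (j i) := by exact_mod_cast qq_mono (hj i)
  rw [Real.norm_of_nonneg (by positivity), Real.norm_of_nonneg (by positivity)]
  gcongr

/-- swap inside each pair -/
def SW (v : W) : W := (v.1.swap, v.2.swap)

theorem cl_GG {k : ι → ℕ} {w : ι → ℝ × W → W} (hσ : Small l σ fun i => k i + 1)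
    (hk : ∀ᶠ i in l, 2 ≤ k i) (hw : Cl l p σ σ w) (hσw : ∀ i, σ i = ‖w i (p i)‖)
    (hσ0 : ∀ᶠ i in l, σ i ≠ 0) :
    Cl l p σ (fun i => (qq (k i - 1) : ℝ)⁻¹ * σ i)
      (fun i q => GG (k i) q.1 (w i q) - aa q.1 • SW (w i q)) := by
  have hn : Cl l p σ (fun i => NN (w i (p i))) (fun i q => NN (w i q)) := by
    refine (((hw.fst.fst.norm_sq.add hw.fst.snd.norm_sq).add hw.snd.fst.norm_sq).add
      hw.snd.snd.norm_sq).mono (IsBigO.of_bound' (Eventually.of_forall fun i => ?_))
    rw [Real.norm_of_nonneg (sq_nonneg _), Real.norm_of_nonneg (NN_nonneg _), hσw, ← nu_sq]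
    exact pow_le_pow_left₀ (norm_nonneg _) (norm_le_nu _) 2
  have h0 : ∀ᶠ i in l, 0 < NN (w i (p i)) := hσ0.mono fun i hi =>
    NN_pos (by rwa [hσw, norm_ne_zero_iff] at hi)
  have hs : ∀ m, Cl l p σ (fun _ => 1) (fun i q => st (k i) m (w i q)) := fun m => by
    have := (hn.mul (Cl.const (fun i => (rr (k i) m ^ 2)⁻¹) (isBigO_refl _ _))).profile
      (fun _ => rfl) prf_pw.smooth prf_pw.compact
    simpa only [st, div_eq_mul_inv] using this
  have hσ1 : Small l σ k := hσ.anti fun i => by omega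
  have hσ2 : Small l σ fun i => k i - 1 := hσ.anti fun i => by omega
  have hsu := ((hs 3).mul (prf_pu.cl hσ)).of_eq (s' := fun _ => 1) (by simp)
  have hlo : Cl l p σ σ (fun i q => Mlo (k i) q.1 (w i q)) :=
    (hsu.one_sub.smul_one hw.fst.fst).add (hsu.smul_one hw.snd.fst)
  have hhi : Cl l p σ σ (fun i q => Mhi (k i) (w i q)) :=
    ((hs 3).one_sub.smul_one hw.fst.fst).add ((hs 3).smul_one hw.snd.fst)
  have h1 := ((cl_Lin hσ1 (hk.mono fun i hi => by omega) hw.fst).add ((hs 4).one_sub.smul_one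
    (cl_Load hσ1 (hk.mono fun i hi => by omega) hn (fun _ => rfl) hlo h0 hσ0))).mono
    (inv_qq_isBigO (j' := fun i => k i - 1) fun i => by omega)
  have h2 := (((hs 1).smul_one (cl_Lin hσ (hk.mono fun i hi => by omega) hw.snd)).add
    ((hs 2).smul_one (cl_Load hσ (hk.mono fun i hi => by omega) hn (fun _ => rfl) hhi h0 hσ0))).mono
    (inv_qq_isBigO (j' := fun i => k i - 1) fun i => by omega)
  have h3 := (hs 1).one_sub.smul_one (cl_Lin hσ2 (hk.mono fun i hi => by omega) hw.snd)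
  refine (h1.prodMk (h3.add h2)).congr (Eventually.of_forall fun i => Eventually.of_forall
    fun q => ?_)
  simp only [GG, SW, Prod.smul_mk, Prod.mk_sub_mk]
  congr 1
  · abel
  · module

end

theorem par_SW (k : ℕ) (v : W) : par k (SW (par k v)) = SW v := by
  unfold par SW; split_ifs <;> rfl

theorem tendsto_zone : Tendsto (fun v : W => zone (nu v)) (𝓝[≠] 0) atTop := by
  refine tendsto_atTop.2 fun K => ?_
  have h1 : ∀ᶠ v : W in 𝓝 0, nu v < TT (K + 1) :=
    continuous_nu.continuousAt.eventually_lt continuousAt_const (by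
      simpa [nu, NN] using TT_pos (K + 1))
  filter_upwards [self_mem_nhdsWithin, nhdsWithin_le_nhds h1] with v h2 h3
  have h4 := zone_spec ((norm_pos_iff.2 h2).trans_le (norm_le_nu v))
  by_contra h5
  have := TT_anti (show zone (nu v) + 1 ≤ K + 1 by omega)
  linarith

theorem TT_small (k : ℕ) : TT (k + 1) ≤ 2 * ((qq (k + 2) : ℝ)⁻¹ * (qq (k + 2) : ℝ)⁻¹) := by
  have h1 : (qq (k + 2) : ℝ) ≤ DD (k + 1) := by
    have h2 : ((qq (k + 2) : ℝ)) ≤ 2 ^ qq (k + 2) := by exact_mod_cast Nat.lt_two_pow_self.le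
    refine h2.trans (le_trans ?_ (DD_mono (Nat.le_succ k)))
    rw [DD_def]
    exact pow_le_pow_right₀ (by norm_num) (by omega)
  have h2 := qq_posR (k + 2)
  have h3 := two_le_DD (k + 1)
  have h4 : TT k ≤ 2 := TT_anti (Nat.zero_le k)
  rw [TT, ← mul_inv, ← div_eq_mul_inv, ← sq]
  gcongr
  exact (pow_le_pow_left₀ h2.le h1 2).trans (pow_le_pow_right₀ (by linarith) (by norm_num))

theorem FF_zero (t : ℝ) : FF t 0 = 0 := by
  have := (norm_le_nu _).trans (nu_FF_le t 0)
  simpa [nu, NN] using this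

/-- the fibre map is `C¹` -/
theorem contDiff_FF : ContDiff ℝ 1 fun q : ℝ × W => FF q.1 q.2 := by
  have hB : ContDiff ℝ 1 fun q : ℝ × W => aa q.1 • SW q.2 := by
    have := contDiff_aa
    unfold SW Prod.swap
    fun_prop
  suffices h : ContDiff ℝ 1 fun q : ℝ × W => FF q.1 q.2 - aa q.1 • SW q.2 by
    simpa using h.add hB
  set l : Filter (ℝ × W) := comap Prod.snd (𝓝[≠] 0) with hl
  have hz : Tendsto (fun q : ℝ × W => zone (nu q.2)) l atTop := tendsto_zone.comp tendsto_comap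
  have hne : ∀ᶠ q in l, q.2 ≠ 0 := (tendsto_comap (f := Prod.snd)).eventually self_mem_nhdsWithin
  refine contDiff_of_cl (η := fun q => (qq (zone (nu q.2) - 1) : ℝ)⁻¹)
    (fun t => by simp [FF_zero, SW]) (fun q hq =>
      ((contDiffAt_FZ _ hq).congr_of_eventuallyEq (FF_local hq).symm).sub hB.contDiffAt) ?_ ?_
  · have hw : Cl l id (fun q => ‖q.2‖) (fun q => ‖q.2‖) (fun _ (q : ℝ × W) => q.2) :=
      ⟨Eventually.of_forall fun _ => differentiableAt_snd, (isBigO_refl _ _).norm_right,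
        IsBigO.of_bound' (Eventually.of_forall fun q => by
          rw [fderiv_snd, norm_mul, norm_norm, norm_norm, norm_norm]
          exact mul_le_of_le_one_right (norm_nonneg _) (ContinuousLinearMap.norm_snd_le _ _ _))⟩
    have h1 := cl_GG (l := l) (k := fun q => zone (nu q.2)) (σ := fun q => ‖q.2‖)
      (w := fun q q' => parL (zone (nu q.2)) q'.2) (p := id) ?_ (hz.eventually_ge_atTop 2)
      (hw.clm (fun q => parL (zone (nu q.2))) fun _ => norm_parL _)
      (fun q => by simp [parL_apply, norm_par]) (hne.mono fun q hq => norm_ne_zero_iff.2 hq)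
    · refine (h1.clm (fun q => parL (zone (nu q.2))) fun _ => norm_parL _).congr ?_
      filter_upwards [hne] with q hq
      filter_upwards [FF_local hq] with q' hq'
      rw [← hq', map_sub, map_smul]
      simp only [parL_apply, par_SW, FZ, id]
    · refine IsBigO.of_bound 2 ?_
      filter_upwards [hz.eventually_ge_atTop 1] with q hq
      obtain ⟨k, hk⟩ : ∃ k, zone (nu q.2) = k + 1 := ⟨_, (Nat.sub_add_cancel hq).symm⟩
      have h2 := qq_posR (k + 2)
      rw [norm_norm, hk, Real.norm_of_nonneg (by positivity)]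
      exact (norm_le_nu _).trans ((zone_spec' hk).trans (TT_small k))
  · refine tendsto_inv_atTop_zero.comp (tendsto_natCast_atTop_atTop.comp ?_)
    exact (tendsto_atTop_mono le_qq tendsto_id).comp ((tendsto_sub_atTop_nat 1).comp hz)

end Crest.Agent.H0163
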