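import Crest.Agent.H0163.Defs
import Crest.Agent.H0163.Epoch
import Crest.Agent.H0163.Smooth

/-! The self-map of the manifold. -/

set_option autoImplicit false

namespace Crest.Agent.H0163

open Filter Topology Real

/-- a point of `ℝ³` from its coordinates -/
noncomputable def mk3 (ζ : ℂ) (y : ℝ) : E3 := !₂[ζ.re, ζ.im, y]

@[simp] theorem xi_mk3 (ζ : ℂ) (y : ℝ) : xi (mk3 ζ y) = ζ := rfl

@[simp] theorem eta_mk3 (ζ : ℂ) (y : ℝ) : eta (mk3 ζ y) = y := rfl

theorem ext3 {x y : E3} (h1 : xi x = xi y) (h2 : eta x = eta y) : x = y := by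
  ext i
  fin_cases i
  exacts [congrArg Complex.re h1, congrArg Complex.im h1, h2]

theorem xi_smul (c : ℝ) (x : E3) : xi (c • x) = c • xi x := by
  apply Complex.ext <;> simp [xi]

theorem eta_smul (c : ℝ) (x : E3) : eta (c • x) = c * eta x := by simp [eta]

theorem xi_add (x y : E3) : xi (x + y) = xi x + xi y := by
  apply Complex.ext <;> simp [xi]

theorem eta_add (x y : E3) : eta (x + y) = eta x + eta y := by simp [eta]

theorem xi_sub (x y : E3) : xi (x - y) = xi x - xi y := by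
  apply Complex.ext <;> simp [xi]

theorem eta_sub (x y : E3) : eta (x - y) = eta x - eta y := by simp [eta]

theorem xi_zero : xi 0 = 0 := rfl

theorem eta_zero : eta 0 = 0 := rfl

theorem norm_sq3 (x : E3) : ‖x‖ ^ 2 = ‖xi x‖ ^ 2 + eta x ^ 2 := by
  rw [EuclideanSpace.norm_sq_eq, Fin.sum_univ_three, Complex.sq_norm, Complex.normSq_apply]
  simp [xi, eta, sq]

theorem sphere_eq (s : S2) : ‖xi s‖ ^ 2 + eta s ^ 2 = 1 := by
  rw [← norm_sq3, norm_eq_of_mem_sphere]; norm_num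

theorem norm_xi_le (s : S2) : ‖xi s‖ ≤ 1 := by
  have := sphere_eq s
  nlinarith [norm_nonneg (xi s), sq_nonneg (eta s)]

theorem eta_le (s : S2) : eta s ≤ 1 := by
  have := sphere_eq s
  nlinarith [sq_nonneg ‖xi s‖]

theorem contDiff_xi : ContDiff ℝ 1 xi := by
  have : xi = fun x : E3 => Complex.ofRealCLM (x 0) + Complex.ofRealCLM (x 1) * Complex.I := by
    funext x; apply Complex.ext <;> simp [xi]
  rw [this]; fun_prop

theorem contDiff_eta : ContDiff ℝ 1 eta := by unfold eta; fun_prop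

theorem contDiff_mk3 : ContDiff ℝ 1 fun q : ℂ × ℝ => mk3 q.1 q.2 := by
  rw [contDiff_euclidean]
  intro i
  fin_cases i
  · exact Complex.reCLM.contDiff.comp contDiff_fst
  · exact Complex.imCLM.contDiff.comp contDiff_fst
  · exact contDiff_snd

theorem mk3_mem {ζ : ℂ} {y : ℝ} (h : ‖ζ‖ ^ 2 + y ^ 2 = 1) : mk3 ζ y ∈ Metric.sphere (0 : E3) 1 := by
  rw [mem_sphere_zero_iff_norm, ← sq_eq_sq₀ (norm_nonneg _) zero_le_one, norm_sq3]
  simpa using h

/-- radial projection -/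
noncomputable def nrm (x : E3) : E3 := ‖x‖⁻¹ • x

theorem nrm_mem {x : E3} (h : x ≠ 0) : nrm x ∈ Metric.sphere (0 : E3) 1 := by
  rw [mem_sphere_zero_iff_norm, nrm, norm_smul, norm_inv, norm_norm,
    inv_mul_cancel₀ (norm_ne_zero_iff.2 h)]

theorem nrm_eq {x : E3} (h : ‖x‖ = 1) : nrm x = x := by rw [nrm, h]; simp

/-- the upper hemisphere as a graph -/
noncomputable def up (ζ : ℂ) : E3 := mk3 ζ √(1 - ‖ζ‖ ^ 2)

theorem up_mem {ζ : ℂ} (h : ‖ζ‖ ≤ 1 / 2) : up ζ ∈ Metric.sphere (0 : E3) 1 :=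
  mk3_mem (by rw [sq_sqrt (by nlinarith [norm_nonneg ζ])]; ring)

theorem contDiffAt_up {ζ : ℂ} (h : ‖ζ‖ ≤ 1 / 2) : ContDiffAt ℝ 1 up ζ :=
  contDiff_mk3.contDiffAt.comp ζ (f := fun ζ : ℂ => (ζ, √(1 - ‖ζ‖ ^ 2)))
    (contDiffAt_id.prodMk ((contDiffAt_const.sub (contDiffAt_id.norm_sq ℝ)).sqrt
      (by change 1 - ‖ζ‖ ^ 2 ≠ 0; nlinarith [norm_nonneg ζ])))

/-- north pole -/
noncomputable def NP : S2 := ⟨mk3 0 1, mk3_mem (by simp)⟩

/-- south pole -/
noncomputable def SP : S2 := ⟨mk3 0 (-1), mk3_mem (by simp)⟩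

theorem dist_NP_le (s : S2) (h : 0 ≤ eta s) : dist s NP ≤ 2 * ‖xi s‖ := by
  rw [Subtype.dist_eq, dist_eq_norm]
  refine le_of_sq_le_sq (by
    rw [norm_sq3, xi_sub, eta_sub]
    have h1 := sphere_eq s
    have h2 := eta_le s
    simp only [NP, xi_mk3, eta_mk3, sub_zero]
    nlinarith [sq_nonneg ‖xi s‖]) (by positivity)

/-- cut-off of the chart -/
noncomputable def kap (y : ℝ) : ℝ := smoothTransition (10 * y - 5)

/-- height function -/
noncomputable def hgt (y : ℝ) : ℝ := 2 * smoothTransition (10 * y - 8) - 1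

theorem kap_zero {y : ℝ} (h : y ≤ 1 / 2) : kap y = 0 :=
  smoothTransition.zero_of_nonpos (by linarith)

theorem kap_one {y : ℝ} (h : 6 / 10 ≤ y) : kap y = 1 :=
  smoothTransition.one_of_one_le (by linarith)

theorem hgt_neg {y : ℝ} (h : y ≤ 8 / 10) : hgt y = -1 := by
  rw [hgt, smoothTransition.zero_of_nonpos (by linarith)]; norm_num

theorem hgt_one {y : ℝ} (h : 9 / 10 ≤ y) : hgt y = 1 := by
  rw [hgt, smoothTransition.one_of_one_le (by linarith)]; norm_num

theorem hgt_le (y : ℝ) : hgt y ≤ 1 := by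
  have := smoothTransition.le_one (10 * y - 8)
  rw [hgt]; linarith

/-- the fibre map over the circle -/
noncomputable def FFc (z : ℂ) (v : W) : W := FF (z.arg / (2 * π)) v

theorem FF_angle {θ ψ : ℝ} (h : (θ : Angle) = ψ) (v : W) :
    FF (θ / (2 * π)) v = FF (ψ / (2 * π)) v := by
  obtain ⟨k, hk⟩ := Angle.angle_eq_iff_two_pi_dvd_sub.1 h
  rw [← FF_add_int (ψ / (2 * π)) k]
  congr 1
  have := pi_pos
  field_simp
  linarith

theorem contDiffAt_FFc {p : ℂ × W} (h : p.1 ≠ 0) :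
    ContDiffAt ℝ 1 (fun q : ℂ × W => FFc q.1 q.2) p := by
  have h1 : ContDiffAt ℝ 1 (fun q : ℂ × W => Complex.log (q.1 / p.1)) p :=
    ((Complex.contDiffAt_log (by simp [div_self h])).restrict_scalars ℝ).comp p
      (f := fun q : ℂ × W => q.1 / p.1) (contDiffAt_fst.div_const _)
  have h2 : ContDiffAt ℝ 1 (fun q : ℂ × W =>
      ((p.1.arg + Complex.imCLM (Complex.log (q.1 / p.1))) / (2 * π), q.2)) p :=
    ((contDiffAt_const.add (Complex.imCLM.contDiff.contDiffAt.comp p h1)).div_const _).prodMk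
      contDiffAt_snd
  refine (contDiff_FF.contDiffAt.comp p h2).congr_of_eventuallyEq ?_
  filter_upwards [continuous_fst.continuousAt.eventually_ne h] with q hq
  refine FF_angle ?_ _
  simp [Complex.log_im, Complex.arg_div_coe_angle hq h]

theorem big_le_DD (k : ℕ) : 24 * KK ≤ DD k := by
  have h1 := AB_le_DD k
  have h2 : 6 * KK ≤ AA k := by simpa using pow_le_AA k (m := 1) (by have := qq_pos (k + 1); omega)
  have h3 : 2 ≤ BB k := by
    have := qq_pos (k + 1)
    calc (2 : ℝ) = 2 ^ 1 := by norm_num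
      _ ≤ _ := pow_le_pow_right₀ (by norm_num) (by omega)
  have := KK_pos
  nlinarith

theorem rr_zero_one : 6 * KK * rr 0 1 ≤ 1 / 2 := by
  have h1 := big_le_DD 0
  have h2 := two_le_DD 0
  have h3 : DD 0 ≤ DD 0 ^ (3 * 1) := le_self_pow₀ (by linarith) (by norm_num)
  rw [rr, show TT 0 = 2 from rfl, ← mul_div_assoc, div_le_iff₀ (by linarith)]
  generalize DD 0 ^ (3 * 1) = y at *
  linarith

theorem FF_small (t : ℝ) (v : W) : ‖(FF t v).1.2‖ ≤ 1 / 2 ∧ ‖(FF t v).2‖ ≤ 1 / 2 := by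
  by_cases h : rr 0 1 ≤ nu v
  · rw [FF_top t v h]; simp
  · have h1 : ‖FF t v‖ ≤ 1 / 2 := by
      have := KK_pos
      refine (norm_le_nu _).trans ((nu_FF_le _ _).trans (le_trans ?_ rr_zero_one))
      gcongr; linarith
    exact ⟨(norm_snd_le _).trans ((norm_fst_le _).trans h1), (norm_snd_le _).trans h1⟩

/-- fibre coordinates -/
noncomputable def vv (p : Amb) : W :=
  (((eta p.2.1)⁻¹ • xi p.2.1, xi p.2.2.1), (xi p.2.2.2.1, xi p.2.2.2.2))

/-- the cut-off fibre map -/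
noncomputable def Phi (p : Amb) : W := kap (eta p.2.1) • FFc p.1 (vv p)

/-- the rotation -/
noncomputable def om : Circle := Circle.exp (2 * π * al)

/-- the ambient map -/
noncomputable def GA (p : Amb) : Amb :=
  (om * p.1, nrm (mk3 (Phi p).1.1 (hgt (eta p.2.1))), up (Phi p).1.2, up (Phi p).2.1,
    up (Phi p).2.2)

theorem Phi_small (p : Amb) :
    ‖(Phi p).1.2‖ ≤ 1 / 2 ∧ ‖(Phi p).2.1‖ ≤ 1 / 2 ∧ ‖(Phi p).2.2‖ ≤ 1 / 2 := by
  have h := FF_small (p.1.arg / (2 * π)) (vv p)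
  have h0 : 0 ≤ kap (eta p.2.1) := smoothTransition.nonneg _
  have h1 : kap (eta p.2.1) ≤ 1 := smoothTransition.le_one _
  exact ⟨(norm_smul_le_of h0 h1 h.1).trans (by norm_num),
    (norm_smul_le_of h0 h1 ((norm_fst_le _).trans h.2)).trans (by norm_num),
    (norm_smul_le_of h0 h1 ((norm_snd_le _).trans h.2)).trans (by norm_num)⟩

theorem NN_vv_le (x : MM) : NN (vv (emb x)) ≤ ‖(vv (emb x)).1.1‖ ^ 2 + 3 := by
  have h1 := pow_le_one₀ (n := 2) (norm_nonneg _) (norm_xi_le x.2.2.1)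
  have h2 := pow_le_one₀ (n := 2) (norm_nonneg _) (norm_xi_le x.2.2.2.1)
  have h3 := pow_le_one₀ (n := 2) (norm_nonneg _) (norm_xi_le x.2.2.2.2)
  simp only [NN, vv, emb]
  linarith

theorem xi_le_vv (x : MM) (h : 0 < eta x.2.1) : ‖xi x.2.1‖ ≤ ‖(vv (emb x)).1.1‖ := by
  simp only [vv, emb]
  rw [norm_smul, norm_inv, Real.norm_of_nonneg h.le]
  exact le_mul_of_one_le_left (norm_nonneg _) ((one_le_inv₀ h).2 (eta_le _))

theorem vv_le (x : MM) (h : 9 / 10 ≤ eta x.2.1) : ‖(vv (emb x)).1.1‖ ≤ 1 := by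
  simp only [vv, emb]
  rw [norm_smul, norm_inv, Real.norm_of_nonneg (by linarith), inv_mul_le_iff₀ (by linarith)]
  have := sphere_eq x.2.1
  nlinarith [norm_nonneg (xi x.2.1)]

theorem Phi_mid (x : MM) (h2 : eta x.2.1 ≤ 9 / 10) :
    Phi (emb x) = (((kap (eta x.2.1) * KK * (eta x.2.1)⁻¹) • apow 2 (xi x.2.1), 0), 0) := by
  by_cases h1 : eta x.2.1 ≤ 1 / 2
  · simp [Phi, emb, kap_zero h1, Prod.ext_iff]
  have h3 : 4 / 10 ≤ ‖xi x.2.1‖ := by
    have := sphere_eq x.2.1
    nlinarith [norm_nonneg (xi x.2.1)]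
  have h4 := h3.trans (xi_le_vv x (by linarith))
  have h5 : ‖(vv (emb x)).1.1‖ ≤ nu (vv (emb x)) :=
    (norm_fst_le _).trans ((norm_fst_le _).trans (norm_le_nu _))
  have hK := one_le_KK
  have h6 : rr 0 1 ≤ nu (vv (emb x)) := by
    have := rr_zero_one
    have := rr_pos 0 1
    nlinarith
  have h7 : thr 0 (NN (vv (emb x))) (vv (emb x)).1.1 = 1 := by
    refine thr_eq_one 0 (by rw [← nu_sq]; nlinarith) ((NN_vv_le x).trans ?_)
    have := big_le_DD 0
    have : 24 ^ 2 ≤ DD 0 ^ 2 := by gcongr; linarith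
    nlinarith
  rw [Phi, FFc, FF_top _ _ h6, PP, h7]
  obtain ⟨θ, hθ, h8⟩ := exists_polar (xi x.2.1)
  have h9 : apow (2 ^ 1) (vv (emb x)).1.1 = (eta x.2.1)⁻¹ • apow 2 (xi x.2.1) := by
    simp only [vv, emb]
    rw [h8, smul_smul, pow_one, apow_smul (by norm_num) (by
      have : 0 < eta x.2.1 := by linarith
      positivity) hθ, apow_smul (by norm_num) (norm_nonneg _) hθ, smul_smul]
  rw [h9]
  simp [emb, mul_assoc]

theorem norm_Phi_mid (x : MM) (h1 : 6 / 10 ≤ eta x.2.1) (h2 : eta x.2.1 ≤ 9 / 10) :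
    2 ≤ ‖(Phi (emb x)).1.1‖ := by
  have h3 : 4 / 10 ≤ ‖xi x.2.1‖ := by
    have := sphere_eq x.2.1
    nlinarith [norm_nonneg (xi x.2.1)]
  have hK : 5 ≤ KK := by rw [KK_def]; norm_num
  have h4 : 1 ≤ (eta x.2.1)⁻¹ := (one_le_inv₀ (by linarith)).2 (eta_le _)
  rw [Phi_mid x h2, kap_one h1]
  simp only [one_mul]
  rw [norm_smul, norm_apow (by norm_num), Real.norm_of_nonneg (by positivity)]
  calc (2 : ℝ) = 5 * 1 * (4 / 10) := by norm_num
    _ ≤ _ := by gcongr

theorem mk3_ne (x : MM) : mk3 (Phi (emb x)).1.1 (hgt (eta x.2.1)) ≠ 0 := by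
  intro h
  have h1 : hgt (eta x.2.1) = 0 := congrArg eta h
  have h2 : (Phi (emb x)).1.1 = 0 := congrArg xi h
  by_cases ha : eta x.2.1 ≤ 8 / 10
  · rw [hgt_neg ha] at h1; norm_num at h1
  · by_cases hb : 9 / 10 ≤ eta x.2.1
    · rw [hgt_one hb] at h1; norm_num at h1
    · have := norm_Phi_mid x (by linarith) (by linarith)
      rw [h2] at this; norm_num at this

/-- the self-map -/
noncomputable def ff (x : MM) : MM :=
  (om * x.1, ⟨_, nrm_mem (mk3_ne x)⟩, ⟨_, up_mem (Phi_small (emb x)).1⟩,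
    ⟨_, up_mem (Phi_small (emb x)).2.1⟩, ⟨_, up_mem (Phi_small (emb x)).2.2⟩)

theorem emb_ff (x : MM) : emb (ff x) = GA (emb x) := rfl

theorem contDiffAt_Phi (x : MM) : ContDiffAt ℝ 1 Phi (emb x) := by
  have he : ContDiff ℝ 1 fun p : Amb => eta p.2.1 := contDiff_eta.comp contDiff_snd.fst
  by_cases h : eta x.2.1 < 1 / 2
  · refine (contDiffAt_const (c := 0)).congr_of_eventuallyEq ?_
    filter_upwards [he.continuous.continuousAt.eventually_lt (g := fun _ => 1 / 2)
      continuousAt_const h] with p hp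
    rw [Phi, kap_zero hp.le, zero_smul]
  · have h1 : ContDiffAt ℝ 1 vv (emb x) :=
      (((he.contDiffAt.inv (by change eta x.2.1 ≠ 0; linarith)).smul
        (contDiff_xi.comp contDiff_snd.fst).contDiffAt).prodMk
        (contDiff_xi.comp contDiff_snd.snd.fst).contDiffAt).prodMk
        ((contDiff_xi.comp contDiff_snd.snd.snd.fst).contDiffAt.prodMk
          (contDiff_xi.comp contDiff_snd.snd.snd.snd).contDiffAt)
    have h2 : ContDiff ℝ 1 kap := smoothTransition.contDiff.comp (by fun_prop)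
    exact (h2.comp he).contDiffAt.smul ((contDiffAt_FFc (p := ((emb x).1, vv (emb x)))
      x.1.coe_ne_zero).comp (emb x) (f := fun p : Amb => (p.1, vv p)) (contDiffAt_fst.prodMk h1))

theorem contDiffAt_GA (x : MM) : ContDiffAt ℝ 1 GA (emb x) := by
  have h1 := contDiffAt_Phi x
  have h2 : ContDiff ℝ 1 hgt :=
    (contDiff_const.mul (smoothTransition.contDiff.comp (by fun_prop))).sub contDiff_const
  have h3 : ContDiffAt ℝ 1 (fun p : Amb => mk3 (Phi p).1.1 (hgt (eta p.2.1))) (emb x) :=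
    contDiff_mk3.contDiffAt.comp (emb x) (f := fun p : Amb => ((Phi p).1.1, hgt (eta p.2.1)))
      (h1.fst.fst.prodMk (h2.comp (contDiff_eta.comp contDiff_snd.fst)).contDiffAt)
  have h4 := Phi_small (emb x)
  exact (contDiffAt_const.mul contDiffAt_fst).prodMk
    ((((h3.norm ℝ (mk3_ne x)).inv (norm_ne_zero_iff.2 (mk3_ne x))).smul h3).prodMk
      ((ContDiffAt.comp (g := up) (emb x) (contDiffAt_up h4.1) h1.fst.snd).prodMk
        ((ContDiffAt.comp (g := up) (emb x) (contDiffAt_up h4.2.1) h1.snd.fst).prodMk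
          (ContDiffAt.comp (g := up) (emb x) (contDiffAt_up h4.2.2) h1.snd.snd))))

/-! ### Dynamics -/

theorem ff_iter_fst (x : MM) (n : ℕ) : (ff^[n] x).1 = om ^ n * x.1 := by
  induction n with
  | zero => simp
  | succ n ih => rw [Function.iterate_succ_apply', pow_succ', mul_assoc, ← ih]; rfl

theorem ff_low (x : MM) (h : eta x.2.1 ≤ 1 / 2) : ff x = (om * x.1, SP, NP, NP, NP) := by
  have h1 : Phi (emb x) = 0 := by simp [Phi, emb, kap_zero h]
  have h2 : up 0 = NP := by simp [up, NP]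
  have h3 : nrm (mk3 0 (-1)) = SP := nrm_eq (norm_eq_of_mem_sphere SP)
  simp only [ff, h1, Prod.fst_zero, Prod.snd_zero, h2, hgt_neg (show eta x.2.1 ≤ 8 / 10 by linarith),
    h3]

theorem ff_mid (x : MM) (h : eta x.2.1 ≤ 9 / 10) : eta (ff x).2.1 ≤ 1 / 2 := by
  change eta (nrm _) ≤ _
  rw [nrm, eta_smul, eta_mk3]
  by_cases ha : eta x.2.1 ≤ 8 / 10
  · rw [hgt_neg ha]
    have : 0 ≤ ‖mk3 (Phi (emb x)).1.1 (-1)‖⁻¹ := by positivity
    linarith
  · have h1 := norm_Phi_mid x (by linarith) h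
    have h2 : 2 ≤ ‖mk3 (Phi (emb x)).1.1 (hgt (eta x.2.1))‖ := by
      refine h1.trans (le_of_sq_le_sq ?_ (norm_nonneg _))
      rw [norm_sq3, xi_mk3]
      nlinarith [sq_nonneg (eta (mk3 (Phi (emb x)).1.1 (hgt (eta x.2.1))))]
    rw [inv_mul_le_iff₀ (by linarith)]
    linarith [hgt_le (eta x.2.1)]

theorem ff_sink (x : MM) (h : eta x.2.1 ≤ 9 / 10) (n : ℕ) :
    (ff^[n + 2] x).2 = (SP, NP, NP, NP) := by
  induction n with
  | zero => exact congrArg Prod.snd (ff_low _ (ff_mid x h))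
  | succ n ih =>
    rw [Function.iterate_succ_apply', ff_low]
    rw [ih]
    simp only [SP, eta_mk3]; norm_num

theorem vv_ff (x : MM) (h : 9 / 10 ≤ eta x.2.1) : vv (emb (ff x)) = FFc x.1 (vv (emb x)) := by
  have h1 : Phi (emb x) = FFc x.1 (vv (emb x)) := by
    rw [Phi, show eta (emb x).2.1 = eta x.2.1 from rfl, kap_one (by linarith), one_smul]; rfl
  have h2 := norm_ne_zero_iff.2 (mk3_ne x)
  rw [emb_ff, ← h1]
  simp only [vv, GA, nrm, up, xi_mk3, xi_smul, eta_smul, eta_mk3]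
  rw [show eta (emb x).2.1 = eta x.2.1 from rfl, hgt_one h] at *
  rw [mul_one, inv_inv, smul_smul, mul_inv_cancel₀ h2, one_smul]

theorem FFc_pow (z : Circle) (n : ℕ) (v : W) :
    FFc (om ^ n * z : Circle) v = FF ((z : ℂ).arg / (2 * π) + n * al) v := by
  have h1 : (z : ℂ).arg / (2 * π) + n * al = ((z : ℂ).arg + n * (2 * π * al)) / (2 * π) := by
    have := pi_pos
    field_simp
  rw [h1]
  refine FF_angle ?_ v
  rw [om, ← Circle.exp_natCast_mul, Circle.coe_mul,
    Complex.arg_mul_coe_angle (Circle.coe_ne_zero _) (Circle.coe_ne_zero _), Circle.coe_exp,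
    Complex.arg_exp_mul_I, Angle.coe_toIocMod, Angle.coe_add, add_comm]

theorem vv_iter (x : MM) (n : ℕ) (h : ∀ m < n, 9 / 10 ≤ eta (ff^[m] x).2.1) :
    vv (emb (ff^[n] x)) = orb ((x.1 : ℂ).arg / (2 * π)) (vv (emb x)) n := by
  induction n with
  | zero => rfl
  | succ n ih =>
    rw [Function.iterate_succ_apply', vv_ff _ (h n (by omega)), ih fun m hm => h m (by omega),
      ff_iter_fst, FFc_pow, orb]

theorem dist_ff_le (x : MM) (h : 9 / 10 ≤ eta (ff x).2.1) :
    dist (ff x).2 (NP, NP, NP, NP) ≤ 2 * nu (vv (emb (ff x))) := by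
  have h0 := norm_le_nu (vv (emb (ff x)))
  have h1 := (xi_le_vv (ff x) (by linarith)).trans ((norm_fst_le _).trans (norm_fst_le _))
  have h2 : ‖xi (ff x).2.2.1‖ ≤ ‖vv (emb (ff x))‖ :=
    (norm_snd_le (vv (emb (ff x))).1).trans (norm_fst_le _)
  have h3 : ‖xi (ff x).2.2.2.1‖ ≤ ‖vv (emb (ff x))‖ :=
    (norm_fst_le (vv (emb (ff x))).2).trans (norm_snd_le _)
  have h4 : ‖xi (ff x).2.2.2.2‖ ≤ ‖vv (emb (ff x))‖ :=
    (norm_snd_le (vv (emb (ff x))).2).trans (norm_snd_le _)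
  have h5 := dist_NP_le (ff x).2.1 (by linarith)
  have h6 := dist_NP_le (ff x).2.2.1 (sqrt_nonneg _)
  have h7 := dist_NP_le (ff x).2.2.2.1 (sqrt_nonneg _)
  have h8 := dist_NP_le (ff x).2.2.2.2 (sqrt_nonneg _)
  simp only [Prod.dist_eq, max_le_iff]
  refine ⟨?_, ?_, ?_, ?_⟩ <;> linarith

theorem lipschitz_rot (j : ℕ) (c : S2 × S2 × S2 × S2) :
    LipschitzWith 1 fun x : MM => ((om ^ j * x.1, c) : MM) := by
  refine LipschitzWith.of_dist_le_mul fun x y => ?_
  rw [Prod.dist_eq, dist_self, Prod.dist_eq (x := x), NNReal.coe_one, one_mul, max_eq_left dist_nonneg]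
  refine le_trans (le_of_eq ?_) (le_max_left _ _)
  change dist ((om ^ j * x.1 : Circle) : ℂ) (om ^ j * y.1 : Circle) = dist (x.1 : ℂ) y.1
  rw [dist_eq_norm, dist_eq_norm, Circle.coe_mul, Circle.coe_mul, ← mul_sub, norm_mul, Circle.norm_coe, one_mul]

theorem entropy_ff (hE : JobE) : Dynamics.coverEntropy ff Set.univ = 0 := by
  classical
  have : Nonempty MM := ⟨(1, NP, NP, NP, NP)⟩
  refine hE MM ff (fun j x => (om ^ j * x.1, NP, NP, NP, NP))
    (fun j x => (om ^ j * x.1, SP, NP, NP, NP)) (fun j => lipschitz_rot j _)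
    (fun j => lipschitz_rot j _) fun ε hε => ?_
  obtain ⟨B, hB⟩ := cnt_bound (half_pos hε)
  refine ⟨B + 3, fun x n => ?_⟩
  have hex : ∃ m, n ≤ m ∨ eta (ff^[m] x).2.1 < 9 / 10 := ⟨n, Or.inl le_rfl⟩
  set τ := Nat.find hex with hτ
  have h1 : ∀ m < τ, 9 / 10 ≤ eta (ff^[m] x).2.1 := fun m hm => by
    have := Nat.find_min hex hm
    push Not at this
    exact this.2
  set t := (x.1 : ℂ).arg / (2 * π)
  refine ⟨((Finset.range τ).filter fun m => ε / 2 ≤ nu (orb t (vv (emb x)) m)) ∪ {0, τ, τ + 1},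
    τ, ?_, fun j hj hJ => ?_⟩
  · refine (Finset.card_union_le _ _).trans (add_le_add ?_ Finset.card_le_three)
    rcases Nat.eq_zero_or_pos τ with h0 | h0
    · simp [h0]
    · refine hB t _ ?_ τ fun m hm => ?_
      · have h2 := NN_vv_le x
        have h3 := vv_le x (h1 0 h0)
        rw [nu, sqrt_le_left (by norm_num)]
        nlinarith [norm_nonneg (vv (emb x)).1.1]
      · rw [← vv_iter x m fun i hi => h1 i (by omega)]
        exact (vv_le _ (h1 m hm)).trans one_le_two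
  · simp only [Finset.mem_union, Finset.mem_filter, Finset.mem_range, Finset.mem_insert,
      Finset.mem_singleton, not_or, not_and, not_le] at hJ
    obtain ⟨h2, h3, h4, h5⟩ := hJ
    split_ifs with h6
    · rw [Prod.dist_eq, ff_iter_fst, dist_self, max_eq_right dist_nonneg]
      have h7 := h2 h6
      rw [← vv_iter x j fun i hi => h1 i (by omega)] at h7
      have h8 := h1 j h6
      obtain ⟨i, rfl⟩ : ∃ i, j = i + 1 := ⟨j - 1, by omega⟩
      rw [Function.iterate_succ_apply'] at *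
      have := dist_ff_le _ h8
      linarith
    · obtain ⟨i, rfl⟩ : ∃ i, j = i + 2 + τ := ⟨j - 2 - τ, by omega⟩
      have h7 := (Nat.find_spec hex).resolve_left (by omega)
      rw [Prod.dist_eq, ff_iter_fst, dist_self, Function.iterate_add_apply, ff_sink _ h7.le,
        dist_self, max_self]
      exact hε.le

/-! ### Homotopy -/

theorem homotopic_of_ne {X : Type*} [TopologicalSpace X] (a b : C(X, S2))
    (h : ∀ x, (a x : E3) + b x ≠ 0) : a.Homotopic b := by
  have h1 : ∀ q : unitInterval × X, (1 - (q.1 : ℝ)) • (a q.2 : E3) + (q.1 : ℝ) • (b q.2 : E3) ≠ 0 := by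
    rintro ⟨s, x⟩ h2
    have h3 := congrArg norm (eq_neg_of_add_eq_zero_left h2)
    rw [norm_neg, norm_smul, norm_smul, norm_eq_of_mem_sphere, norm_eq_of_mem_sphere,
      Real.norm_of_nonneg (sub_nonneg.2 s.2.2), Real.norm_of_nonneg s.2.1] at h3
    have h4 : (s : ℝ) = 1 / 2 := by linarith
    simp only [h4] at h2
    rw [show (1 : ℝ) - 1 / 2 = 1 / 2 by norm_num, ← smul_add] at h2
    exact h x ((smul_eq_zero.1 h2).resolve_left (by norm_num))
  have h2 : Continuous fun q : unitInterval × X =>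
      (1 - (q.1 : ℝ)) • (a q.2 : E3) + (q.1 : ℝ) • (b q.2 : E3) := by fun_prop
  exact ⟨⟨⟨fun q => ⟨_, nrm_mem (h1 q)⟩, Continuous.subtype_mk
    ((h2.norm.inv₀ fun q => norm_ne_zero_iff.2 (h1 q)).smul h2) _⟩,
    fun x => Subtype.ext (by simpa using nrm_eq (norm_eq_of_mem_sphere (a x))),
    fun x => Subtype.ext (by simpa using nrm_eq (norm_eq_of_mem_sphere (b x)))⟩⟩

theorem continuous_apow : Continuous (apow 2) := by
  refine continuous_iff_continuousAt.2 fun z => ?_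
  by_cases h : z = 0
  · rw [h, ContinuousAt, show apow 2 0 = 0 by simp [apow], tendsto_zero_iff_norm_tendsto_zero]
    simp only [norm_apow (show 1 ≤ 2 by norm_num)]
    exact tendsto_norm_zero
  · exact ((continuous_norm.pow _).continuousAt.inv₀
      (pow_ne_zero _ (norm_ne_zero_iff.2 h))).smul (continuous_pow 2).continuousAt

/-- suspension of angle doubling -/
noncomputable def gg : C(S2, S2) :=
  ⟨fun s => ⟨mk3 (apow 2 (xi s)) (eta s), mk3_mem (by rw [norm_apow (by norm_num), sphere_eq])⟩,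
    Continuous.subtype_mk (contDiff_mk3.continuous.comp
      ((continuous_apow.comp (contDiff_xi.continuous.comp continuous_subtype_val)).prodMk
        (contDiff_eta.continuous.comp continuous_subtype_val))) _⟩

/-- the embedded sphere -/
noncomputable def io : C(S2, MM) := ⟨fun s => (1, s, NP, NP, NP), by fun_prop⟩

theorem homotopic_ff (hc : Continuous ff) :
    ((⟨ff, hc⟩ : C(MM, MM)).comp io).Homotopic (io.comp gg) := by
  set f : C(S2, MM) := (⟨ff, hc⟩ : C(MM, MM)).comp io with hf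
  have h0 : (ContinuousMap.const S2 om).Homotopic (ContinuousMap.const S2 (1 : Circle)) :=
    ⟨⟨⟨fun q => Circle.exp (2 * π * al * (1 - (q.1 : ℝ))), by fun_prop⟩,
      fun x => by simp [om], fun x => by simp⟩⟩
  have hN : ∀ a : C(S2, S2), (∀ s, 0 ≤ eta (a s)) → a.Homotopic (ContinuousMap.const S2 NP) := by
    intro a ha
    refine homotopic_of_ne _ _ fun s hs => ?_
    have h1 := congrArg eta hs
    have h2 := ha s
    rw [eta_add, eta_zero] at h1
    simp only [ContinuousMap.const_apply, NP, eta_mk3] at h1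
    linarith
  have h1 : (⟨fun s => (f s).2.1, by fun_prop⟩ : C(S2, S2)).Homotopic gg := by
    refine homotopic_of_ne _ _ fun s hs => ?_
    have h1 := congrArg eta hs
    have h2 := congrArg xi hs
    have h3 := norm_pos_iff.2 (mk3_ne (io s))
    change eta (nrm (mk3 (Phi (emb (io s))).1.1 (hgt (eta s))) + mk3 _ _) = _ at h1
    change xi (nrm (mk3 (Phi (emb (io s))).1.1 (hgt (eta s))) + mk3 _ _) = _ at h2
    change 0 < ‖mk3 (Phi (emb (io s))).1.1 (hgt (eta s))‖ at h3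
    rw [eta_add, eta_zero, nrm, eta_smul, eta_mk3, eta_mk3] at h1
    rw [xi_add, xi_zero, nrm, xi_smul, xi_mk3, xi_mk3] at h2
    set c := ‖mk3 (Phi (emb (io s))).1.1 (hgt (eta s))‖⁻¹
    have hc0 : 0 < c := inv_pos.2 h3
    by_cases ha : 9 / 10 ≤ eta s
    · rw [hgt_one ha] at h1
      linarith
    · rw [Phi_mid (io s) (not_le.1 ha).le] at h2
      change c • ((kap (eta s) * KK * (eta s)⁻¹) • apow 2 (xi s)) + apow 2 (xi s) = 0 at h2
      have h4 : 0 ≤ kap (eta s) * KK * (eta s)⁻¹ := by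
        by_cases hb : eta s ≤ 1 / 2
        · simp [kap_zero hb]
        · have : 0 ≤ kap (eta s) := smoothTransition.nonneg _
          have := KK_pos
          have : 0 < eta s := by linarith
          positivity
      have h2' : (c * (kap (eta s) * KK * (eta s)⁻¹) + 1) • apow 2 (xi s) = 0 := by
        rw [add_smul, one_smul, ← smul_smul, h2]
      have h5 := (smul_eq_zero.1 h2').resolve_left (by positivity)
      have h6 : ‖xi s‖ = 0 := by rw [← norm_apow (show 1 ≤ 2 by norm_num), h5, norm_zero]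
      have h7 := sphere_eq s
      rw [h6] at h7
      have h8 : eta s = -1 := by nlinarith
      rw [hgt_neg (by linarith)] at h1
      linarith
  have h2 := hN ⟨fun s => (f s).2.2.1, by fun_prop⟩ fun s => sqrt_nonneg _
  have h3 := hN ⟨fun s => (f s).2.2.2.1, by fun_prop⟩ fun s => sqrt_nonneg _
  have h4 := hN ⟨fun s => (f s).2.2.2.2, by fun_prop⟩ fun s => sqrt_nonneg _
  convert h0.prodMk (h1.prodMk (h2.prodMk (h3.prodMk h4))) using 1
  · ext s : 1
    refine Prod.ext ?_ rfl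
    exact mul_one om
  · rfl

theorem gg_spec (x : S2) : xi (gg x : E3) = xi (x : E3) ^ 2 / (‖xi (x : E3)‖ : ℂ) ∧
    eta (gg x : E3) = eta (x : E3) := by
  refine ⟨?_, rfl⟩
  change apow 2 (xi x) = _
  simp [apow, div_eq_inv_mul]

end Crest.Agent.H0163
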