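import Mathlib

/-! Shared definitions and job statements for S0163 (C¹ map, zero entropy, eigenvalue 2 on H₂). -/

set_option autoImplicit false

namespace Crest.Agent.H0163

open scoped Manifold ContDiff

/-- Euclidean 3-space -/
abbrev E3 := EuclideanSpace ℝ (Fin 3)

/-- the 2-sphere -/
abbrev S2 := Metric.sphere (0 : E3) 1

/-- horizontal (complex) coordinate on `ℝ³` -/
def xi (x : E3) : ℂ := ⟨x 0, x 1⟩

/-- vertical coordinate on `ℝ³` -/
def eta (x : E3) : ℝ := x 2

/-- the manifold -/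
abbrev MM := Circle × S2 × S2 × S2 × S2

/-- its ambient vector space -/
abbrev Amb := ℂ × E3 × E3 × E3 × E3

/-- the inclusion of the manifold in the ambient space -/
def emb (p : MM) : Amb := (p.1, p.2.1, p.2.2.1, p.2.2.2.1, p.2.2.2.2)

/-- Job H: a map that, on a retract `S²`, is homotopic to the suspension of angle doubling has
eigenvalue `2` on `H₂(-; ℝ)`. -/
def JobH : Prop :=
  ∀ (M : Type) [TopologicalSpace M] (f : C(M, M)) (ι : C(S2, M)) (r : C(M, S2)) (g : C(S2, S2)),
    (∀ x, r (ι x) = x) →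
    (∀ x : S2, xi (g x : E3) = xi (x : E3) ^ 2 / (‖xi (x : E3)‖ : ℂ) ∧
      eta (g x : E3) = eta (x : E3)) →
    (f.comp ι).Homotopic (ι.comp g) →
    Module.End.HasEigenvalue
      (((AlgebraicTopology.singularHomologyFunctor (ModuleCat.{0} ℝ) 2).obj
          (ModuleCat.of ℝ ℝ)).map (TopCat.ofHom f)).hom (2 : ℝ)

/-- Job E: zero entropy when, up to boundedly many exceptional times, every orbit is shadowed
first by `A j x` and then by `A' j x`, with all `A j`, `A' j` 1-Lipschitz. -/
def JobE : Prop :=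
  ∀ (X : Type) [MetricSpace X] [CompactSpace X] [Nonempty X] (T : X → X) (A A' : ℕ → X → X),
    (∀ j, LipschitzWith 1 (A j)) → (∀ j, LipschitzWith 1 (A' j)) →
    (∀ ε : ℝ, 0 < ε → ∃ B : ℕ, ∀ (x : X) (n : ℕ), ∃ (J : Finset ℕ) (τ : ℕ), J.card ≤ B ∧
      ∀ j < n, j ∉ J → dist (T^[j] x) (if j < τ then A j x else A' j x) ≤ ε) →
    Dynamics.coverEntropy T Set.univ = 0

/-- Job M: a smooth structure on `MM` modelled on Euclidean space, for which a self-map that is
the restriction of an ambient `C¹` map is `C¹`. -/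
def JobM : Prop :=
  ∃ (n : ℕ) (_ : ChartedSpace (EuclideanSpace ℝ (Fin n)) MM)
    (_ : IsManifold (modelWithCornersSelf ℝ (EuclideanSpace ℝ (Fin n))) ∞ MM),
    ∀ (f : MM → MM) (G : Amb → Amb), (∀ p : MM, ContDiffAt ℝ 1 G (emb p)) →
      (∀ p : MM, emb (f p) = G (emb p)) →
      ContMDiff (modelWithCornersSelf ℝ (EuclideanSpace ℝ (Fin n)))
        (modelWithCornersSelf ℝ (EuclideanSpace ℝ (Fin n))) 1 f

end Crest.Agent.H0163
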