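import Crest.Agent.H0163.Defs

set_option autoImplicit false
open Filter Dynamics

namespace Crest.Agent.H0163

namespace Ent

lemma cover {X κ : Type} [MetricSpace X] [Nonempty X] [Fintype κ] (T : X → X) (n : ℕ) (o : κ → ℕ → X) {δ : ℝ}
    (h : ∀ x, ∃ c, ∀ j < n, dist (T^[j] x) (o c j) ≤ δ) :
    coverMincard T Set.univ {p | dist p.1 p.2 ≤ 2 * δ} n ≤ Fintype.card κ := by
  classical
  refine (IsDynCoverOf.coverMincard_le_card (s := Finset.univ.image fun c =>
    Classical.epsilon fun x => ∀ j < n, dist (T^[j] x) (o c j) ≤ δ) fun x _ => ?_).trans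
    (by exact_mod_cast Finset.card_image_le)
  obtain ⟨c, hc⟩ := h x
  have := Classical.epsilon_spec (p := fun x => ∀ j < n, dist (T^[j] x) (o c j) ≤ δ) ⟨x, hc⟩
  exact ⟨_, Finset.mem_image_of_mem _ (Finset.mem_univ c), mem_dynEntourage.2 fun j hj =>
    (dist_triangle_right _ _ _).trans ((add_le_add (hc j hj) (this j hj)).trans_eq (two_mul δ).symm)⟩

lemma poly (K B : ℕ) {r : ℝ} (hr : 0 < r) : ∀ᶠ n : ℕ in atTop, (K * (n + 1) ^ B : ℝ) ≤ Real.exp (r * n) := by
  have := ((isLittleO_pow_exp_pos_mul_atTop B hr).comp_tendsto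
    (tendsto_atTop_add_const_right _ 1 tendsto_natCast_atTop_atTop)).const_mul_left (K * Real.exp r) |>.eventuallyLE
  filter_upwards [this] with n hn
  simp only [Function.comp, mul_add, Real.exp_add, mul_one] at hn
  rw [Real.norm_of_nonneg (by positivity), Real.norm_of_nonneg (by positivity), mul_right_comm] at hn
  exact le_of_mul_le_mul_right hn (Real.exp_pos _)

end Ent

theorem jobE : JobE := fun X _ _ _ T A A' hA hA' h => by
  classical
  refine le_antisymm ?_ (coverEntropy_nonneg T Set.univ_nonempty)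
  rw [coverEntropy_eq_iSup_basis Metric.uniformity_basis_dist_le]
  refine iSup₂_le fun ε ε0 => ExpGrowth.expGrowthSup_le_iff.2 fun b hb => ?_
  obtain ⟨r, r0, hr⟩ := EReal.lt_iff_exists_real_btwn.1 hb
  obtain ⟨B, hB⟩ := h (ε / 4) (by positivity)
  obtain ⟨C, -, fin, hC⟩ := finite_cover_balls_of_compact (isCompact_univ (X := X)) (by positivity : 0 < ε / 4)
  have := fin.fintype
  have N : ∀ x : X, ∃ z : C, dist x z < ε / 4 := fun x => by simpa using hC (Set.mem_univ x)
  choose net hn using N
  filter_upwards [Ent.poly (Fintype.card C ^ (B + 1)) (B + 1) (by exact_mod_cast r0 : 0 < r)] with n H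
  have := Ent.cover (κ := (C × Fin (n + 1)) × (Fin B → C × Fin (n + 1))) T n (δ := ε / 2)
    (fun c j => if h : ∃ i, (c.2 i).2 = j then (c.2 h.choose).1 else if j < c.1.2 then A j c.1.1 else A' j c.1.1) fun x => by
      obtain ⟨J, τ, hJ, H⟩ := hB x n
      refine ⟨((net x, ⟨min τ n, by omega⟩), fun i => (net (T^[J.toList.getD i 0] x), ⟨min (J.toList.getD i 0) n, by omega⟩)),
        fun j hj => ?_⟩
      dsimp only
      split_ifs with h1 h2
      · have := h1.choose_spec
        rw [show J.toList.getD h1.choose 0 = j by omega]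
        linarith [hn (T^[j] x)]
      all_goals
        have := H j hj fun c => h1 (by
          obtain ⟨i, hi, e⟩ := List.getElem_of_mem (Finset.mem_toList.2 c)
          exact ⟨⟨i, by simp at hi; omega⟩, by simp [List.getElem?_eq_getElem hi, e, hj.le]⟩)
        refine (dist_triangle _ _ _).trans ((add_le_add this ?_).trans_eq (by ring : ε / 4 + ε / 4 = _))
      · rw [if_pos (by omega)]; simpa using ((hA j).dist_le_mul _ _).trans (by simpa using (hn x).le)
      · rw [if_neg (by omega)]; simpa using ((hA' j).dist_le_mul _ _).trans (by simpa using (hn x).le)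
  rw [mul_div_cancel₀ _ two_ne_zero] at this
  refine (ENat.toENNReal_mono this).trans (le_trans ?_ (EReal.exp_monotone
    (mul_le_mul_of_nonneg_right hr.le (Nat.cast_nonneg' n))))
  rw [← EReal.coe_coe_eq_natCast, ← EReal.coe_mul, EReal.exp_coe, ENat.toENNReal_coe, ← ENNReal.ofReal_natCast]
  refine ENNReal.ofReal_le_ofReal (le_trans (le_of_eq ?_) H)
  simp [mul_pow, pow_succ]; ring

end Crest.Agent.H0163
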