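import Crest.Agent.H0163.HomA

set_option autoImplicit false
open Finset Complex CategoryTheory AlgebraicTopology
open scoped ComplexConjugate Real

namespace Crest.Agent.H0163

namespace Hm

noncomputable section

lemma D0 (b : ℝ) : 0 < (1 - b) ^ 2 + b ^ 2 := by nlinarith [sq_nonneg (1 - 2 * b)]

def rr (b : ℝ) : ℝ := 2 * (1 - b) * b / ((1 - b) ^ 2 + b ^ 2)

def hh (b : ℝ) : ℝ := ((1 - b) ^ 2 - b ^ 2) / ((1 - b) ^ 2 + b ^ 2)

def Q (a b : ℝ) : S2 := ⟨!₂[rr b * Real.cos (2 * π * a), rr b * Real.sin (2 * π * a), hh b], by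
  have := (D0 b).ne'
  rw [mem_sphere_zero_iff_norm, ← sq_eq_sq₀ (norm_nonneg _) zero_le_one, EuclideanSpace.real_norm_sq_eq, Fin.sum_univ_three]
  have e : rr b ^ 2 + hh b ^ 2 = 1 := by unfold rr hh; field_simp; ring
  simp
  linear_combination e + rr b ^ 2 * Real.cos_sq_add_sin_sq (2 * π * a)⟩

lemma xi_Q (a b : ℝ) : xi (Q a b) = rr b * exp ((2 * π * a : ℝ) * I) := by
  apply Complex.ext <;> simp [xi, Q, -ofReal_mul, exp_ofReal_mul_I_re, exp_ofReal_mul_I_im]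

lemma eta_Q (a b : ℝ) : eta (Q a b) = hh b := rfl

lemma Ln_Q (a b : ℝ) : Ln (Q a b) ((1 - b : ℝ), b * exp ((2 * π * a : ℝ) * I)) := by
  have d : ((1 - b) ^ 2 + b ^ 2 : ℂ) ≠ 0 := by exact_mod_cast (D0 b).ne'
  have e : conj (exp ((2 * π * a : ℝ) * I)) * exp ((2 * π * a : ℝ) * I) = 1 := by
    rw [conj_mul', norm_exp_ofReal_mul_I]; simp
  refine ⟨fun c => ?_, ?_, ?_⟩
  · obtain ⟨c1, c2⟩ := Prod.mk_eq_zero.1 c
    rw [ofReal_eq_zero, sub_eq_zero] at c1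
    simp [← c1] at c2
  all_goals
    simp only [xi_Q, eta_Q, map_mul, conj_ofReal]
    generalize exp _ = E at *
    simp only [rr, hh]; push_cast; field_simp
  · ring
  · linear_combination -2 * (1 - b) * b ^ 2 * e

def af {n : ℕ} (a : Fin (n + 1) → ℝ) (z : Sx n) : ℝ := ∑ i, z i * a i

@[fun_prop] lemma c_af {n : ℕ} (a : Fin (n + 1) → ℝ) : Continuous (af a) :=
  continuous_finsetSum _ fun i _ => ((continuous_apply i).comp continuous_subtype_val).mul continuous_const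

lemma af_face {n : ℕ} (a : Fin (n + 2) → ℝ) (i : Fin (n + 2)) (z : Sx n) : af a (face i z) = af (a ∘ i.succAbove) z := by
  simp only [af, face, ContinuousMap.coe_mk, stdSimplex.map_coe, FunOnFinite.linearMap_apply_apply, sum_mul]
  rw [← sum_fiberwise univ i.succAbove]
  exact sum_congr rfl fun y _ => sum_congr rfl fun x hx => by rw [← (mem_filter.1 hx).2]; rfl

lemma af_aff {n : ℕ} {a a' : Fin (n + 1) → ℝ} (s t : ℝ) (h : ∀ i, a' i = s * a i + t) (z : Sx n) : af a' z = s * af a z + t := by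
  simp only [af, h, mul_add, sum_add_distrib, ← sum_mul, mul_left_comm _ s, ← mul_sum, stdSimplex.sum_eq_one, one_mul]

def sm {n : ℕ} (a b : Fin (n + 1) → ℝ) : C(Sx n, S2) := ⟨fun z => Q (af a z) (af b z), by
  have := fun z => (D0 (af b z)).ne'
  refine Continuous.subtype_mk ((PiLp.continuous_toLp _ _).comp (continuous_pi fun i => ?_)) _
  fin_cases i <;> simp [rr, hh] <;> fun_prop (disch := assumption)⟩

def vv {n : ℕ} (a b : Fin (n + 1) → ℝ) (z : Sx n) : ℂ × ℂ := ((1 - af b z : ℝ), af b z * exp ((2 * π * af a z : ℝ) * I))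

lemma vv_lift {n : ℕ} (a b : Fin (n + 1) → ℝ) : IsLift (sm a b) (vv a b) := ⟨by unfold vv; fun_prop, fun _ => Ln_Q _ _⟩

lemma sm_face {n : ℕ} (a b : Fin (n + 2) → ℝ) (i : Fin (n + 2)) :
    (sm a b).comp (face i) = sm (a ∘ i.succAbove) (b ∘ i.succAbove) := by
  ext1 z; simp only [sm, ContinuousMap.comp_apply, ContinuousMap.coe_mk, af_face]

lemma vv_face {n : ℕ} (a b : Fin (n + 2) → ℝ) (i : Fin (n + 2)) :
    vv a b ∘ face i = vv (a ∘ i.succAbove) (b ∘ i.succAbove) := by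
  ext1 z; simp only [vv, Function.comp_apply, af_face]

lemma ex1 (a : ℝ) : exp ((2 * π * (1 * a + 1) : ℝ) * I) = exp ((2 * π * a : ℝ) * I) := by
  rw [← exp_periodic ((2 * π * a : ℝ) * I)]; congr 1; push_cast; ring

lemma sm_shift {n : ℕ} {a a' : Fin (n + 1) → ℝ} (b : Fin (n + 1) → ℝ) (h : ∀ i, a' i = 1 * a i + 1) : sm a' b = sm a b := by
  ext1 z; exact S2_ext (by simp only [sm, ContinuousMap.coe_mk, xi_Q, af_aff _ _ h, ex1]) rfl

lemma vv_shift {n : ℕ} {a a' : Fin (n + 1) → ℝ} (b : Fin (n + 1) → ℝ) (h : ∀ i, a' i = 1 * a i + 1) : vv a' b = vv a b := by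
  ext1 z; simp only [vv, af_aff _ _ h, ex1]

lemma sm_end {n : ℕ} (a a' : Fin (n + 1) → ℝ) {b : Fin (n + 1) → ℝ} {t : ℝ} (ht : (1 - t) * t = 0) (h : ∀ i, b i = 0 * b i + t) :
    sm a b = sm a' b := by
  ext1 z; exact S2_ext (by
    have := af_aff _ _ h z
    rw [zero_mul, zero_add] at this
    simp [sm, xi_Q, this, rr, mul_assoc, ht]) rfl

lemma sm_g {g : C(S2, S2)} (hg : ∀ x : S2, xi (g x : E3) = xi (x : E3) ^ 2 / (‖xi (x : E3)‖ : ℂ) ∧
      eta (g x : E3) = eta (x : E3)) {n : ℕ} {a a' b : Fin (n + 1) → ℝ} (h : ∀ i, a' i = 2 * a i + 0)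
    (hb : ∀ i, 0 ≤ b i ∧ b i ≤ 1) : g.comp (sm a b) = sm a' b := by
  ext1 z
  refine S2_ext ((hg _).1.trans ?_) (hg _).2
  have b0 : 0 ≤ af b z := sum_nonneg fun i _ => mul_nonneg (z.2.1 i) (hb i).1
  have b1 : 0 ≤ 1 - af b z := sub_nonneg.2
    ((sum_le_sum fun i _ => mul_le_of_le_one_right (z.2.1 i) (hb i).2).trans z.2.2.le)
  have : 0 ≤ rr (af b z) := by unfold rr; positivity
  simp only [sm, ContinuousMap.coe_mk, xi_Q, af_aff _ _ h, norm_mul, norm_exp_ofReal_mul_I, mul_one, norm_real,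
    Real.norm_of_nonneg this, mul_pow, ← exp_nat_mul]
  rw [mul_div_right_comm, sq, mul_self_div_self]
  congr 2; push_cast; ring

lemma f2 (a b c : ℝ) : ![a, b, c] ∘ Fin.succAbove (n := 1 + 1) 0 = ![b, c] ∧ ![a, b, c] ∘ Fin.succAbove (n := 1 + 1) 1 = ![a, c] ∧
    ![a, b, c] ∘ Fin.succAbove (n := 1 + 1) 2 = ![a, b] := by
  refine ⟨?_, ?_, ?_⟩ <;> ext i <;> fin_cases i <;> rfl

lemma f3 (a b c d : ℝ) : ![a, b, c, d] ∘ Fin.succAbove (n := 2 + 1) 0 = ![b, c, d] ∧ ![a, b, c, d] ∘ Fin.succAbove (n := 2 + 1) 1 = ![a, c, d] ∧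
    ![a, b, c, d] ∘ Fin.succAbove (n := 2 + 1) 2 = ![a, b, d] ∧ ![a, b, c, d] ∘ Fin.succAbove (n := 2 + 1) 3 = ![a, b, c] := by
  refine ⟨?_, ?_, ?_, ?_⟩ <;> ext i <;> fin_cases i <;> rfl

lemma om3 (a b c x y z : ℝ) : om (sm ![a, b, c] ![x, y, z]) = th (sm ![b, c] ![y, z]) (vv ![b, c] ![y, z]) -
    th (sm ![a, c] ![x, z]) (vv ![a, c] ![x, z]) + th (sm ![a, b] ![x, y]) (vv ![a, b] ![x, y]) := by
  simp only [om_eq (vv_lift _ _), Fin.sum_univ_three, sm_face, vv_face]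
  erw [(f2 a b c).1, (f2 a b c).2.1, (f2 a b c).2.2, (f2 x y z).1, (f2 x y z).2.1, (f2 x y z).2.2]
  simp [sub_eq_add_neg]

lemma om_val : om (sm ![0, 1, 1] ![0, 0, 1]) - om (sm ![0, 0, 1] ![0, 1, 1]) - om (sm ![0, 0, 0] ![0, 0, 0]) +
    om (sm ![0, 0, 0] ![1, 1, 1]) = -(2 * π) := by
  have e0 : vv ![0, 1] ![0, 0] = vv ![0, 0] ![0, 0] := by
    ext1 z; simp [vv, af]
  have e1 := th_mul (γ' := vv ![0, 1] ![1, 1]) (vv_lift ![0, 0] ![1, 1]) ⟨fun z => (2 * π * af ![0, 1] z : ℝ) * I, by fun_prop⟩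
    fun z => by
      have := af_aff (a := ![1, 1]) (a' := ![1, 1]) 0 1 (by simp [Fin.forall_fin_two]) z
      rw [zero_mul, zero_add] at this
      simp only [vv, this]; simp [af, mul_comm]
  simp only [om3]
  rw [sm_shift (a' := ![1, 1]) (a := ![0, 0]) _ (by simp [Fin.forall_fin_two]),
    vv_shift (a' := ![1, 1]) (a := ![0, 0]) _ (by simp [Fin.forall_fin_two]), e0,
    sm_end ![0, 1] ![0, 0] (b := ![0, 0]) (t := 0) (by simp) (by simp [Fin.forall_fin_two]),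
    sm_end ![0, 1] ![0, 0] (b := ![1, 1]) (t := 1) (by simp) (by simp [Fin.forall_fin_two]), e1]
  simp [var, af]
  ring

abbrev R : ModuleCat.{0} ℝ := ModuleCat.of ℝ ℝ

abbrev K (X : Type) [TopologicalSpace X] : ChainComplex (ModuleCat.{0} ℝ) ℕ := (TopCat.toSSet.obj (TopCat.of X)).chainComplex R

def sx {n : ℕ} (σ : C(Sx n, S2)) : R ⟶ (K S2).X n :=
  SSet.ιChainComplex _ (((TopCat.of S2).toSSetObjEquiv (Opposite.op (SimplexCategory.mk n))).symm σ)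

lemma sx_d {n : ℕ} (σ : C(Sx (n + 1), S2)) :
    sx σ ≫ (K S2).d (n + 1) n = ∑ i : Fin (n + 2), (-1) ^ i.val • sx (σ.comp (face i)) :=
  SSet.ιChainComplex_d _ _ _

lemma sx_map {n : ℕ} (g : C(S2, S2)) (σ : C(Sx n, S2)) :
    sx σ ≫ (SSet.chainComplexMap (TopCat.toSSet.map (TopCat.ofHom g)) R).f n = sx (g.comp σ) :=
  SSet.ι_chainComplexMap_f _ _ _ _ _

lemma d2 (a b c x y z : ℝ) : sx (sm ![a, b, c] ![x, y, z]) ≫ (K S2).d 2 1 =
    sx (sm ![b, c] ![y, z]) - sx (sm ![a, c] ![x, z]) + sx (sm ![a, b] ![x, y]) := by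
  refine (sx_d _).trans ((Fin.sum_univ_three _).trans ?_)
  simp only [sm_face]
  erw [(f2 a b c).1, (f2 a b c).2.1, (f2 a b c).2.2, (f2 x y z).1, (f2 x y z).2.1, (f2 x y z).2.2]
  simp [sub_eq_add_neg]

lemma d3 (a b c d x y z w : ℝ) : sx (sm ![a, b, c, d] ![x, y, z, w]) ≫ (K S2).d 3 2 = sx (sm ![b, c, d] ![y, z, w]) -
    sx (sm ![a, c, d] ![x, z, w]) + sx (sm ![a, b, d] ![x, y, w]) - sx (sm ![a, b, c] ![x, y, z]) := by
  refine (sx_d _).trans ((Fin.sum_univ_four _).trans ?_)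
  simp only [sm_face]
  erw [(f3 a b c d).1, (f3 a b c d).2.1, (f3 a b c d).2.2.1, (f3 a b c d).2.2.2, (f3 x y z w).1, (f3 x y z w).2.1,
    (f3 x y z w).2.2.1, (f3 x y z w).2.2.2]
  simp [sub_eq_add_neg, pow_succ]

def Om : (K S2).X 2 ⟶ R := Limits.Cofan.IsColimit.desc (SSet.isColimitChainComplexXCofan _ R 2) fun x =>
  om ((TopCat.of S2).toSSetObjEquiv _ x) • 𝟙 R

lemma sx_Om (σ : C(Sx 2, S2)) : sx σ ≫ Om = om σ • 𝟙 R := Limits.Cofan.IsColimit.fac _ _ _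

lemma d_Om : (K S2).d 3 2 ≫ Om = 0 := SSet.chainComplex_hom_ext fun x => by
  obtain ⟨τ, rfl⟩ := ((TopCat.of S2).toSSetObjEquiv _).symm.surjective x
  have := congrArg (· • 𝟙 R) (om_d τ)
  change sx τ ≫ _ = _
  rw [← Category.assoc, sx_d, Preadditive.sum_comp]
  simp only [Preadditive.zsmul_comp, sx_Om]
  simpa [sum_smul, mul_smul, ← Int.cast_smul_eq_zsmul ℝ] using this

def al : R ⟶ (K S2).X 2 := sx (sm ![0, 1, 1] ![0, 0, 1]) - sx (sm ![0, 0, 1] ![0, 1, 1]) - sx (sm ![0, 0, 0] ![0, 0, 0]) +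
    sx (sm ![0, 0, 0] ![1, 1, 1])

lemma al_d : al ≫ (K S2).d 2 1 = 0 := by
  simp only [al, Preadditive.add_comp, Preadditive.sub_comp, d2]
  rw [sm_shift (a' := ![1, 1]) (a := ![0, 0]) _ (by simp [Fin.forall_fin_two]),
    sm_end ![0, 1] ![0, 0] (b := ![0, 0]) (t := 0) (by simp) (by simp [Fin.forall_fin_two]),
    sm_end ![0, 1] ![0, 0] (b := ![1, 1]) (t := 1) (by simp) (by simp [Fin.forall_fin_two])]
  abel

lemma al_g {g : C(S2, S2)} (hg : ∀ x : S2, xi (g x : E3) = xi (x : E3) ^ 2 / (‖xi (x : E3)‖ : ℂ) ∧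
      eta (g x : E3) = eta (x : E3)) :
    al + al - al ≫ (SSet.chainComplexMap (TopCat.toSSet.map (TopCat.ofHom g)) R).f 2 =
    (sx (sm ![0, 0, 1, 2] ![0, 1, 1, 1]) - sx (sm ![0, 1, 1, 2] ![0, 0, 1, 1]) + sx (sm ![0, 1, 2, 2] ![0, 0, 0, 1])) ≫
      (K S2).d 3 2 := by
  simp only [al, Preadditive.add_comp, Preadditive.sub_comp, d3, sx_map]
  rw [sm_g hg (a := ![0, 1, 1]) (a' := ![0, 2, 2]) (by simp [Fin.forall_fin_succ]) (by simp [Fin.forall_fin_succ]),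
    sm_g hg (a := ![0, 0, 1]) (a' := ![0, 0, 2]) (by simp [Fin.forall_fin_succ]) (by simp [Fin.forall_fin_succ]),
    sm_g hg (a := ![0, 0, 0]) (a' := ![0, 0, 0]) (by simp [Fin.forall_fin_succ]) (by simp [Fin.forall_fin_succ]),
    sm_g hg (a := ![0, 0, 0]) (a' := ![0, 0, 0]) (by simp [Fin.forall_fin_succ]) (by simp [Fin.forall_fin_succ]),
    sm_shift (a' := ![1, 1, 2]) (a := ![0, 0, 1]) _ (by simp [Fin.forall_fin_succ]; norm_num),
    sm_shift (a' := ![1, 2, 2]) (a := ![0, 1, 1]) _ (by simp [Fin.forall_fin_succ]; norm_num),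
    sm_end ![0, 1, 2] ![0, 0, 0] (b := ![0, 0, 0]) (t := 0) (by simp) (by simp [Fin.forall_fin_succ]),
    sm_end ![0, 1, 2] ![0, 0, 0] (b := ![1, 1, 1]) (t := 1) (by simp) (by simp [Fin.forall_fin_succ])]
  abel

def cls : R ⟶ (K S2).homology 2 := (K S2).liftCycles al 1 (by simp) al_d ≫ (K S2).homologyπ 2

lemma cls_ne : cls ≠ 0 := fun h => by
  have := congrArg (· ≫ (K S2).homologyι 2 ≫ (K S2).descOpcycles Om 3 (by simp) d_Om) h
  simp only [cls, Category.assoc, HomologicalComplex.homology_π_ι_assoc, HomologicalComplex.p_descOpcycles,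
    HomologicalComplex.liftCycles_i_assoc, Limits.zero_comp, al, Preadditive.add_comp, Preadditive.sub_comp, sx_Om,
    ← sub_smul, ← add_smul, om_val] at this
  simpa [Real.pi_ne_zero] using congrArg (fun f : R ⟶ R => f.hom 1) this

lemma cls_g {g : C(S2, S2)} (hg : ∀ x : S2, xi (g x : E3) = xi (x : E3) ^ 2 / (‖xi (x : E3)‖ : ℂ) ∧
      eta (g x : E3) = eta (x : E3)) :
    cls ≫ HomologicalComplex.homologyMap (SSet.chainComplexMap (TopCat.toSSet.map (TopCat.ofHom g)) R) 2 = cls + cls := by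
  have := (K S2).liftCycles_homologyπ_eq_zero_of_boundary _ 1 (by simp) _ (al_g hg)
  rw [cls, Category.assoc, HomologicalComplex.homologyπ_naturality, ← Category.assoc, ← Preadditive.add_comp, eq_comm,
    ← sub_eq_zero, ← Preadditive.sub_comp, ← this]
  congr 1
  simp [← cancel_mono ((K S2).iCycles 2)]

end

end Hm

open Hm in
theorem jobH : JobH := fun M _ f ι r g hr hg ⟨H⟩ => by
  set F := (singularHomologyFunctor (ModuleCat.{0} ℝ) 2).obj (ModuleCat.of ℝ ℝ)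
  let c : R ⟶ F.obj (TopCat.of S2) := cls
  have h1 : c ≫ F.map (TopCat.ofHom g) = c + c := cls_g hg
  have h2 : F.map (TopCat.ofHom ι ≫ TopCat.ofHom f) = F.map (TopCat.ofHom g ≫ TopCat.ofHom ι) :=
    TopCat.Homotopy.congr_homologyMap_singularChainComplexFunctor (f := TopCat.ofHom ι ≫ TopCat.ofHom f)
      (g := TopCat.ofHom g ≫ TopCat.ofHom ι) H _ _
  have h3 : TopCat.ofHom ι ≫ TopCat.ofHom r = 𝟙 _ := by ext1 x; exact hr x
  have h4 : (c ≫ F.map (TopCat.ofHom ι)) ≫ F.map (TopCat.ofHom f) = (2 : ℝ) • (c ≫ F.map (TopCat.ofHom ι)) := by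
    rw [Category.assoc, ← F.map_comp, h2, F.map_comp, ← Category.assoc, h1, Preadditive.add_comp, two_smul]
  refine Module.End.hasEigenvalue_of_hasEigenvector (x := (c ≫ F.map (TopCat.ofHom ι)).hom 1)
    ⟨Module.End.mem_eigenspace_iff.2 (congrArg (fun u => u.hom 1) h4), fun h => cls_ne ?_⟩
  have : c ≫ F.map (TopCat.ofHom ι) = 0 := by ext; exact h
  change c = 0
  rw [← Category.comp_id c, ← F.map_id, ← h3, F.map_comp, ← Category.assoc, this, Limits.zero_comp]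

end Crest.Agent.H0163
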