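import Crest.Agent.H0163.Defs

set_option autoImplicit false
open Finset Complex
open scoped ComplexConjugate

namespace Crest.Agent.H0163.Hm

noncomputable section

lemma sph (x : S2) : xi x * conj (xi x) + eta x ^ 2 = 1 := by
  have := EuclideanSpace.real_norm_sq_eq (x : E3)
  rw [mem_sphere_zero_iff_norm.1 x.2, Fin.sum_univ_three] at this
  rw [mul_conj, normSq_apply]
  norm_cast
  simp only [xi, eta]; linarith

lemma S2_ext {x y : S2} (h : xi x = xi y) (h' : eta x = eta y) : x = y := by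
  ext i; fin_cases i
  exacts [congrArg re h, congrArg im h, h']

lemma c_xi : Continuous fun x : S2 => xi x := by
  simp only [xi, mk_eq_add_mul_I]; fun_prop

lemma c_eta : Continuous fun x : S2 => eta x := by unfold eta; fun_prop

/-- `v` is a nonzero vector on the tautological line over `x`. -/
def Ln (x : S2) (v : ℂ × ℂ) : Prop := v ≠ 0 ∧ (1 + eta x) * v.2 = xi x * v.1 ∧ (1 - eta x) * v.1 = conj (xi x) * v.2

lemma Ln.step {x y : S2} {v : ℂ × ℂ} (h : Ln y v) (hd : dist x y < 2) :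
    Ln x ((1 + eta x) * v.1 + conj (xi x) * v.2, xi x * v.1 + (1 - eta x) * v.2) := by
  refine ⟨fun c => ?_, by linear_combination -v.2 * sph x, by linear_combination -v.1 * sph x⟩
  obtain ⟨c1, c2⟩ := Prod.mk_eq_zero.1 c
  obtain ⟨h0, h1, h2⟩ := h
  have : (xi x + xi y) * conj (xi x + xi y) + ((eta x + eta y : ℝ) : ℂ) ^ 2 = 0 := by
    by_contra d
    refine h0 (Prod.ext (mul_left_cancel₀ d ?_) (mul_left_cancel₀ d ?_)) <;> simp only [map_add, Prod.fst_zero, Prod.snd_zero] <;> push_cast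
    · linear_combination (conj (xi x) + conj (xi y)) * (c2 - h1) + (eta x + eta y) * (c1 - h2)
    · linear_combination (xi x + xi y) * (c1 - h2) - (eta x + eta y) * (c2 - h1)
  rw [mul_conj, normSq_apply] at this
  norm_cast at this
  have e : (x : E3) = -y := by
    simp only [xi, eta, add_re, add_im] at this
    ext i; fin_cases i <;> simp <;> nlinarith [sq_nonneg (x.1 0 + y.1 0), sq_nonneg (x.1 1 + y.1 1), sq_nonneg (x.1 2 + y.1 2)]
  rw [Subtype.dist_eq, e, dist_eq_norm, ← neg_add', norm_neg, ← two_smul ℝ, norm_smul, mem_sphere_zero_iff_norm.1 y.2] at hd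
  simp at hd

def IsLift {X : Type} [TopologicalSpace X] (σ : X → S2) (v : X → ℂ × ℂ) : Prop := Continuous v ∧ ∀ z, Ln (σ z) (v z)

lemma exists_lift {X : Type} [TopologicalSpace X] [CompactSpace X] [ContractibleSpace X] (σ : C(X, S2)) :
    ∃ v, IsLift σ v := by
  obtain ⟨y, ⟨H⟩⟩ := id_nullhomotopic X
  let γ := (σ.comp H.toContinuousMap).curry
  have st : ∀ s t, dist (γ s) (γ t) < 2 → (∃ v, IsLift (γ t) v) → ∃ v, IsLift (γ s) v := fun s t h ⟨v, hv, hv'⟩ => by
    have a := c_xi.comp (γ s).continuous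
    have b := c_eta.comp (γ s).continuous
    exact ⟨_, by simp only [Function.comp_def] at a b; fun_prop,
      fun z => (hv' z).step ((ContinuousMap.dist_apply_le_dist z).trans_lt h)⟩
  have := PreconnectedSpace.induction₂' (fun s t => (∃ v, IsLift (γ s) v) → ∃ v, IsLift (γ t) v) (fun s => by
    filter_upwards [γ.continuous.continuousAt (Metric.ball_mem_nhds (γ s) two_pos)] with t ht
    exact ⟨st _ _ ht, st _ _ (Metric.mem_ball'.1 ht)⟩) ⟨fun _ _ _ a b => b ∘ a⟩ 1 0 (by
      obtain ⟨v, hv⟩ : ∃ v, Ln (σ y) v := by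
        by_cases h : (1 + eta (σ y) : ℂ) = 0
        · exact ⟨(conj (xi (σ y)), 1 - eta (σ y)), fun c => two_ne_zero (α := ℂ)
            (by linear_combination h + (Prod.mk_eq_zero.1 c).2), by linear_combination -sph (σ y), mul_comm _ _⟩
        · exact ⟨(1 + eta (σ y), xi (σ y)), fun c => h (Prod.mk_eq_zero.1 c).1, mul_comm _ _, by linear_combination -sph (σ y)⟩
      exact ⟨fun _ => v, continuous_const, fun z => by simpa [γ] using hv⟩)
  simpa [γ, IsLift] using this

lemma exists_log {X : Type} [TopologicalSpace X] [ContractibleSpace X] [LocallyPathConnectedSpace X] {σ : X → S2}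
    {v w : X → ℂ × ℂ} (hv : IsLift σ v) (hw : IsLift σ w) : ∃ L : C(X, ℂ), ∀ z, v z = exp (L z) • w z := by
  have n0 : ∀ z, (w z).1 * conj (w z).1 + (w z).2 * conj (w z).2 ≠ 0 := fun z h => (hw.2 z).1 (by
    rw [mul_conj, mul_conj] at h
    norm_cast at h
    obtain ⟨a, b⟩ := (add_eq_zero_iff_of_nonneg (normSq_nonneg _) (normSq_nonneg _)).1 h
    exact Prod.ext (normSq_eq_zero.1 a) (normSq_eq_zero.1 b))
  let u : C(X, ℂ) := ⟨fun z => ((v z).1 * conj (w z).1 + (v z).2 * conj (w z).2) /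
    ((w z).1 * conj (w z).1 + (w z).2 * conj (w z).2), by
      have := hv.1; have := hw.1; exact Continuous.div (by fun_prop) (by fun_prop) n0⟩
  have hu : ∀ z, v z = u z • w z := fun z => by
    obtain ⟨-, a1, a2⟩ := hv.2 z
    obtain ⟨-, b1, b2⟩ := hw.2 z
    have d : (v z).1 * (w z).2 = (v z).2 * (w z).1 := by
      linear_combination ((v z).1 * b1 - (w z).1 * a1 + (w z).2 * a2 - (v z).2 * b2) / 2
    have := n0 z
    refine Prod.ext ?_ ?_ <;> simp only [u, ContinuousMap.coe_mk, Prod.smul_fst, Prod.smul_snd, smul_eq_mul] <;>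
      rw [div_mul_eq_mul_div, eq_div_iff this]
    · linear_combination conj (w z).2 * d
    · linear_combination -conj (w z).1 * d
  have u0 : ∀ z, u z ≠ 0 := fun z h => (hv.2 z).1 (by rw [hu, h, zero_smul])
  obtain ⟨z⟩ : Nonempty X := inferInstance
  obtain ⟨L, ⟨-, hL⟩, -⟩ := isCoveringMapOn_exp.existsUnique_continuousMap_lifts u (exp_log (u0 z)) u0
  exact ⟨L, fun z => (hu z).trans (congrArg (· • w z) (congrFun hL z).symm)⟩

abbrev Sx (n : ℕ) := stdSimplex ℝ (Fin (n + 1))

instance (n : ℕ) : ContractibleSpace (Sx n) := (convex_stdSimplex ℝ _).contractibleSpace ⟨_, (stdSimplex.vertex 0).2⟩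

instance (n : ℕ) : LocallyPathConnectedSpace (Sx n) := (convex_stdSimplex ℝ _).locallyPathConnectedSpace

def face {n : ℕ} (i : Fin (n + 2)) : C(Sx n, Sx (n + 1)) := ⟨stdSimplex.map i.succAbove, stdSimplex.continuous_map _⟩

def lift {n : ℕ} (σ : C(Sx n, S2)) : Sx n → ℂ × ℂ := (exists_lift σ).choose

lemma lift_spec {n : ℕ} (σ : C(Sx n, S2)) : IsLift σ (lift σ) := (exists_lift σ).choose_spec

def var (L : Sx 1 → ℂ) : ℝ := (L (stdSimplex.vertex 1)).im - (L (stdSimplex.vertex 0)).im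

def th (e : C(Sx 1, S2)) (γ : Sx 1 → ℂ × ℂ) : ℝ :=
  var ⇑(Classical.epsilon fun L : C(Sx 1, ℂ) => ∀ z, γ z = exp (L z) • lift e z)

lemma th_eq {e : C(Sx 1, S2)} {γ : Sx 1 → ℂ × ℂ} (L : C(Sx 1, ℂ)) (h : ∀ z, γ z = exp (L z) • lift e z) : th e γ = var L := by
  have := Classical.epsilon_spec (p := fun L : C(Sx 1, ℂ) => ∀ z, γ z = exp (L z) • lift e z) ⟨L, h⟩
  rw [th]
  generalize Classical.epsilon (fun L : C(Sx 1, ℂ) => ∀ z, γ z = exp (L z) • lift e z) = M at *
  have e1 : ∀ z, exp (M z - L z) = 1 := fun z => by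
    rw [exp_sub, div_eq_one_iff_eq (exp_ne_zero _)]
    exact smul_left_injective ℂ ((lift_spec e).2 z).1 ((this z).symm.trans (h z))
  have := congrArg im (isCoveringMap_exp.const_of_comp (g := fun z => M z - L z) (by fun_prop)
    (fun a b => Subtype.ext ((e1 a).trans (e1 b).symm)) (stdSimplex.vertex 1) (stdSimplex.vertex 0))
  simp only [sub_im] at this
  simp only [var]; linarith

lemma th_mul {e : C(Sx 1, S2)} {γ γ' : Sx 1 → ℂ × ℂ} (h : IsLift e γ) (M : C(Sx 1, ℂ)) (h' : ∀ z, γ' z = exp (M z) • γ z) :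
    th e γ' = th e γ + var M := by
  obtain ⟨L, hL⟩ := exists_log h (lift_spec e)
  rw [th_eq L hL, th_eq (L + M) fun z => by rw [h', hL, smul_smul, ← exp_add, add_comm]; rfl]
  simp only [var, ContinuousMap.add_apply, add_im]; ring

lemma IsLift.face {n : ℕ} {σ : C(Sx (n + 1), S2)} {v : Sx (n + 1) → ℂ × ℂ} (h : IsLift σ v) (i : Fin (n + 2)) :
    IsLift (σ.comp (face i)) (v ∘ face i) := ⟨h.1.comp (Hm.face i).continuous, fun _ => h.2 _⟩

def om (σ : C(Sx 2, S2)) : ℝ := ∑ i : Fin 3, (-1) ^ i.val * th (σ.comp (face i)) (lift σ ∘ face i)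

lemma om_eq {σ : C(Sx 2, S2)} {v : Sx 2 → ℂ × ℂ} (h : IsLift σ v) :
    om σ = ∑ i : Fin 3, (-1) ^ i.val * th (σ.comp (face i)) (v ∘ face i) := by
  obtain ⟨L, hL⟩ := exists_log (lift_spec σ) h
  simp only [om, fun i => th_mul (γ' := lift σ ∘ face i) (h.face i) (L.comp (face i)) fun z => hL _]
  simp [Fin.sum_univ_three, var, face, Fin.succAbove]
  ring

lemma om_d (τ : C(Sx 3, S2)) : ∑ j : Fin 4, (-1) ^ j.val * om (τ.comp (face j)) = 0 := by
  have e : ∀ (j j' : Fin 4) (i i' : Fin 3), (∀ k, j.succAbove (i.succAbove k) = j'.succAbove (i'.succAbove k)) →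
      th ((τ.comp (face j)).comp (face i)) ((lift τ ∘ face j) ∘ face i) =
      th ((τ.comp (face j')).comp (face i')) ((lift τ ∘ face j') ∘ face i') := fun j j' i i' h => by
    have : ∀ z, face j (face i z) = face j' (face i' z) := fun z => by
      simp only [face, ContinuousMap.coe_mk, stdSimplex.map_comp_apply, Function.comp_def, h]
    congr 1
    · ext1 z; exact congrArg τ (this z)
    · ext1 z; exact congrArg (lift τ) (this z)
  simp only [fun j => om_eq ((lift_spec τ).face j), Fin.sum_univ_four, Fin.sum_univ_three]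
  rw [e 0 1 0 0 (by decide), e 0 2 1 0 (by decide), e 0 3 2 0 (by decide), e 1 2 1 1 (by decide), e 1 3 2 1 (by decide),
    e 2 3 2 2 (by decide)]
  simp
  ring

end

end Crest.Agent.H0163.Hm
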