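import Crest.Agent.H0163.Map

/-! The invariant of one level and its propagation. -/

set_option autoImplicit false

namespace Crest.Agent.H0163

open Real

/-- `z` is carried by node `i` with the right phase -/
def AlN (j : ℕ) (t : ℝ) (z : ℂ) (i : ℤ) (θ : ℂ) : Prop :=
  |qq j * t - i| ≤ 92 / 100 + (qq j - hh j i) * dd j ∧ ∃ ρ : ℝ, 0 ≤ ρ ∧ z = ρ • θ ^ 2 ^ hh j i

/-- the slot of parity `e` is empty or aligned -/
def Al (j : ℕ) (t : ℝ) (z : ℂ) (e : ℤ) (θ : ℂ) : Prop := z = 0 ∨ ∃ i, i % 2 = e ∧ AlN j t z i θ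

/-- node `i` at offset `z` is required to be loaded -/
def Reg (j : ℕ) (i : ℤ) (z : ℝ) : Prop :=
  |z| ≤ 1 / 2 + hh j i * dd j ∨ (0 ≤ z ∧ z ≤ 85 / 100 + hh j i * dd j ∧ hh j i < hh j (i + 1)) ∨
    (z ≤ 0 ∧ -z ≤ 85 / 100 + hh j i * dd j ∧ hh j i < hh j (i - 1))

/-- invariant of a positive level -/
def InvP (j : ℕ) (t : ℝ) (y : ℂ × ℂ) (θ : ℂ) (R : ℝ) : Prop :=
  Al j t y.1 0 θ ∧ Al j t y.2 1 θ ∧
    (∀ i : ℤ, i % 2 = 0 → Reg j i (qq j * t - i) → R ≤ ‖y.1‖) ∧
    (∀ i : ℤ, i % 2 = 1 → Reg j i (qq j * t - i) → R ≤ ‖y.2‖)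

/-- invariant of level `j` -/
def Inv (j : ℕ) (t : ℝ) (y : ℂ × ℂ) (θ : ℂ) (R : ℝ) : Prop :=
  if j = 0 then ∃ ρ : ℝ, 0 ≤ ρ ∧ y.1 = ρ • θ ∧ R ≤ ρ else InvP j t y θ R

/-- a good source for level `j` -/
def Src (j : ℕ) (t : ℝ) (M θ : ℂ) (R : ℝ) : Prop :=
  (j = 0 ∨ |xx j t| < 1) → ∃ ρ : ℝ, 0 ≤ ρ ∧ M = ρ • θ ∧ ((j = 0 ∨ |xx j t| ≤ 85 / 100) → R ≤ ρ)

/-- relative growth factor of level `j` -/
noncomputable def ww (j : ℕ) (t : ℝ) : ℝ :=
  if j = 0 then 1 else if |xx j t| < 1 then (1 / 4) ^ qq j else sin (π * t) ^ 2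

theorem ww_nonneg (j : ℕ) (t : ℝ) : 0 ≤ ww j t := by
  rw [ww]; split_ifs <;> positivity

theorem ww_le (j : ℕ) (t : ℝ) : ww j t ≤ 1 := by
  rw [ww]; split_ifs
  exacts [le_rfl, pow_le_one₀ (by norm_num) (by norm_num), sin_sq_le_one _]

theorem norm_polar {ρ : ℝ} (hρ : 0 ≤ ρ) {θ : ℂ} (hθ : ‖θ‖ = 1) (m : ℕ) : ‖ρ • θ ^ m‖ = ρ := by
  rw [norm_smul, norm_pow, hθ, one_pow, mul_one, Real.norm_of_nonneg hρ]

theorem offset_step (j : ℕ) (t : ℝ) (i : ℤ) :
    qq j * (t + al) - ((i + pp j : ℤ) : ℝ) = qq j * t - i + dd j := by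
  rw [mul_add, qq_mul_al]; push_cast; ring

theorem hh_dd_le (j : ℕ) (i : ℤ) : hh j i * dd j ≤ 1 / 128 := hh_mul_dd_le j (hh_lt j i).le

theorem hh_dd_nonneg (j : ℕ) (i : ℤ) : 0 ≤ hh j i * dd j := by have := dd_pos j; positivity

theorem dd_le (j : ℕ) : dd j ≤ 1 / 128 := by
  have := hh_mul_dd_le j (m := 1) (qq_pos j)
  simpa using this

theorem AlN.abs_bd {j : ℕ} {t : ℝ} {z θ : ℂ} {i : ℤ} (h : AlN j t z i θ) :
    |qq j * t - i| ≤ 93 / 100 := by
  have h1 := h.1
  have h2 := qq_dd_le j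
  have h3 := hh_dd_nonneg j i
  nlinarith

theorem Reg.abs_bd {j : ℕ} {i : ℤ} {z : ℝ} (h : Reg j i z) : |z| ≤ 86 / 100 := by
  have h3 := hh_dd_le j i
  rcases h with h | h | h
  · linarith
  · rw [abs_of_nonneg h.1]; linarith [h.2.1]
  · rw [abs_of_nonpos h.1]; linarith [h.2.1]

theorem pow_step {θ : ℂ} {e e' : ℕ} (h : e' + 1 = e) : θ ^ 2 ^ e = (θ ^ 2) ^ 2 ^ e' := by
  rw [← h, ← pow_mul, pow_succ, mul_comm]

theorem AlN.shift {j : ℕ} {t : ℝ} {z θ : ℂ} {i : ℤ} (h : AlN j t z i θ)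
    (hi : ¬ (qq j : ℤ) ∣ i) {c : ℝ} (hc : 0 ≤ c) :
    AlN j (t + al) (c • z) (i + pp j) (θ ^ 2) := by
  obtain ⟨h1, ρ, hρ, rfl⟩ := h
  have h2 := hh_add_pp j hi
  have h3 : (hh j i : ℝ) = hh j (i + pp j) + 1 := by exact_mod_cast h2.symm
  refine ⟨?_, c * ρ, by positivity, ?_⟩
  · rw [offset_step]
    refine (abs_add_le _ _).trans ?_
    rw [abs_of_pos (dd_pos j)]
    rw [h3] at h1
    linarith
  · rw [smul_smul, pow_step h2]

theorem AlN.load {j : ℕ} {t : ℝ} {θ : ℂ} (hθ : ‖θ‖ = 1) {i : ℤ} (h : |qq j * t - i| ≤ 91 / 100)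
    {e : ℕ} (he : hh j (i + pp j) + 1 = e) {c ρ : ℝ} (hc : 0 ≤ c) (hρ : 0 ≤ ρ) (N : ℝ) :
    AlN j (t + al) (c • PP j e N (ρ • θ)) (i + pp j) (θ ^ 2) := by
  refine ⟨?_, c * (thr j N (ρ • θ) * ρ), by have := thr_nonneg j N (ρ • θ); positivity, ?_⟩
  · rw [offset_step]
    refine (abs_add_le _ _).trans ?_
    rw [abs_of_pos (dd_pos j)]
    have h1 : (hh j (i + pp j) : ℝ) + 1 ≤ qq j := by exact_mod_cast hh_lt j (i + pp j)
    have := dd_pos j
    nlinarith
  · rw [PP_smul j e N hρ hθ, smul_smul, pow_step he]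

theorem AlN.add {j : ℕ} {t : ℝ} {z z' θ : ℂ} {i : ℤ} (h : AlN j t z i θ) (h' : AlN j t z' i θ) :
    AlN j t (z + z') i θ := by
  obtain ⟨h1, ρ, hρ, rfl⟩ := h
  obtain ⟨-, ρ', hρ', rfl⟩ := h'
  exact ⟨h1, ρ + ρ', by positivity, by rw [add_smul]⟩

theorem AlN.norm_add {j : ℕ} {t : ℝ} {z z' θ : ℂ} (hθ : ‖θ‖ = 1) {i : ℤ} (h : AlN j t z i θ)
    (h' : AlN j t z' i θ) : ‖z + z'‖ = ‖z‖ + ‖z'‖ := by
  obtain ⟨h1, ρ, hρ, rfl⟩ := h
  obtain ⟨-, ρ', hρ', rfl⟩ := h'
  rw [← add_smul, norm_polar hρ hθ, norm_polar hρ' hθ, norm_polar (by positivity) hθ]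

theorem AlN.zero {j : ℕ} {t : ℝ} {z θ : ℂ} {i : ℤ} (h : AlN j t z i θ) : AlN j t 0 i θ :=
  ⟨h.1, 0, le_rfl, by simp⟩

/-- the node at the origin -/
noncomputable def n0 (j : ℕ) (t : ℝ) : ℤ := (qq j : ℤ) * round t

theorem xx_n0 (j : ℕ) (t : ℝ) : xx j t = qq j * t - n0 j t := xx_eq j t

theorem n0_dvd (j : ℕ) (t : ℝ) : (qq j : ℤ) ∣ n0 j t := dvd_mul_right _ _

theorem n0_even (j : ℕ) (t : ℝ) : n0 j t % 2 = 0 := by
  have h2 : (2 : ℤ) ∣ qq j := by exact_mod_cast qq_even j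
  have := h2.trans (n0_dvd j t)
  omega

theorem eq_n0 {j : ℕ} {t : ℝ} {i : ℤ} (h : (qq j : ℤ) ∣ i) (h1 : |qq j * t - i| < 32) :
    i = n0 j t := by
  obtain ⟨n, rfl⟩ := h
  rw [n0, xx_eq_of j t n h1]

theorem hh_n0_add (j : ℕ) (t : ℝ) (i : ℤ) : hh j (n0 j t + i) = hh j i := hh_add_mul j _ i

theorem int_eq_of_near {X : ℝ} {i i' : ℤ} (h : i % 2 = i' % 2) (h1 : |X - i| + |X - i'| < 2) :
    i = i' := by
  have h2 : |((i - i' : ℤ) : ℝ)| < 2 := by
    refine lt_of_le_of_lt ?_ h1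
    have := abs_sub (X - i') (X - i)
    push_cast
    rw [show (i : ℝ) - i' = X - i' - (X - i) by ring]
    linarith
  have h3 : |i - i'| < 2 := by exact_mod_cast h2
  rw [abs_lt] at h3
  omega

theorem cc_le_aa {j : ℕ} {t : ℝ} (h : 2 / 3 ≤ |xx j t|) : cc j ≤ aa t := by
  rw [cc, aa]
  refine mul_le_mul_of_nonneg_left (le_trans ?_ (sin_sq_ge t)) KK_pos.le
  have h0 := qq_posR j
  rw [xx, abs_mul, abs_of_pos h0] at h
  have h1 : ((qq j : ℝ)) ≤ 2 ^ qq j := by exact_mod_cast Nat.lt_two_pow_self.le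
  have h2 : (1 / 4 : ℝ) ^ qq j = (1 / 2 ^ qq j) ^ 2 := by
    rw [div_pow, div_pow, ← pow_mul, mul_comm, pow_mul]; norm_num
  have h3 : (1 : ℝ) / 2 ^ qq j ≤ 2 * |fr t| := by
    rw [div_le_iff₀ (by positivity)]
    nlinarith [abs_nonneg (fr t)]
  rw [h2, ← sq_abs (fr t)]
  have := pow_le_pow_left₀ (by positivity) h3 2
  nlinarith

theorem Inv.src {j : ℕ} {t : ℝ} {y : ℂ × ℂ} {θ : ℂ} {R : ℝ} (hθ : ‖θ‖ = 1)
    (h : Inv j t y θ R) : Src j t y.1 θ R := by
  intro hv
  rw [Inv] at h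
  split_ifs at h with hj
  · obtain ⟨ρ, h1, h2, h3⟩ := h
    exact ⟨ρ, h1, h2, fun _ => h3⟩
  · have hv := hv.resolve_left hj
    have hR : (j = 0 ∨ |xx j t| ≤ 85 / 100) → R ≤ ‖y.1‖ := by
      intro h1
      have h1 := h1.resolve_left hj
      refine h.2.2.1 (n0 j t) (n0_even j t) ?_
      rw [← xx_n0, Reg, hh_eq_zero j (n0_dvd j t)]
      have := n0_even j t
      rw [abs_le] at h1
      rcases le_total 0 (xx j t) with h2 | h2
      · exact Or.inr (Or.inl ⟨h2, by simpa using h1.2, hh_pos j (not_dvd_of_odd j (by omega))⟩)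
      · exact Or.inr (Or.inr ⟨h2, by simp; linarith [h1.1],
          hh_pos j (not_dvd_of_odd j (by omega))⟩)
    rcases h.1 with h0 | ⟨i, hi, h1⟩
    · exact ⟨0, le_rfl, by simp [h0], by simpa [h0] using hR⟩
    · have h2 := h1.abs_bd
      have h3 : i = n0 j t := int_eq_of_near (X := qq j * t) (by rw [hi, n0_even])
        (by rw [← xx_n0]; linarith)
      obtain ⟨-, ρ, hρ, h4⟩ := h1
      rw [h3, hh_eq_zero j (n0_dvd j t)] at h4
      refine ⟨ρ, hρ, by simpa using h4, fun h5 => ?_⟩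
      have := hR h5
      rwa [h4, norm_polar hρ hθ] at this

theorem Inv.le_norm {j : ℕ} {t : ℝ} {y : ℂ × ℂ} {θ : ℂ} {R : ℝ} (hθ : ‖θ‖ = 1)
    (h : Inv j t y θ R) : R ≤ ‖y‖ := by
  rw [Inv] at h
  split_ifs at h with hj
  · obtain ⟨ρ, h1, h2, h3⟩ := h
    refine h3.trans (le_trans (le_of_eq ?_) (norm_fst_le y))
    rw [h2, norm_smul, hθ, mul_one, Real.norm_of_nonneg h1]
  · have h1 : Reg j (round (qq j * t)) (qq j * t - round (qq j * t)) :=
      Or.inl ((abs_sub_round _).trans (by linarith [hh_dd_nonneg j (round (qq j * t))]))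
    rcases Int.emod_two_eq_zero_or_one (round (qq j * t)) with h2 | h2
    · exact (h.2.2.1 _ h2 h1).trans (norm_fst_le y)
    · exact (h.2.2.2 _ h2 h1).trans (norm_snd_le y)

theorem Inv.mono {j : ℕ} {t : ℝ} {y : ℂ × ℂ} {θ : ℂ} {R R' : ℝ} (h : Inv j t y θ R)
    (hR : R' ≤ R) : Inv j t y θ R' := by
  unfold Inv at *
  split_ifs at * with hj
  · obtain ⟨ρ, h1, h2, h3⟩ := h
    exact ⟨ρ, h1, h2, hR.trans h3⟩
  · exact ⟨h.1, h.2.1, fun i a b => hR.trans (h.2.2.1 i a b), fun i a b => hR.trans (h.2.2.2 i a b)⟩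

/-- the requirement region pulls back along a step that does not pass a multiple of `q` -/
theorem Reg.back {j : ℕ} {i : ℤ} {z : ℝ} (h : Reg j (i + pp j) (z + dd j))
    (hi : ¬ (qq j : ℤ) ∣ i) (h1 : (qq j : ℤ) ∣ i + 1 → z ≤ 1 / 2)
    (h2 : (qq j : ℤ) ∣ i - 1 → -z ≤ 1 / 2) : Reg j i z := by
  have h3 := hh_add_pp j hi
  have h4 : (hh j i : ℝ) = hh j (i + pp j) + 1 := by exact_mod_cast h3.symm
  have h5 := dd_pos j
  have h6 := dd_le j
  have h7 := hh_dd_nonneg j i
  have h8 : (hh j i : ℝ) * dd j = hh j (i + pp j) * dd j + dd j := by rw [h4]; ring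
  rcases h with h | h | h
  · left
    rw [abs_le] at *
    constructor <;> linarith [h.1, h.2]
  · by_cases hz : z ≤ 1 / 2
    · left
      rw [abs_le]
      constructor <;> linarith [h.1]
    · have h9 := hh_add_pp j (fun hd => hz (h1 hd))
      rw [show i + 1 + pp j = i + pp j + 1 by ring] at h9
      exact Or.inr (Or.inl ⟨by linarith, by linarith [h.2.1], by have := h.2.2; omega⟩)
  · by_cases hz : -z ≤ 1 / 2
    · left
      rw [abs_le]
      constructor <;> linarith [h.1]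
    · have h9 := hh_add_pp j (fun hd => hz (h2 hd))
      rw [show i - 1 + pp j = i + pp j - 1 by ring] at h9
      exact Or.inr (Or.inr ⟨by linarith, by linarith [h.2.1], by have := h.2.2; omega⟩)

section step

variable {j : ℕ} {t N s κ R : ℝ} {y : ℂ × ℂ} {M θ : ℂ}

theorem step_snd (hj : j ≠ 0) (hθ : ‖θ‖ = 1) (hI : |xx j t| ≤ 2 / 3 ∨ InvP j t y θ R)
    (hS : Src j t M θ R) (hs : 0 ≤ s) (hκ : 0 ≤ κ)
    (hR : 0 < R → s = 1 ∧ κ = 1 ∧ 0 < N ∧ N ≤ DD j ^ 2 * R ^ 2) :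
    Al j (t + al) (s • Lin j t y + κ • Load j t N M).2 1 (θ ^ 2) ∧
      ∀ i : ℤ, i % 2 = 1 → Reg j i (qq j * (t + al) - i) →
        KK * ww j t * R ≤ ‖(s • Lin j t y + κ • Load j t N M).2‖ := by
  have hout : (s • Lin j t y + κ • Load j t N M).2 =
      (s * (aa t * (1 - pk (xx j t)))) • y.1 + (κ * (cc j * pb (xx j t))) • PP j (qq j) N M := by
    simp only [Lin, Load, if_neg hj, smul_smul, Prod.fst_add, Prod.snd_add, Prod.smul_mk, smul_add]
  rw [hout]
  have hp := pp_odd j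
  have ha := aa_nonneg t
  have hc := cc_pos j
  have hk := pk_le (xx j t)
  have hb := pb_nonneg (xx j t)
  constructor
  · by_cases hx : |xx j t| ≤ 1
    · rw [pk_one hx]
      simp only [sub_self, mul_zero, zero_smul, zero_add]
      by_cases hx' : 91 / 100 ≤ |xx j t|
      · left; rw [pb_zero hx']; simp
      · obtain ⟨ρ, hρ, rfl, -⟩ := hS (Or.inr (by linarith))
        have := n0_even j t
        exact Or.inr ⟨n0 j t + pp j, by omega, AlN.load hθ (by rw [← xx_n0]; linarith)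
          (hh_add_pp' j (n0_dvd j t)) (by positivity) hρ N⟩
    · rw [pb_zero (by linarith)]
      simp only [mul_zero, zero_smul, add_zero]
      rcases (hI.resolve_left (by linarith)).1 with h0 | ⟨i, hi, h1⟩
      · left; simp [h0]
      · refine Or.inr ⟨i + pp j, by omega, h1.shift (fun hd => hx ?_) ?_⟩
        · have h2 := h1.abs_bd
          rw [xx_n0, ← eq_n0 hd (by linarith)]
          linarith
        · have : 0 ≤ 1 - pk (xx j t) := by linarith
          positivity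
  · intro i' hi' hreg
    obtain ⟨i, rfl⟩ : ∃ i, i' = i + pp j := ⟨i' - pp j, by ring⟩
    rw [offset_step] at hreg
    rcases le_or_gt R 0 with hR0 | hR0
    · exact le_trans (mul_nonpos_of_nonneg_of_nonpos
        (mul_nonneg KK_pos.le (ww_nonneg j t)) hR0) (norm_nonneg _)
    obtain ⟨rfl, rfl, hN, hN'⟩ := hR hR0
    have h1 := hreg.abs_bd
    have h5 := dd_pos j
    have h6 := dd_le j
    have h2 : |qq j * t - i| ≤ 87 / 100 := by
      rw [abs_le] at *
      constructor <;> linarith [h1.1, h1.2]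
    by_cases hd : (qq j : ℤ) ∣ i
    · have h3 := hh_add_pp' j hd
      have h4 : |qq j * t - i + dd j| ≤ 1 / 2 + hh j (i + pp j) * dd j := by
        rcases hreg with h | h | h
        · exact h
        · have := hh_lt j (i + pp j + 1); have := h.2.2; omega
        · have := hh_lt j (i + pp j - 1); have := h.2.2; omega
      have h7 := hh_dd_le j (i + pp j)
      have h8 : |xx j t| ≤ 52 / 100 := by
        rw [xx_n0, ← eq_n0 hd (by linarith)]
        rw [abs_le] at *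
        constructor <;> linarith [h4.1, h4.2]
      obtain ⟨ρ, hρ, rfl, h9⟩ := hS (Or.inr (by linarith))
      have h9 := h9 (Or.inr (by linarith))
      rw [pk_one (by linarith), pb_one (by linarith), PP_smul _ _ _ hρ hθ, thr_eq_one j hN]
      · simp only [sub_self, mul_zero, zero_smul, zero_add, mul_one, one_mul]
        rw [smul_smul, norm_polar (by positivity) hθ, ww, if_neg hj, if_pos (by linarith), ← cc]
        gcongr
      · rw [norm_smul, hθ, mul_one, Real.norm_of_nonneg hρ]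
        exact hN'.trans (by gcongr)
    · have h3 : 21 / 20 ≤ |xx j t| := by
        by_contra h3
        refine hd ?_
        rw [int_eq_of_near (X := qq j * t) (i := i) (i' := n0 j t)
          (by have := n0_even j t; omega) (by rw [← xx_n0]; linarith)]
        exact n0_dvd j t
      rw [pk_zero h3, pb_zero (by linarith)]
      simp only [sub_zero, mul_zero, zero_smul, add_zero, mul_one, one_mul]
      rw [norm_smul, Real.norm_of_nonneg ha, ww, if_neg hj, if_neg (by linarith), ← aa]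
      have h4 := (hI.resolve_left (by linarith)).2.2.1 i (by omega)
        (hreg.back hd (fun h => absurd h (not_dvd_of_odd j (by omega)))
          (fun h => absurd h (not_dvd_of_odd j (by omega))))
      gcongr

theorem step_side (hθ : ‖θ‖ = 1) (hI : |xx j t| ≤ 2 / 3 ∨ InvP j t y θ R)
    (hS : Src j t M θ R) (hs : 0 ≤ s) (hκ : 0 ≤ κ)
    (hR : 0 < R → s = 1 ∧ κ = 1 ∧ 0 < N ∧ N ≤ DD j ^ 2 * R ^ 2) {σ : ℤ} (hσ : σ % 2 = 1)
    (hx : |xx j t| < 5 / 6) (hx' : |xx j t - σ| ≤ 91 / 100) (hσ' : |xx j t| + |xx j t - σ| = 1) :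
    AlN j (t + al) ((s * (aa t * (1 - pu (xx j t)))) • y.2 +
      (κ * (cc j * pu (xx j t) * pb (xx j t - σ))) • PP j (hh j σ) N M)
      (n0 j t + σ + pp j) (θ ^ 2) ∧
    (0 < R → |xx j t - σ| ≤ 9 / 10 → cc j * R ≤ ‖(s * (aa t * (1 - pu (xx j t)))) • y.2 +
      (κ * (cc j * pu (xx j t) * pb (xx j t - σ))) • PP j (hh j σ) N M‖) := by
  have ha := aa_nonneg t
  have hc := cc_pos j
  have hu := pu_le (xx j t)
  have hu' := pu_nonneg (xx j t)
  have hb := pb_nonneg (xx j t - σ)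
  have he := n0_even j t
  have hu1 : 0 ≤ 1 - pu (xx j t) := by linarith
  obtain ⟨ρ, hρ, rfl, h9⟩ := hS (Or.inr (by linarith))
  have h9 := h9 (Or.inr (by linarith))
  have hoff : qq j * t - ((n0 j t + σ : ℤ) : ℝ) = xx j t - σ := by rw [xx_n0]; push_cast; ring
  have hnd : ¬ (qq j : ℤ) ∣ n0 j t + σ := not_dvd_of_odd j (by omega)
  have hL : AlN j (t + al) ((κ * (cc j * pu (xx j t) * pb (xx j t - σ))) •
      PP j (hh j σ) N (ρ • θ)) (n0 j t + σ + pp j) (θ ^ 2) :=
    AlN.load hθ (by rwa [hoff]) (by rw [hh_add_pp j hnd, hh_n0_add]) (by positivity) hρ N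
  have hA : AlN j (t + al) ((s * (aa t * (1 - pu (xx j t)))) • y.2) (n0 j t + σ + pp j)
      (θ ^ 2) := by
    rcases hI with h | h
    · rw [pu_one h]; simpa using hL.zero
    · rcases h.2.1 with h0 | ⟨i, hi, h1⟩
      · rw [h0]; simpa using hL.zero
      · have h2 := h1.abs_bd
        have h3 : i = n0 j t + σ := int_eq_of_near (X := qq j * t) (by omega)
          (by rw [hoff]; linarith)
        rw [h3] at h1
        exact h1.shift hnd (by positivity)
  refine ⟨hA.add hL, fun hR0 hx2 => ?_⟩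
  obtain ⟨rfl, rfl, hN, hN'⟩ := hR hR0
  have hθ2 : ‖θ ^ 2‖ = 1 := by rw [norm_pow, hθ, one_pow]
  rw [hA.norm_add hθ2 hL, pb_one hx2, PP_smul _ _ _ hρ hθ, thr_eq_one j hN, smul_smul,
    norm_polar (by positivity) hθ, norm_smul, Real.norm_of_nonneg (by positivity)]
  · by_cases h1 : |xx j t| ≤ 2 / 3
    · rw [pu_one h1]
      simp only [sub_self, mul_zero, zero_mul, zero_add, mul_one, one_mul]
      gcongr
    · have h2 := (hI.resolve_left h1).2.2.2 (n0 j t + σ) (by omega)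
        (Or.inl (by rw [hoff]; linarith [hh_dd_nonneg j (n0 j t + σ)]))
      have h3 := cc_le_aa (j := j) (t := t) (by linarith)
      have h4 : cc j * (1 - pu (xx j t)) * R ≤ 1 * (aa t * (1 - pu (xx j t))) * ‖y.2‖ := by
        rw [one_mul]; gcongr
      have h5 : cc j * pu (xx j t) * R ≤ 1 * (cc j * pu (xx j t) * 1) * (1 * ρ) := by
        simp only [one_mul, mul_one]; gcongr
      linarith
  · rw [norm_smul, hθ, mul_one, Real.norm_of_nonneg hρ]
    exact hN'.trans (by gcongr)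

theorem step_fst (hj : j ≠ 0) (hθ : ‖θ‖ = 1) (hI : |xx j t| ≤ 2 / 3 ∨ InvP j t y θ R)
    (hS : Src j t M θ R) (hs : 0 ≤ s) (hκ : 0 ≤ κ)
    (hR : 0 < R → s = 1 ∧ κ = 1 ∧ 0 < N ∧ N ≤ DD j ^ 2 * R ^ 2) :
    Al j (t + al) (s • Lin j t y + κ • Load j t N M).1 0 (θ ^ 2) ∧
      ∀ i : ℤ, i % 2 = 0 → Reg j i (qq j * (t + al) - i) →
        KK * ww j t * R ≤ ‖(s • Lin j t y + κ • Load j t N M).1‖ := by
  have hout : (s • Lin j t y + κ • Load j t N M).1 =
      (s * (aa t * (1 - pu (xx j t)))) • y.2 +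
        ((κ * (cc j * pu (xx j t) * pb (xx j t - 1))) • PP j (hh j 1) N M +
        (κ * (cc j * pu (xx j t) * pb (xx j t + 1))) • PP j (hh j (-1)) N M) := by
    simp only [Lin, Load, if_neg hj, smul_smul, Prod.fst_add, Prod.snd_add, Prod.smul_mk, smul_add]
  rw [hout]
  have hp := pp_odd j
  have ha := aa_nonneg t
  have he := n0_even j t
  -- the two sides
  have hpos : |xx j t| < 5 / 6 → 9 / 100 ≤ xx j t → _ := fun h1 h2 =>
    step_side (σ := 1) hθ hI hS hs hκ hR (by norm_num) h1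
      (by rw [abs_lt] at h1; push_cast; rw [abs_le]; constructor <;> linarith [h1.2])
      (by rw [abs_lt] at h1; push_cast
          rw [abs_of_nonneg (by linarith), abs_of_nonpos (by linarith [h1.2])]; ring)
  have hneg : |xx j t| < 5 / 6 → xx j t ≤ -(9 / 100) → _ := fun h1 h2 =>
    step_side (σ := -1) hθ hI hS hs hκ hR (by norm_num) h1
      (by rw [abs_lt] at h1; push_cast; rw [abs_le]; constructor <;> linarith [h1.1])
      (by rw [abs_lt] at h1; push_cast
          rw [abs_of_nonpos (by linarith), abs_of_nonneg (by linarith [h1.1])]; ring)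
  simp only [Int.cast_one, Int.cast_neg, sub_neg_eq_add] at hpos hneg
  have hb1 : -(9 / 100) ≤ xx j t → pb (xx j t + 1) = 0 := fun h =>
    pb_zero (le_trans (by linarith) (le_abs_self _))
  have hb2 : xx j t ≤ 9 / 100 → pb (xx j t - 1) = 0 := fun h =>
    pb_zero (le_trans (by linarith) (neg_le_abs _))
  constructor
  · by_cases hx : |xx j t| < 5 / 6
    · by_cases h1 : 9 / 100 ≤ xx j t
      · rw [hb1 (by linarith)]
        simp only [mul_zero, zero_smul, add_zero]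
        exact Or.inr ⟨_, by omega, (hpos hx h1).1⟩
      · by_cases h2 : xx j t ≤ -(9 / 100)
        · rw [hb2 (by linarith)]
          simp only [mul_zero, zero_smul, zero_add]
          exact Or.inr ⟨_, by omega, (hneg hx h2).1⟩
        · rw [hb1 (by linarith), hb2 (by linarith),
            pu_one (by rw [abs_le]; constructor <;> linarith)]
          left; simp
    · rw [pu_zero (by linarith)]
      simp only [mul_zero, zero_mul, zero_smul, add_zero, sub_zero, mul_one]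
      rcases (hI.resolve_left (by linarith)).2.1 with h0 | ⟨i, hi, h1⟩
      · left; simp [h0]
      · exact Or.inr ⟨i + pp j, by omega, h1.shift (not_dvd_of_odd j hi) (by positivity)⟩
  · intro i' hi' hreg
    obtain ⟨i, rfl⟩ : ∃ i, i' = i + pp j := ⟨i' - pp j, by ring⟩
    rw [offset_step] at hreg
    rcases le_or_gt R 0 with hR0 | hR0
    · exact le_trans (mul_nonpos_of_nonneg_of_nonpos
        (mul_nonneg KK_pos.le (ww_nonneg j t)) hR0) (norm_nonneg _)
    have h1 := hreg.abs_bd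
    have h5 := dd_pos j
    have h6 := dd_le j
    have h2 : |qq j * t - i| ≤ 87 / 100 := by
      rw [abs_le] at *
      constructor <;> linarith [h1.1, h1.2]
    have hi : i % 2 = 1 := by omega
    by_cases hx : |xx j t| < 5 / 6
    · rw [ww, if_neg hj, if_pos (by linarith), ← cc]
      have hx0 := hx
      rw [abs_lt] at hx
      rcases le_total 0 (xx j t) with h3 | h3
      · have h4 : i = n0 j t + 1 := int_eq_of_near (X := qq j * t) (by omega) (by
          push_cast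
          rw [← sub_sub, ← xx_n0, abs_of_nonpos (a := xx j t - 1) (by linarith)]
          linarith)
        rw [h4] at h2
        push_cast at h2
        rw [← sub_sub, ← xx_n0] at h2
        have h7 := (abs_le.1 h2).1
        rw [hb1 (by linarith)]
        simp only [mul_zero, zero_smul, add_zero]
        exact (hpos hx0 (by linarith)).2 hR0 (by linarith)
      · have h4 : i = n0 j t - 1 := int_eq_of_near (X := qq j * t) (by omega) (by
          push_cast
          rw [← sub_add, ← xx_n0, abs_of_nonneg (a := xx j t + 1) (by linarith)]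
          linarith)
        rw [h4] at h2
        push_cast at h2
        rw [← sub_add, ← xx_n0] at h2
        have h7 := (abs_le.1 h2).2
        rw [hb2 (by linarith)]
        simp only [mul_zero, zero_smul, zero_add]
        exact (hneg hx0 (by linarith)).2 hR0 (by linarith)
    · obtain ⟨rfl, rfl, hN, hN'⟩ := hR hR0
      rw [pu_zero (by linarith)]
      simp only [mul_zero, zero_mul, zero_smul, add_zero, sub_zero, mul_one, one_mul]
      rw [norm_smul, Real.norm_of_nonneg ha]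
      have h2' := abs_le.1 h2
      have h4 := (hI.resolve_left (by linarith)).2.2.2 i hi
        (hreg.back (not_dvd_of_odd j hi) (fun h => ?_) (fun h => ?_))
      · have h7 : KK * ww j t ≤ aa t := by
          rw [ww, if_neg hj]
          split_ifs
          · rw [← cc]; exact cc_le_aa (by linarith)
          · rw [aa]
        gcongr
      · have h7 := eq_n0 (t := t) h (by
          push_cast; rw [abs_lt]; constructor <;> linarith [h2'.1, h2'.2])
        rw [xx_n0, ← h7] at hx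
        push_cast at hx
        rw [abs_of_nonpos (by linarith [h2'.2])] at hx
        linarith
      · have h7 := eq_n0 (t := t) h (by
          push_cast; rw [abs_lt]; constructor <;> linarith [h2'.1, h2'.2])
        rw [xx_n0, ← h7] at hx
        push_cast at hx
        rw [abs_of_nonneg (by linarith [h2'.1])] at hx
        linarith

theorem inv_step (hθ : ‖θ‖ = 1) (hI : |xx j t| ≤ 2 / 3 ∨ Inv j t y θ R)
    (hS : Src j t M θ R) (hs : 0 ≤ s) (hκ : 0 ≤ κ)
    (hR : 0 < R → s = 1 ∧ κ = 1 ∧ 0 < N ∧ N ≤ DD j ^ 2 * R ^ 2) :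
    Inv j (t + al) (s • Lin j t y + κ • Load j t N M) (θ ^ 2) (KK * ww j t * R) := by
  by_cases hj : j = 0
  · subst hj
    obtain ⟨ρ, hρ, rfl, h9⟩ := hS (Or.inl rfl)
    have h9 := h9 (Or.inl rfl)
    have hK := KK_pos
    have ht := thr_nonneg 0 N (ρ • θ)
    rw [Inv, if_pos rfl]
    refine ⟨κ * (KK * (thr 0 N (ρ • θ) * ρ)), by positivity, ?_, ?_⟩
    · simp only [Lin, Load, if_pos, PP_smul _ _ _ hρ hθ, smul_zero, zero_add, Prod.smul_mk,
        smul_smul, pow_one]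
    · rw [ww, if_pos rfl, mul_one]
      rcases le_or_gt R 0 with hR0 | hR0
      · exact le_trans (mul_nonpos_of_nonneg_of_nonpos hK.le hR0) (by positivity)
      · obtain ⟨rfl, rfl, hN, hN'⟩ := hR hR0
        rw [thr_eq_one 0 hN]
        · simp only [one_mul]; gcongr
        · rw [norm_smul, hθ, mul_one, Real.norm_of_nonneg hρ]
          exact hN'.trans (by gcongr)
  · rw [Inv, if_neg hj] at *
    have h1 := step_fst hj hθ hI hS hs hκ hR
    have h2 := step_snd hj hθ hI hS hs hκ hR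
    exact ⟨h1.1, h2.1, h1.2, h2.2⟩

end step

end Crest.Agent.H0163
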