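import Crest.Agent.H0163.Rot

/-! The fibre map `FF` and its elementary properties. -/

set_option autoImplicit false

namespace Crest.Agent.H0163

open Real

/-- even smooth profile: `1` for `x² ≤ a`, `0` for `x² ≥ b` -/
noncomputable def prof (a b x : ℝ) : ℝ := smoothTransition ((b - x ^ 2) / (b - a))

theorem prof_nonneg (a b x : ℝ) : 0 ≤ prof a b x := smoothTransition.nonneg _

theorem prof_le_one (a b x : ℝ) : prof a b x ≤ 1 := smoothTransition.le_one _

theorem prof_eq_one {a b x r : ℝ} (hab : a < b) (hx : |x| ≤ r) (hr : r ^ 2 ≤ a) :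
    prof a b x = 1 := by
  refine smoothTransition.one_of_one_le ?_
  rw [le_div_iff₀ (by linarith)]
  have : x ^ 2 ≤ r ^ 2 := by rw [← sq_abs x]; exact pow_le_pow_left₀ (abs_nonneg _) hx 2
  linarith

theorem prof_eq_zero {a b x r : ℝ} (hab : a < b) (h0 : 0 ≤ r) (hx : r ≤ |x|) (hr : b ≤ r ^ 2) :
    prof a b x = 0 := by
  refine smoothTransition.zero_of_nonpos ?_
  have : r ^ 2 ≤ x ^ 2 := by rw [← sq_abs x]; exact pow_le_pow_left₀ h0 hx 2
  exact div_nonpos_of_nonpos_of_nonneg (by linarith) (by linarith)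

/-- reset strength -/
noncomputable def pu (x : ℝ) : ℝ := prof (4 / 9) (25 / 36) x
/-- loading weight -/
noncomputable def pb (x : ℝ) : ℝ := prof (81 / 100) (8281 / 10000) x
/-- killing weight -/
noncomputable def pk (x : ℝ) : ℝ := prof 1 (441 / 400) x
/-- window step -/
noncomputable def pw (x : ℝ) : ℝ := prof (1 / 16) 1 x

theorem pu_one {x : ℝ} (h : |x| ≤ 2 / 3) : pu x = 1 := prof_eq_one (by norm_num) h (by norm_num)
theorem pu_zero {x : ℝ} (h : 5 / 6 ≤ |x|) : pu x = 0 :=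
  prof_eq_zero (by norm_num) (by norm_num) h (by norm_num)
theorem pb_one {x : ℝ} (h : |x| ≤ 9 / 10) : pb x = 1 := prof_eq_one (by norm_num) h (by norm_num)
theorem pb_zero {x : ℝ} (h : 91 / 100 ≤ |x|) : pb x = 0 :=
  prof_eq_zero (by norm_num) (by norm_num) h (by norm_num)
theorem pk_one {x : ℝ} (h : |x| ≤ 1) : pk x = 1 := prof_eq_one (by norm_num) h (by norm_num)
theorem pk_zero {x : ℝ} (h : 21 / 20 ≤ |x|) : pk x = 0 :=
  prof_eq_zero (by norm_num) (by norm_num) h (by norm_num)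
theorem pw_one {x : ℝ} (h : |x| ≤ 1 / 4) : pw x = 1 := prof_eq_one (by norm_num) h (by norm_num)
theorem pw_zero {x : ℝ} (h : 1 ≤ |x|) : pw x = 0 :=
  prof_eq_zero (by norm_num) (by norm_num) h (by norm_num)
theorem pu_nonneg (x : ℝ) : 0 ≤ pu x := prof_nonneg _ _ _
theorem pu_le (x : ℝ) : pu x ≤ 1 := prof_le_one _ _ _
theorem pb_nonneg (x : ℝ) : 0 ≤ pb x := prof_nonneg _ _ _
theorem pb_le (x : ℝ) : pb x ≤ 1 := prof_le_one _ _ _
theorem pk_nonneg (x : ℝ) : 0 ≤ pk x := prof_nonneg _ _ _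
theorem pk_le (x : ℝ) : pk x ≤ 1 := prof_le_one _ _ _
theorem pw_nonneg (x : ℝ) : 0 ≤ pw x := prof_nonneg _ _ _
theorem pw_le (x : ℝ) : pw x ≤ 1 := prof_le_one _ _ _

/-- the expansion constant -/
noncomputable irreducible_def KK : ℝ := 2 ^ 110

theorem KK_pos : 0 < KK := by rw [KK_def]; positivity

theorem one_le_KK : 1 ≤ KK := by rw [KK_def]; norm_num

/-- the scalar cocycle -/
noncomputable def aa (t : ℝ) : ℝ := KK * sin (π * t) ^ 2

theorem aa_nonneg (t : ℝ) : 0 ≤ aa t := by have := KK_pos; rw [aa]; positivity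

theorem aa_le (t : ℝ) : aa t ≤ KK := by
  have := KK_pos
  rw [aa]
  exact mul_le_of_le_one_right this.le (sin_sq_le_one _)

theorem sin_sq_fr (t : ℝ) : sin (π * t) ^ 2 = sin (π * fr t) ^ 2 := by
  have : π * t = π * fr t + (round t : ℤ) * π := by rw [fr]; ring
  rw [this, sin_add_int_mul_pi, mul_pow, ← zpow_natCast, ← zpow_mul, mul_comm (round t),
    zpow_mul]
  norm_num

theorem sin_sq_ge (t : ℝ) : 4 * fr t ^ 2 ≤ sin (π * t) ^ 2 := by
  rw [sin_sq_fr]
  have h1 := abs_fr_le t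
  have h2 : 2 / π * (π * |fr t|) ≤ sin (π * |fr t|) :=
    mul_le_sin (by positivity) (by nlinarith [pi_pos])
  have h3 : 2 / π * (π * |fr t|) = 2 * |fr t| := by field_simp
  have h4 : sin (π * |fr t|) ^ 2 = sin (π * fr t) ^ 2 := by
    rcases abs_cases (fr t) with h | h
    · rw [h.1]
    · rw [h.1, mul_neg, sin_neg, neg_sq]
  rw [← h4, ← sq_abs (fr t)]
  rw [h3] at h2
  nlinarith [abs_nonneg (fr t)]

theorem sin_sq_le (t : ℝ) : sin (π * t) ^ 2 ≤ 16 * fr t ^ 2 := by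
  rw [sin_sq_fr]
  have h1 := sin_sq_le_sq (x := π * fr t)
  have h2 : π ^ 2 ≤ 16 := by nlinarith [pi_le_four, pi_pos]
  rw [mul_pow] at h1
  nlinarith [sq_nonneg (fr t)]

/-- loading coefficient of level `j` -/
noncomputable def cc (j : ℕ) : ℝ := KK * (1 / 4) ^ qq j

theorem cc_pos (j : ℕ) : 0 < cc j := by have := KK_pos; rw [cc]; positivity

theorem cc_le (j : ℕ) : cc j ≤ KK := by
  have := KK_pos
  rw [cc]
  exact mul_le_of_le_one_right this.le (pow_le_one₀ (by norm_num) (by norm_num))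

/-- separation constants -/
noncomputable irreducible_def DD (k : ℕ) : ℝ := 2 ^ (400 * qq (k + 2))

theorem two_le_DD (k : ℕ) : 2 ≤ DD k := by
  rw [DD_def]
  have := qq_ge (k + 2)
  calc (2 : ℝ) = 2 ^ 1 := by norm_num
    _ ≤ _ := pow_le_pow_right₀ (by norm_num) (by omega)

theorem DD_pos (k : ℕ) : 0 < DD k := by have := two_le_DD k; linarith

theorem DD_mono : Monotone DD := fun a b h => by
  rw [DD_def, DD_def]
  have := qq_mono (show a + 2 ≤ b + 2 by omega)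
  exact pow_le_pow_right₀ (by norm_num) (by omega)

/-- zone boundaries -/
noncomputable def TT : ℕ → ℝ
  | 0 => 2
  | k + 1 => TT k / DD (k + 1) ^ 14

theorem TT_pos (k : ℕ) : 0 < TT k := by
  induction k with
  | zero => simp [TT]
  | succ k ih => have := DD_pos (k + 1); simp only [TT]; positivity

/-- window radii -/
noncomputable def rr (k i : ℕ) : ℝ := TT k / DD k ^ (3 * i)

theorem rr_pos (k i : ℕ) : 0 < rr k i := by
  have := TT_pos k; have := DD_pos k; rw [rr]; positivity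

/-- state space: two pairs of slots -/
abbrev W := (ℂ × ℂ) × (ℂ × ℂ)

/-- squared Euclidean norm -/
noncomputable def NN (v : W) : ℝ := ‖v.1.1‖ ^ 2 + ‖v.1.2‖ ^ 2 + ‖v.2.1‖ ^ 2 + ‖v.2.2‖ ^ 2

/-- Euclidean norm -/
noncomputable def nu (v : W) : ℝ := √(NN v)

theorem NN_nonneg (v : W) : 0 ≤ NN v := by rw [NN]; positivity

theorem nu_nonneg (v : W) : 0 ≤ nu v := sqrt_nonneg _

theorem nu_sq (v : W) : nu v ^ 2 = NN v := sq_sqrt (NN_nonneg v)

theorem norm_le_nu (v : W) : ‖v‖ ≤ nu v := by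
  refine le_sqrt_of_sq_le ?_
  rw [NN, Prod.norm_def, Prod.norm_def, Prod.norm_def]
  have := sq_nonneg ‖v.1.1‖; have := sq_nonneg ‖v.1.2‖
  have := sq_nonneg ‖v.2.1‖; have := sq_nonneg ‖v.2.2‖
  simp only [max_def]
  split_ifs <;> linarith

theorem nu_le (v : W) : nu v ≤ 2 * ‖v‖ := by
  rw [nu, sqrt_le_left (by positivity), NN]
  have h1 : ‖v.1.1‖ ≤ ‖v‖ := (norm_fst_le _).trans (norm_fst_le _)
  have h2 : ‖v.1.2‖ ≤ ‖v‖ := (norm_snd_le _).trans (norm_fst_le _)
  have h3 : ‖v.2.1‖ ≤ ‖v‖ := (norm_fst_le _).trans (norm_snd_le _)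
  have h4 : ‖v.2.2‖ ≤ ‖v‖ := (norm_snd_le _).trans (norm_snd_le _)
  have := pow_le_pow_left₀ (norm_nonneg _) h1 2
  have := pow_le_pow_left₀ (norm_nonneg _) h2 2
  have := pow_le_pow_left₀ (norm_nonneg _) h3 2
  have := pow_le_pow_left₀ (norm_nonneg _) h4 2
  nlinarith

theorem NN_swap (v : W) : NN v.swap = NN v := by simp only [NN, Prod.fst_swap, Prod.snd_swap]; ring

theorem nu_swap (v : W) : nu v.swap = nu v := by rw [nu, nu, NN_swap]

/-- the norm-preserving angular power -/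
noncomputable def apow (m : ℕ) (M : ℂ) : ℂ := (‖M‖ ^ (m - 1))⁻¹ • M ^ m

theorem apow_smul {m : ℕ} (hm : 1 ≤ m) {ρ : ℝ} (hρ : 0 ≤ ρ) {θ : ℂ} (hθ : ‖θ‖ = 1) :
    apow m (ρ • θ) = ρ • θ ^ m := by
  rcases hρ.eq_or_lt with rfl | hρ
  · simp [apow, show m ≠ 0 by omega]
  · obtain ⟨n, rfl⟩ : ∃ n, m = n + 1 := ⟨m - 1, by omega⟩
    rw [apow, norm_smul, hθ, mul_one, Real.norm_of_nonneg hρ.le, Nat.add_sub_cancel, smul_pow,
      smul_smul]
    congr 1
    field_simp
    ring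

theorem exists_polar (M : ℂ) : ∃ θ : ℂ, ‖θ‖ = 1 ∧ M = ‖M‖ • θ := by
  by_cases h : M = 0
  · exact ⟨1, by simp, by simp [h]⟩
  · refine ⟨‖M‖⁻¹ • M, ?_, ?_⟩
    · rw [norm_smul, norm_inv, norm_norm, inv_mul_cancel₀ (norm_ne_zero_iff.2 h)]
    · rw [smul_smul, mul_inv_cancel₀ (norm_ne_zero_iff.2 h), one_smul]

theorem norm_apow {m : ℕ} (hm : 1 ≤ m) (M : ℂ) : ‖apow m M‖ = ‖M‖ := by
  obtain ⟨θ, hθ, h⟩ := exists_polar M
  conv_lhs => rw [h, apow_smul hm (norm_nonneg _) hθ]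
  rw [norm_smul, norm_pow, hθ, one_pow, mul_one, norm_norm]

/-- the threshold factor -/
noncomputable def thr (j : ℕ) (N : ℝ) (M : ℂ) : ℝ := 1 - pw (DD j ^ 2 * ‖M‖ ^ 2 / N)

theorem thr_nonneg (j : ℕ) (N : ℝ) (M : ℂ) : 0 ≤ thr j N M := sub_nonneg.2 (pw_le _)

theorem thr_le (j : ℕ) (N : ℝ) (M : ℂ) : thr j N M ≤ 1 := sub_le_self _ (pw_nonneg _)

theorem thr_eq_one (j : ℕ) {N : ℝ} {M : ℂ} (hN : 0 < N) (h : N ≤ DD j ^ 2 * ‖M‖ ^ 2) :
    thr j N M = 1 := by
  rw [thr, pw_zero, sub_zero]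
  exact le_trans (by rwa [one_le_div hN]) (le_abs_self _)

/-- the thresholded angular power of order `2^e` -/
noncomputable def PP (j e : ℕ) (N : ℝ) (M : ℂ) : ℂ := thr j N M • apow (2 ^ e) M

theorem norm_PP_le (j e : ℕ) (N : ℝ) (M : ℂ) : ‖PP j e N M‖ ≤ ‖M‖ := by
  rw [PP, norm_smul, norm_apow Nat.one_le_two_pow, Real.norm_of_nonneg (thr_nonneg _ _ _)]
  exact mul_le_of_le_one_left (norm_nonneg _) (thr_le _ _ _)

theorem PP_smul (j e : ℕ) (N : ℝ) {ρ : ℝ} (hρ : 0 ≤ ρ) {θ : ℂ} (hθ : ‖θ‖ = 1) :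
    PP j e N (ρ • θ) = (thr j N (ρ • θ) * ρ) • θ ^ 2 ^ e := by
  rw [PP, apow_smul Nat.one_le_two_pow hρ hθ, smul_smul]

/-- the linear part of level `j` -/
noncomputable def Lin (j : ℕ) (t : ℝ) (y : ℂ × ℂ) : ℂ × ℂ :=
  if j = 0 then 0 else
    ((aa t * (1 - pu (xx j t))) • y.2, (aa t * (1 - pk (xx j t))) • y.1)

/-- the loading part of level `j` -/
noncomputable def Load (j : ℕ) (t N : ℝ) (M : ℂ) : ℂ × ℂ :=
  if j = 0 then (KK • PP 0 1 N M, 0) else
    ((cc j * pu (xx j t) * pb (xx j t - 1)) • PP j (hh j 1) N M +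
      (cc j * pu (xx j t) * pb (xx j t + 1)) • PP j (hh j (-1)) N M,
      (cc j * pb (xx j t)) • PP j (qq j) N M)

/-- window step number `i` of zone `k` -/
noncomputable def st (k i : ℕ) (v : W) : ℝ := pw (NN v / rr k i ^ 2)

theorem st_nonneg (k i : ℕ) (v : W) : 0 ≤ st k i v := pw_nonneg _

theorem st_le (k i : ℕ) (v : W) : st k i v ≤ 1 := pw_le _

theorem st_zero {k i : ℕ} {v : W} (h : rr k i ≤ nu v) : st k i v = 0 := by
  have := rr_pos k i
  refine pw_zero (le_trans ?_ (le_abs_self _))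
  rw [one_le_div (by positivity), ← nu_sq]
  gcongr

theorem st_one {k i : ℕ} {v : W} (h : nu v ≤ rr k i / 2) : st k i v = 1 := by
  have := rr_pos k i
  refine pw_one ?_
  rw [abs_of_nonneg (div_nonneg (NN_nonneg v) (by positivity)), div_le_iff₀ (by positivity),
    ← nu_sq]
  nlinarith [nu_nonneg v]

/-- source for the lower level of zone `k` -/
noncomputable def Mlo (k : ℕ) (t : ℝ) (v : W) : ℂ :=
  (1 - st k 3 v * pu (xx (k + 1) t)) • v.1.1 + (st k 3 v * pu (xx (k + 1) t)) • v.2.1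

/-- source for the higher level of zone `k` -/
noncomputable def Mhi (k : ℕ) (v : W) : ℂ := (1 - st k 3 v) • v.1.1 + st k 3 v • v.2.1

/-- the map of zone `k`, in coordinates (level `k` pair, level `k+1` pair) -/
noncomputable def GG (k : ℕ) (t : ℝ) (v : W) : W :=
  (Lin k t v.1 + (1 - st k 4 v) • Load k t (NN v) (Mlo k t v),
    (1 - st k 1 v) • Lin (k - 1) t v.2 + st k 1 v • Lin (k + 1) t v.2 +
      st k 2 v • Load (k + 1) t (NN v) (Mhi k v))

/-- swap the pairs at odd levels -/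
def par (k : ℕ) (v : W) : W := if Even k then v else v.swap

theorem par_par (k : ℕ) (v : W) : par k (par k v) = v := by
  unfold par; split_ifs <;> simp

theorem par_succ (k : ℕ) (v : W) : par (k + 1) v = (par k v).swap := by
  unfold par
  by_cases h : Even k <;> simp [h, Nat.even_add_one]

theorem par_succ' (k : ℕ) (v : W) : par (k + 1) v.swap = par k v := by
  unfold par
  by_cases h : Even k <;> simp [h, Nat.even_add_one]

theorem nu_par (k : ℕ) (v : W) : nu (par k v) = nu v := by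
  unfold par; split_ifs; exacts [rfl, nu_swap v]

theorem NN_par (k : ℕ) (v : W) : NN (par k v) = NN v := by
  unfold par; split_ifs; exacts [rfl, NN_swap v]

/-- the map of zone `k` -/
noncomputable def FZ (k : ℕ) (t : ℝ) (v : W) : W := par k (GG k t (par k v))

/-- the zone of a scale -/
noncomputable def zone (x : ℝ) : ℕ := sInf {k | TT (k + 1) < x}

/-- the fibre map -/
noncomputable def FF (t : ℝ) (v : W) : W := FZ (zone (nu v)) t v

theorem TT_succ_le (k : ℕ) : TT (k + 1) ≤ TT k / 2 := by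
  have h1 := two_le_DD (k + 1)
  have h2 := TT_pos k
  simp only [TT]
  gcongr
  calc (2 : ℝ) ≤ DD (k + 1) ^ 1 := by simpa using h1
    _ ≤ _ := pow_le_pow_right₀ (by linarith) (by norm_num)

theorem TT_anti : Antitone TT := antitone_nat_of_succ_le fun k => by
  have := TT_succ_le k; have := TT_pos k; linarith

theorem TT_le (k : ℕ) : TT k ≤ 2 * (1 / 2) ^ k := by
  induction k with
  | zero => simp [TT]
  | succ k ih => have := TT_succ_le k; rw [pow_succ]; linarith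

theorem exists_TT_lt {x : ℝ} (hx : 0 < x) : ∃ k, TT k < x := by
  obtain ⟨k, hk⟩ := exists_pow_lt_of_lt_one (show 0 < x / 2 by linarith)
    (show (1 / 2 : ℝ) < 1 by norm_num)
  exact ⟨k, by have := TT_le k; linarith⟩

theorem zone_spec {x : ℝ} (hx : 0 < x) : TT (zone x + 1) < x := by
  obtain ⟨k, hk⟩ := exists_TT_lt hx
  exact Nat.sInf_mem (s := {k | TT (k + 1) < x}) ⟨k, lt_of_le_of_lt (TT_anti (by omega)) hk⟩

theorem zone_spec' {x : ℝ} {k : ℕ} (h : zone x = k + 1) : x ≤ TT (k + 1) := by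
  by_contra h1
  have := Nat.sInf_le (s := {k | TT (k + 1) < x}) (m := k) (not_le.1 h1)
  rw [zone] at h
  omega

theorem zone_eq {x : ℝ} {k : ℕ} (h1 : TT (k + 1) < x) (h2 : k = 0 ∨ x ≤ TT k) : zone x = k := by
  have h3 := Nat.sInf_le (s := {k | TT (k + 1) < x}) (m := k) h1
  refine le_antisymm h3 ?_
  rcases h2 with rfl | h2
  · exact Nat.zero_le _
  · by_contra h4
    have h5 := zone_spec (lt_trans (TT_pos _) h1)
    have := TT_anti (show zone x + 1 ≤ k by omega)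
    linarith

theorem rr_anti (k : ℕ) {i j : ℕ} (h : i ≤ j) : rr k j ≤ rr k i := by
  have := TT_pos k
  have := two_le_DD k
  rw [rr, rr]
  gcongr
  linarith

theorem rr_succ (k i : ℕ) : DD k ^ 2 * rr k (i + 1) ≤ rr k i / 2 := by
  have := TT_pos k
  have h := two_le_DD k
  have h0 := DD_pos k
  have : DD k ^ 2 * rr k (i + 1) = rr k i / DD k := by
    rw [rr, rr]; field_simp; ring
  rw [this]
  have := rr_pos k i
  gcongr

theorem DD_TT_succ (k : ℕ) : DD (k + 1) * TT (k + 1) ≤ rr k 4 / 2 := by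
  have h1 := two_le_DD (k + 1)
  have h2 := TT_pos k
  have h3 := DD_pos k
  have h4 : DD k ≤ DD (k + 1) := DD_mono (by omega)
  have : DD (k + 1) * TT (k + 1) = TT k / DD (k + 1) ^ 12 / DD (k + 1) := by
    simp only [TT]; field_simp
  rw [this, rr]
  gcongr

theorem rr_le_TT (k i : ℕ) : rr k i ≤ TT k := by
  have := rr_anti k (Nat.zero_le i)
  simpa [rr] using this

theorem TT_le_rr (k : ℕ) : TT (k + 1) ≤ rr k 4 / 2 := by
  have := DD_TT_succ k
  have h1 := two_le_DD (k + 1)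
  have := TT_pos (k + 1)
  nlinarith

/-- consistency of the zone formulas -/
theorem FZ_succ (k : ℕ) (t : ℝ) (v : W) (h1 : rr (k + 1) 1 ≤ nu v) (h2 : nu v ≤ rr k 4 / 2) :
    FZ (k + 1) t v = FZ k t v := by
  have ha : ∀ i, 1 ≤ i → st (k + 1) i (par k v).swap = 0 := fun i hi =>
    st_zero (by rw [nu_swap, nu_par]; exact (rr_anti _ hi).trans h1)
  have hb : ∀ i, i ≤ 4 → st k i (par k v) = 1 := fun i hi =>
    st_one (by rw [nu_par]; have := rr_anti k hi; linarith)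
  rw [FZ, FZ, par_succ k v, ← par_succ' k (GG k t _)]
  congr 1
  simp [GG, Mlo, Mhi, ha, hb, NN_swap]

theorem FF_eq (k : ℕ) (t : ℝ) (v : W) (h1 : rr (k + 1) 1 ≤ nu v)
    (h2 : ∀ j, k = j + 1 → nu v ≤ rr j 4 / 2) : FF t v = FZ k t v := by
  rw [FF]
  by_cases h3 : nu v ≤ TT (k + 1)
  · rw [zone_eq (k := k + 1) ?_ (Or.inr h3), FZ_succ k t v h1 (h3.trans (TT_le_rr k))]
    have := TT_le_rr (k + 1)
    have := rr_anti (k + 1) (show 1 ≤ 4 by norm_num)
    have := rr_pos (k + 1) 4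
    linarith
  · push Not at h3
    by_cases h4 : k = 0 ∨ nu v ≤ TT k
    · rw [zone_eq h3 h4]
    · push Not at h4
      obtain ⟨j, rfl⟩ : ∃ j, k = j + 1 := ⟨k - 1, by omega⟩
      have h5 := h2 j rfl
      rw [zone_eq h4.2 (Or.inr ?_), FZ_succ j t v ((rr_le_TT _ _).trans h4.2.le) h5]
      have := rr_le_TT j 4
      have := rr_pos j 4
      linarith

theorem FF_add_int (t : ℝ) (n : ℤ) (v : W) : FF (t + n) v = FF t v := by
  have : aa (t + n) = aa t := by rw [aa, aa, sin_sq_fr, fr_add_int, ← sin_sq_fr]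
  simp only [FF, FZ, GG, Lin, Load, Mlo, xx_add_int, this]

/-! ### Upper bounds -/

theorem norm_Lin_le (j : ℕ) (t : ℝ) (y : ℂ × ℂ) : ‖Lin j t y‖ ≤ KK * ‖y‖ := by
  have := KK_pos
  have h0 := aa_nonneg t
  have h1 := aa_le t
  rw [Lin]
  split_ifs
  · simp; positivity
  · rw [Prod.norm_def, max_le_iff, norm_smul, norm_smul]
    have h2 := pu_nonneg (xx j t); have h3 := pu_le (xx j t)
    have h4 := pk_nonneg (xx j t); have h5 := pk_le (xx j t)
    rw [Real.norm_of_nonneg (by nlinarith), Real.norm_of_nonneg (by nlinarith)]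
    exact ⟨mul_le_mul (by nlinarith) (norm_snd_le y) (norm_nonneg _) this.le,
      mul_le_mul (by nlinarith) (norm_fst_le y) (norm_nonneg _) this.le⟩

theorem norm_smul_le_of {E : Type*} [NormedAddCommGroup E] [NormedSpace ℝ E] {s a b : ℝ} {x : E}
    (h0 : 0 ≤ s) (h1 : s ≤ a) (h2 : ‖x‖ ≤ b) : ‖s • x‖ ≤ a * b := by
  rw [norm_smul, Real.norm_of_nonneg h0]
  exact mul_le_mul h1 h2 (norm_nonneg _) (h0.trans h1)

theorem norm_Load_le (j : ℕ) (t N : ℝ) (M : ℂ) : ‖Load j t N M‖ ≤ 2 * KK * ‖M‖ := by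
  have hK := KK_pos
  have hc := cc_pos j
  have hc' := cc_le j
  have hM := norm_nonneg M
  rw [Load]
  split_ifs
  · rw [Prod.norm_def, max_le_iff]
    have := norm_smul_le_of hK.le le_rfl (norm_PP_le 0 1 N M)
    exact ⟨by nlinarith, by simp; positivity⟩
  · rw [Prod.norm_def, max_le_iff]
    have h2 := pu_nonneg (xx j t); have h3 := pu_le (xx j t)
    have hb : ∀ x, 0 ≤ cc j * pu (xx j t) * pb x ∧ cc j * pu (xx j t) * pb x ≤ KK := fun x => by
      have h4 := pb_nonneg x; have h5 := pb_le x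
      refine ⟨by positivity, ?_⟩
      calc _ ≤ KK * 1 * 1 := by gcongr
        _ = KK := by ring
    have h6 := norm_smul_le_of (hb (xx j t - 1)).1 (hb _).2 (norm_PP_le j (hh j 1) N M)
    have h7 := norm_smul_le_of (hb (xx j t + 1)).1 (hb _).2 (norm_PP_le j (hh j (-1)) N M)
    have h4 := pb_nonneg (xx j t); have h5 := pb_le (xx j t)
    have h8 := norm_smul_le_of (s := cc j * pb (xx j t)) (a := KK) (by positivity)
      (by nlinarith) (norm_PP_le j (qq j) N M)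
    exact ⟨(norm_add_le _ _).trans (by linarith), by nlinarith⟩

theorem norm_mix_le {s : ℝ} (h0 : 0 ≤ s) (h1 : s ≤ 1) (v : W) :
    ‖(1 - s) • v.1.1 + s • v.2.1‖ ≤ ‖v‖ := by
  have h2 := norm_smul_le_of (sub_nonneg.2 h1) le_rfl
    ((norm_fst_le v.1).trans (norm_fst_le v))
  have h3 := norm_smul_le_of h0 le_rfl ((norm_fst_le v.2).trans (norm_snd_le v))
  exact (norm_add_le _ _).trans (by linarith)

theorem norm_Mhi_le (k : ℕ) (v : W) : ‖Mhi k v‖ ≤ ‖v‖ :=
  norm_mix_le (st_nonneg _ _ _) (st_le _ _ _) v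

theorem norm_Mlo_le (k : ℕ) (t : ℝ) (v : W) : ‖Mlo k t v‖ ≤ ‖v‖ :=
  norm_mix_le (mul_nonneg (st_nonneg _ _ _) (pu_nonneg _))
    (mul_le_one₀ (st_le _ _ _) (pu_nonneg _) (pu_le _)) v

theorem norm_GG_le (k : ℕ) (t : ℝ) (v : W) : ‖GG k t v‖ ≤ 3 * KK * ‖v‖ := by
  have hK := KK_pos
  have h1 := (norm_Lin_le k t v.1).trans (mul_le_mul_of_nonneg_left (norm_fst_le v) hK.le)
  have h2 := fun j => (norm_Lin_le j t v.2).trans (mul_le_mul_of_nonneg_left (norm_snd_le v) hK.le)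
  have h3 := norm_smul_le_of (sub_nonneg.2 (st_le k 4 v)) (sub_le_self _ (st_nonneg _ _ _))
    ((norm_Load_le k t (NN v) _).trans
      (mul_le_mul_of_nonneg_left (norm_Mlo_le k t v) (by positivity)))
  have h4 := norm_smul_le_of (st_nonneg k 2 v) (st_le _ _ _)
    ((norm_Load_le (k + 1) t (NN v) _).trans
      (mul_le_mul_of_nonneg_left (norm_Mhi_le k v) (by positivity)))
  have h5 := norm_smul_le_of (sub_nonneg.2 (st_le k 1 v)) le_rfl (h2 (k - 1))
  have h6 := norm_smul_le_of (st_nonneg k 1 v) le_rfl (h2 (k + 1))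
  rw [GG, Prod.norm_def, max_le_iff]
  exact ⟨(norm_add_le _ _).trans (by linarith), (norm_add₃_le).trans (by linarith)⟩

theorem nu_GG_le (k : ℕ) (t : ℝ) (v : W) : nu (GG k t v) ≤ 6 * KK * nu v := by
  have hK := KK_pos
  have h1 := nu_le (GG k t v)
  have h2 := norm_GG_le k t v
  have h3 := mul_le_mul_of_nonneg_left (norm_le_nu v) (show 0 ≤ 3 * KK by positivity)
  linarith

theorem nu_FF_le (t : ℝ) (v : W) : nu (FF t v) ≤ 6 * KK * nu v := by
  rw [FF, FZ, nu_par]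
  simpa [nu_par] using nu_GG_le _ t (par _ v)

theorem Lin_full {j : ℕ} {t : ℝ} (h : |xx j t| ≤ 2 / 3) (y : ℂ × ℂ) : Lin j t y = 0 := by
  rw [Lin]
  split_ifs
  · rfl
  · rw [pu_one h, pk_one (by linarith)]; simp

theorem Mlo_full {k : ℕ} {t : ℝ} (h : |xx (k + 1) t| ≤ 2 / 3) (v : W) : Mlo k t v = Mhi k v := by
  rw [Mlo, Mhi, pu_one h, mul_one]

theorem nu_GG_full {k : ℕ} {t : ℝ} (h : |xx (k + 1) t| ≤ 2 / 3) (v : W) :
    nu (GG k t v) ≤ 6 * KK * ‖Mhi k v‖ := by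
  have hK := KK_pos
  have h1 := nu_le (GG k t v)
  have h3 := norm_smul_le_of (sub_nonneg.2 (st_le k 4 v)) (sub_le_self _ (st_nonneg _ _ _))
    (norm_Load_le k t (NN v) (Mhi k v))
  have h4 := norm_smul_le_of (st_nonneg k 2 v) (st_le _ _ _)
    (norm_Load_le (k + 1) t (NN v) (Mhi k v))
  have h2 : ‖GG k t v‖ ≤ 2 * KK * ‖Mhi k v‖ := by
    rw [GG, Prod.norm_def, max_le_iff, Lin_full h, Mlo_full h,
      Lin_full ((abs_xx_mono (by omega) t).trans h), Lin_full ((abs_xx_mono (by omega) t).trans h)]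
    simp only [smul_zero, zero_add]
    exact ⟨by linarith, by linarith⟩
  have := norm_nonneg (Mhi k v)
  nlinarith

/-- the map at large scales -/
theorem FF_top (t : ℝ) (v : W) (h : rr 0 1 ≤ nu v) :
    FF t v = ((KK • PP 0 1 (NN v) v.1.1, 0), 0) := by
  have h1 : rr 1 1 ≤ rr 0 1 := by
    have := rr_le_TT 1 1
    have := TT_le_rr 0
    have := rr_anti 0 (show 1 ≤ 4 by norm_num)
    have := rr_pos 0 4
    linarith
  rw [FF_eq 0 t v (h1.trans h) (by simp)]
  have ha : ∀ i, 1 ≤ i → st 0 i v = 0 := fun i hi => st_zero ((rr_anti _ hi).trans h)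
  simp [FZ, par, GG, Mlo, ha, Lin, Load]

end Crest.Agent.H0163
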