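import Crest.Agent.H0163.Defs

set_option autoImplicit false
open scoped Manifold ContDiff

namespace Crest.Agent.H0163

namespace Mfd

lemma transport {F H M : Type} [NormedAddCommGroup F] [NormedSpace ℝ F] [TopologicalSpace H] [TopologicalSpace M]
    [ChartedSpace H M] (J : ModelWithCorners ℝ F H) [J.Boundaryless] [IsManifold J ∞ M] :
    ∃ (_ : ChartedSpace F M) (_ : IsManifold 𝓘(ℝ, F) ∞ M), ∀ f : M → M, ContMDiff J J 1 f →
      ContMDiff 𝓘(ℝ, F) 𝓘(ℝ, F) 1 f := by
  letI C : ChartedSpace F M :=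
    { atlas := (fun c => c.transHomeomorph J.toHomeomorph) '' atlas H M
      chartAt := fun x => (chartAt H x).transHomeomorph J.toHomeomorph
      mem_chart_source := fun x => mem_chart_source H x
      chart_mem_atlas := fun x => ⟨_, chart_mem_atlas H x, rfl⟩ }
  refine ⟨C, isManifold_of_contDiffOn _ _ _ ?_, fun f hf x => ?_⟩
  · rintro _ _ ⟨c, hc, rfl⟩ ⟨d, hd, rfl⟩
    have := (contDiffGroupoid ∞ J).compatible hc hd
    rw [contDiffGroupoid, mem_groupoid_of_pregroupoid] at this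
    exact this.1.mono fun y hy => ⟨hy.1, by simp [J.range_eq_univ]⟩
  · have := contMDiffAt_iff.1 (hf x)
    rw [J.range_eq_univ] at this
    exact contMDiffAt_iff.2 ⟨this.1, this.2.mono (Set.subset_univ _)⟩

end Mfd

theorem jobM : JobM := by
  let I := (𝓡 1).prod ((𝓡 2).prod ((𝓡 2).prod ((𝓡 2).prod (𝓡 2))))
  let e : (EuclideanSpace ℝ (Fin 1) × EuclideanSpace ℝ (Fin 2) × EuclideanSpace ℝ (Fin 2) × EuclideanSpace ℝ (Fin 2) ×
    EuclideanSpace ℝ (Fin 2)) ≃L[ℝ] EuclideanSpace ℝ (Fin 9) := .ofFinrankEq (by simp)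
  haveI : (I.transContinuousLinearEquiv e).Boundaryless := ⟨by
    rw [I.transContinuousLinearEquiv_range, I.range_eq_univ, Set.image_univ, e.surjective.range_eq]⟩
  obtain ⟨C, hC, h⟩ := Mfd.transport (M := MM) (I.transContinuousLinearEquiv e)
  refine ⟨9, C, hC, fun f G hG hf => h f ?_⟩
  rw [e.contMDiff_transContinuousLinearEquiv_left, e.contMDiff_transContinuousLinearEquiv_right]
  haveI : Fact (Module.finrank ℝ ℂ = 1 + 1) := ⟨by simp⟩
  haveI : Fact (Module.finrank ℝ E3 = 2 + 1) := ⟨by simp⟩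
  have s : ContMDiff (𝓡 2) 𝓘(ℝ, E3) 1 ((↑) : S2 → E3) := contMDiff_coe_sphere
  have c : ContMDiff (𝓡 1) 𝓘(ℝ, ℂ) 1 (fun z : Circle => (z : ℂ)) := contMDiff_coe_sphere
  have A : ContMDiff I 𝓘(ℝ, Amb) 1 emb := (c.comp contMDiff_fst).prodMk_space <|
    (s.comp contMDiff_snd.fst).prodMk_space <| (s.comp contMDiff_snd.snd.fst).prodMk_space <|
    (s.comp contMDiff_snd.snd.snd.fst).prodMk_space (s.comp contMDiff_snd.snd.snd.snd)
  have B : ContMDiff I 𝓘(ℝ, Amb) 1 fun p => emb (f p) := fun p => by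
    simp only [hf]; exact (hG p).contMDiffAt.comp p (A p)
  exact ((contDiff_fst.contMDiff.comp B).codRestrict_sphere fun p => (f p).1.2).prodMk <|
    ((contDiff_snd.fst.contMDiff.comp B).codRestrict_sphere fun p => (f p).2.1.2).prodMk <|
    ((contDiff_snd.snd.fst.contMDiff.comp B).codRestrict_sphere fun p => (f p).2.2.1.2).prodMk <|
    ((contDiff_snd.snd.snd.fst.contMDiff.comp B).codRestrict_sphere fun p => (f p).2.2.2.1.2).prodMk
    ((contDiff_snd.snd.snd.snd.contMDiff.comp B).codRestrict_sphere fun p => (f p).2.2.2.2.2)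

end Crest.Agent.H0163
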