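import Crest.Agent.H0163.Lev

/-! Lower bound for products of the growth factors along an orbit of the rotation. -/

set_option autoImplicit false

namespace Crest.Agent.H0163

open Real Finset

theorem prod_Icc_abs (n : ℕ) :
    ∏ μ ∈ Icc (-(n : ℤ)) n, (|(μ : ℝ)| + 1) = ((n + 1).factorial : ℝ) ^ 2 := by
  induction n with
  | zero => simp
  | succ n ih =>
    have h : Icc (-((n + 1 : ℕ) : ℤ)) (n + 1 : ℕ)
        = insert (-((n : ℤ) + 1)) (insert ((n : ℤ) + 1) (Icc (-(n : ℤ)) n)) := by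
      ext x; simp only [mem_Icc, mem_insert]; push_cast; omega
    rw [h, prod_insert (by simp only [mem_Icc, mem_insert]; omega),
      prod_insert (by simp only [mem_Icc]; omega), ih, Nat.factorial_succ (n + 1)]
    push_cast
    rw [abs_neg, abs_of_nonneg (by positivity)]
    ring

theorem prod_Icc_ge {q : ℕ} (hq : 1 ≤ q) :
    (1 / 2 ^ 7 : ℝ) ^ q ≤ ∏ μ ∈ Icc (-(q : ℤ)) q, (|(μ : ℝ)| + 1) / (2 * q) := by
  have hq' : (0 : ℝ) < q := by exact_mod_cast hq
  rw [prod_div_distrib, prod_Icc_abs, prod_const, Int.card_Icc,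
    show (q + 1 - -(q : ℤ)).toNat = 2 * q + 1 by omega, le_div_iff₀ (by positivity)]
  have h1 := Real.pow_div_factorial_le_exp (q : ℝ) hq'.le q
  have h2 : exp q ≤ 3 ^ q := by
    rw [← mul_one (q : ℝ), exp_nat_mul]
    exact pow_le_pow_left₀ (exp_pos _).le (by linarith [exp_one_lt_d9]) _
  have h3 : (q.factorial : ℝ) ≤ (q + 1).factorial := by
    exact_mod_cast Nat.factorial_le (Nat.le_succ q)
  have h4 : (0 : ℝ) < q.factorial := by exact_mod_cast q.factorial_pos
  rw [div_le_iff₀ h4] at h1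
  have h5 : (q : ℝ) ^ q ≤ 3 ^ q * (q + 1).factorial := h1.trans (by gcongr)
  have h6 : (2 * q : ℝ) ≤ 2 ^ q := by
    have : 2 * q ≤ 2 ^ q := by
      obtain ⟨r, rfl⟩ : ∃ r, q = r + 1 := ⟨q - 1, by omega⟩
      have := Nat.lt_two_pow_self (n := r)
      rw [pow_succ]; omega
    exact_mod_cast this
  have h7 : (1 / 2 ^ 7 : ℝ) ^ q * (2 ^ q * 4 ^ q * 9 ^ q) ≤ 1 := by
    rw [← mul_pow, ← mul_pow, ← mul_pow]
    exact pow_le_one₀ (by norm_num) (by norm_num)
  calc (1 / 2 ^ 7 : ℝ) ^ q * (2 * q) ^ (2 * q + 1)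
      = (1 / 2 ^ 7 : ℝ) ^ q * ((2 * q) * 4 ^ q * (q ^ q) ^ 2) := by
        rw [show (4 : ℝ) ^ q = 2 ^ (2 * q) by rw [pow_mul]; norm_num, mul_pow]; ring
    _ ≤ (1 / 2 ^ 7 : ℝ) ^ q * (2 ^ q * 4 ^ q * (3 ^ q * (q + 1).factorial) ^ 2) := by gcongr
    _ = (1 / 2 ^ 7 : ℝ) ^ q * (2 ^ q * 4 ^ q * 9 ^ q) * ((q + 1).factorial : ℝ) ^ 2 := by
        rw [mul_pow, ← pow_mul, mul_comm q 2, pow_mul]; norm_num; ring
    _ ≤ _ := mul_le_of_le_one_left (by positivity) h7

theorem prod_ww_block (j : ℕ) (t : ℝ) :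
    (1 / 2 ^ 27 : ℝ) ^ qq j ≤ ∏ m ∈ range (qq j), ww j (t + m * al) := by
  by_cases hj : j = 0
  · simp only [ww, hj, if_pos, prod_const_one]
    exact pow_le_one₀ (by norm_num) (by norm_num)
  have hq := qq_geR j
  have hq0 := qq_posR j
  set μ : ℕ → ℤ := fun m => m * pp j - n0 j (t + m * al) + ⌊qq j * t⌋ with hμ
  set G : ℤ → ℝ := fun z => ((|(z : ℝ)| + 1) / (2 * qq j)) ^ 2 *
    (if z ∈ Icc (-2 : ℤ) 0 then (1 / 4) ^ qq j else 1) with hG
  have hx : ∀ m : ℕ, m < qq j → (μ m : ℝ) ≤ xx j (t + m * al) ∧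
      xx j (t + m * al) ≤ μ m + 1 + 1 / 128 := by
    intro m hm
    have h1 : xx j (t + m * al) = μ m + (qq j * t - ⌊qq j * t⌋) + m * dd j := by
      rw [xx_n0, mul_add, mul_left_comm, qq_mul_al, hμ]; push_cast; ring
    have h2 := Int.floor_le (qq j * t)
    have h3 := Int.lt_floor_add_one (qq j * t)
    have h4 := hh_mul_dd_le j hm.le
    have h5 : 0 ≤ m * dd j := by have := dd_pos j; positivity
    constructor <;> linarith
  have hxa : ∀ s, |xx j s| ≤ qq j / 2 := fun s => by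
    rw [xx, abs_mul, abs_of_pos hq0]
    have := abs_fr_le s
    nlinarith
  have hmem : ∀ m ∈ range (qq j), μ m ∈ Icc (-(qq j : ℤ)) (qq j) := by
    intro m hm
    have h1 := hx m (mem_range.1 hm)
    have h2 := abs_le.1 (hxa (t + m * al))
    rw [mem_Icc]
    constructor
    · have : (-(qq j : ℝ)) ≤ μ m := by linarith [h1.2, h2.1]
      exact_mod_cast this
    · have : (μ m : ℝ) ≤ qq j := by linarith [h1.1, h2.2]
      exact_mod_cast this
  have hinj : Set.InjOn μ (range (qq j) : Set ℕ) := by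
    intro a ha b hb hab
    have ha := mem_range.1 (mem_coe.1 ha)
    have hb := mem_range.1 (mem_coe.1 hb)
    have h1 : (qq j : ℤ) ∣ ((a : ℤ) - b) * pp j := by
      have := dvd_sub (n0_dvd j (t + a * al)) (n0_dvd j (t + b * al))
      rwa [show n0 j (t + a * al) - n0 j (t + b * al) = ((a : ℤ) - b) * pp j by
        simp only [hμ] at hab; linear_combination -hab] at this
    have h4 : (a : ℤ) - b = 0 := by
      refine Int.eq_zero_of_abs_lt_dvd (dvd_sub_of_dvd j h1) ?_
      rw [abs_lt]; constructor <;> omega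
    omega
  have hA : ∀ z ∈ Icc (-(qq j : ℤ)) (qq j), ((|(z : ℝ)| + 1) / (2 * qq j)) ^ 2 ≤ 1 := by
    intro z hz
    rw [mem_Icc] at hz
    have h1 : |(z : ℝ)| ≤ qq j := by
      rw [abs_le]; exact ⟨by exact_mod_cast hz.1, by exact_mod_cast hz.2⟩
    refine pow_le_one₀ (by positivity) ?_
    rw [div_le_one (by positivity)]
    linarith
  have hB : ∀ z : ℤ, (if z ∈ Icc (-2 : ℤ) 0 then (1 / 4 : ℝ) ^ qq j else 1) ≤ 1 := fun z => by
    split_ifs
    exacts [pow_le_one₀ (by norm_num) (by norm_num), le_rfl]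
  have hG0 : ∀ z, 0 ≤ G z := fun z => by simp only [hG]; split_ifs <;> positivity
  calc (1 / 2 ^ 27 : ℝ) ^ qq j ≤ ((1 / 2 ^ 7 : ℝ) ^ qq j) ^ 2 * ((1 / 4) ^ qq j) ^ 3 := by
        rw [← pow_mul, ← pow_mul, mul_comm _ 2, mul_comm _ 3, pow_mul, pow_mul, ← mul_pow]
        exact pow_le_pow_left₀ (by norm_num) (by norm_num) _
    _ ≤ ∏ z ∈ Icc (-(qq j : ℤ)) (qq j), G z := by
        rw [hG, prod_mul_distrib, prod_pow, prod_ite, prod_const, prod_const_one, mul_one]
        refine mul_le_mul (pow_le_pow_left₀ (by positivity) (prod_Icc_ge (qq_pos j)) 2) ?_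
          (by positivity) (by positivity)
        refine pow_le_pow_of_le_one (by positivity) (pow_le_one₀ (by norm_num) (by norm_num)) ?_
        refine le_trans (card_le_card (t := Icc (-2 : ℤ) 0) fun z hz => (mem_filter.1 hz).2) ?_
        simp
    _ ≤ ∏ z ∈ (range (qq j)).image μ, G z := by
        refine prod_le_prod_of_subset_of_le_one (image_subset_iff.2 hmem) (fun z _ => hG0 z)
          fun z hz _ => ?_
        exact mul_le_one₀ (hA z hz) (by split_ifs <;> positivity) (hB z)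
    _ = ∏ m ∈ range (qq j), G (μ m) := prod_image hinj
    _ ≤ _ := by
        refine prod_le_prod (fun m _ => hG0 _) fun m hm => ?_
        have h1 := hx m (mem_range.1 hm)
        rw [ww, if_neg hj]
        split_ifs with h2
        · rw [abs_lt] at h2
          have h3 : μ m ∈ Icc (-2 : ℤ) 0 := by
            rw [mem_Icc]
            have h4 : (-3 : ℝ) < μ m := by linarith [h1.2, h2.1]
            have h5 : (μ m : ℝ) < 1 := by linarith [h1.1, h2.2]
            have h4' : (-3 : ℤ) < μ m := by exact_mod_cast h4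
            have h5' : μ m < 1 := by exact_mod_cast h5
            omega
          simp only [hG, if_pos h3]
          exact mul_le_of_le_one_left (by positivity) (hA _ (hmem m hm))
        · refine le_trans (mul_le_of_le_one_right (by positivity) (hB _))
            (le_trans ?_ (sin_sq_ge _))
          have h3 : |(μ m : ℝ)| ≤ |xx j (t + m * al)| + 2 := by
            have h4 := le_abs_self (xx j (t + m * al))
            have h5 := neg_abs_le (xx j (t + m * al))
            rw [abs_le]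
            constructor <;> linarith [h1.1, h1.2]
          have h4 : (|(μ m : ℝ)| + 1) / (2 * qq j) ≤ 2 * |fr (t + m * al)| := by
            rw [div_le_iff₀ (by positivity)]
            have h5 : |xx j (t + m * al)| = qq j * |fr (t + m * al)| := by
              rw [xx, abs_mul, abs_of_pos hq0]
            nlinarith
          have := pow_le_pow_left₀ (by positivity) h4 2
          rw [mul_pow, sq_abs] at this
          linarith

theorem prod_ww_blocks (j : ℕ) (t : ℝ) (n : ℕ) :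
    (1 / 2 ^ 27 : ℝ) ^ (n * qq j) ≤ ∏ m ∈ range (n * qq j), ww j (t + m * al) := by
  induction n with
  | zero => simp
  | succ n ih =>
    rw [add_mul, one_mul, prod_range_add, pow_add]
    refine mul_le_mul ih ?_ (by positivity) (prod_nonneg fun _ _ => ww_nonneg _ _)
    have := prod_ww_block j (t + (n * qq j : ℕ) * al)
    refine this.trans (le_of_eq (prod_congr rfl fun m _ => ?_))
    congr 1; push_cast; ring

theorem prod_ww_ge {j k : ℕ} (hj : qq j ∣ qq k) (t : ℝ) {m : ℕ} (hm : m ≤ 2 * qq k) :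
    (1 / 2 ^ 27 : ℝ) ^ (2 * qq k) ≤ ∏ i ∈ range m, ww j (t + i * al) := by
  obtain ⟨c, hc⟩ := hj
  have h := prod_ww_blocks j t (2 * c)
  rw [show 2 * c * qq j = 2 * qq k by rw [hc]; ring] at h
  exact h.trans (prod_le_prod_of_subset_of_le_one (range_subset_range.2 hm)
    (fun _ _ => ww_nonneg _ _) fun _ _ _ => ww_le _ _)

/-- growth factor of zone `k` -/
noncomputable def gam (k : ℕ) (t : ℝ) : ℝ := KK * (ww k t * ww (k + 1) t)

theorem gam_nonneg (k : ℕ) (t : ℝ) : 0 ≤ gam k t :=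
  mul_nonneg KK_pos.le (mul_nonneg (ww_nonneg _ _) (ww_nonneg _ _))

theorem prod_gam_ge (k : ℕ) (t : ℝ) {m : ℕ} (hm : m ≤ 2 * qq (k + 1)) :
    KK ^ m * (1 / 2 ^ 108) ^ qq (k + 1) ≤ ∏ i ∈ range m, gam k (t + i * al) := by
  simp only [gam]
  rw [prod_mul_distrib, prod_mul_distrib, prod_const, card_range]
  refine mul_le_mul_of_nonneg_left ?_ (pow_nonneg KK_pos.le _)
  have h1 := prod_ww_ge (qq_dvd k) t hm
  have h2 := prod_ww_ge (dvd_refl (qq (k + 1))) t hm
  refine le_trans (le_of_eq ?_) (mul_le_mul h1 h2 (by positivity)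
    (prod_nonneg fun _ _ => ww_nonneg _ _))
  rw [pow_mul, ← mul_pow]
  norm_num

end Crest.Agent.H0163
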