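import Mathlib

/-! The rotation number, its rational approximations and the labels of nodes. -/

set_option autoImplicit false

namespace Crest.Agent.H0163

/-- denominators -/
def qq : ℕ → ℕ
  | 0 => 64
  | j + 1 => 256 * qq j ^ 2

/-- numerators -/
def pp : ℕ → ℕ
  | 0 => 1
  | j + 1 => 256 * qq j * pp j + 1

theorem qq_ge (j : ℕ) : 64 ≤ qq j := by
  induction j with
  | zero => simp [qq]
  | succ j ih => simp only [qq]; nlinarith

theorem qq_pos (j : ℕ) : 0 < qq j := lt_of_lt_of_le (by norm_num) (qq_ge j)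

theorem qq_succ_ge (j : ℕ) : 2 * qq j ≤ qq (j + 1) := by
  have := qq_ge j
  simp only [qq]; nlinarith

theorem qq_mono : Monotone qq :=
  monotone_nat_of_le_succ fun j => by have := qq_succ_ge j; omega

theorem le_qq (j : ℕ) : j ≤ qq j := by
  induction j with
  | zero => simp
  | succ j ih => have := qq_succ_ge j; have := qq_ge j; omega

theorem qq_dvd (j : ℕ) : qq j ∣ qq (j + 1) := ⟨256 * qq j, by simp only [qq]; ring⟩

theorem qq_even (j : ℕ) : 2 ∣ qq j := by
  cases j with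
  | zero => simp [qq]
  | succ j => exact ⟨128 * qq j ^ 2, by simp only [qq]; ring⟩

theorem pp_coprime (j : ℕ) : Nat.Coprime (pp j) (qq j) := by
  cases j with
  | zero => simp [pp]
  | succ j =>
    have h1 : Nat.Coprime (256 * qq j * pp j + 1) (256 * qq j) := by
      rw [add_comm, Nat.coprime_add_mul_left_left]
      simp
    have h2 := Nat.Coprime.pow_right 2 h1
    exact h2.coprime_dvd_right ⟨256, by simp only [qq]; ring⟩

theorem pp_odd (j : ℕ) : pp j % 2 = 1 := by
  cases j with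
  | zero => simp [pp]
  | succ j =>
    have : pp (j + 1) = 2 * (128 * qq j * pp j) + 1 := by simp only [pp]; ring
    omega

theorem qq_posR (j : ℕ) : (0 : ℝ) < qq j := by exact_mod_cast qq_pos j

theorem qq_geR (j : ℕ) : (64 : ℝ) ≤ qq j := by exact_mod_cast qq_ge j

theorem pq_succ (j : ℕ) :
    (pp (j + 1) : ℝ) / qq (j + 1) = pp j / qq j + 1 / qq (j + 1) := by
  have := qq_posR j
  simp only [pp, qq]
  push_cast
  field_simp

theorem pq_le (j i : ℕ) : (pp (j + i) : ℝ) / qq (j + i) + 2 / qq (j + i + 1)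
    ≤ pp j / qq j + 2 / qq (j + 1) := by
  induction i with
  | zero => simp
  | succ i ih =>
    refine le_trans ?_ ih
    rw [← add_assoc, pq_succ]
    have h1 : (2 : ℝ) * qq (j + i + 1) ≤ qq (j + i + 1 + 1) := by exact_mod_cast qq_succ_ge _
    have h2 := qq_posR (j + i + 1)
    have h3 : (2 : ℝ) / qq (j + i + 1 + 1) ≤ 1 / qq (j + i + 1) := by
      rw [div_le_div_iff₀ (qq_posR _) h2]; linarith
    have h4 : (2 : ℝ) / qq (j + i + 1) = 1 / qq (j + i + 1) + 1 / qq (j + i + 1) := by ring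
    linarith

theorem pq_mono : Monotone fun j => (pp j : ℝ) / qq j :=
  monotone_nat_of_le_succ fun j => by
    rw [pq_succ]; have := qq_posR (j + 1); have : (0 : ℝ) < 1 / qq (j + 1) := by positivity
    linarith

theorem pq_le' (j i : ℕ) : (pp i : ℝ) / qq i ≤ pp j / qq j + 2 / qq (j + 1) := by
  have h1 := pq_le j i
  have h2 : (pp i : ℝ) / qq i ≤ pp (j + i) / qq (j + i) := pq_mono (Nat.le_add_left i j)
  have h3 : (0 : ℝ) < 2 / qq (j + i + 1) := by have := qq_posR (j + i + 1); positivity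
  linarith

/-- the rotation number -/
noncomputable def al : ℝ := ⨆ j, (pp j : ℝ) / qq j

/-- the drift at level `j` -/
noncomputable def dd (j : ℕ) : ℝ := qq j * al - pp j

theorem dd_pos (j : ℕ) : 0 < dd j := by
  have h1 : (pp (j + 1) : ℝ) / qq (j + 1) ≤ al :=
    le_ciSup (f := fun j => (pp j : ℝ) / qq j) ⟨_, Set.forall_mem_range.2 (pq_le' 0)⟩ (j + 1)
  rw [pq_succ] at h1
  have h2 : (0 : ℝ) < 1 / qq (j + 1) := by have := qq_posR (j + 1); positivity
  have h3 : (pp j : ℝ) / qq j < al := by linarith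
  rw [div_lt_iff₀ (qq_posR j)] at h3
  rw [dd]; linarith

theorem qq_dd_le (j : ℕ) : qq j * dd j ≤ 1 / 128 := by
  have h1 : al ≤ pp j / qq j + 2 / qq (j + 1) := ciSup_le (pq_le' j)
  have h0 := qq_posR j
  have h2 : (qq j : ℝ) * (qq j * (pp j / qq j + 2 / qq (j + 1)) - pp j) = 1 / 128 := by
    simp only [qq]; push_cast; field_simp; ring
  rw [← h2, dd]
  gcongr

theorem qq_mul_al (j : ℕ) : qq j * al = pp j + dd j := by rw [dd]; ring

theorem exists_label (j : ℕ) (i : ℤ) : ∃ m : ℕ, m < qq j ∧ (qq j : ℤ) ∣ i + m * pp j := by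
  have hc : IsCoprime (pp j : ℤ) (qq j : ℤ) := Nat.isCoprime_iff_coprime.2 (pp_coprime j)
  obtain ⟨a, b, hab⟩ := hc
  have hq : (0 : ℤ) < qq j := by exact_mod_cast qq_pos j
  have h0 : 0 ≤ (-i * a) % qq j := Int.emod_nonneg _ hq.ne'
  refine ⟨((-i * a) % qq j).toNat, ?_, ?_⟩
  · have := Int.emod_lt_of_pos (-i * a) hq
    omega
  · rw [Int.toNat_of_nonneg h0, Int.emod_def]
    exact ⟨i * b - (-i * a) / qq j * pp j, by linear_combination (-i) * hab⟩

/-- the label of node `i` at level `j`: the number of steps until it reaches a multiple of `q` -/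
noncomputable def hh (j : ℕ) (i : ℤ) : ℕ := (exists_label j i).choose

theorem hh_lt (j : ℕ) (i : ℤ) : hh j i < qq j := (exists_label j i).choose_spec.1

theorem hh_dvd (j : ℕ) (i : ℤ) : (qq j : ℤ) ∣ i + hh j i * pp j := (exists_label j i).choose_spec.2

theorem dvd_sub_of_dvd (j : ℕ) {a : ℤ} (h : (qq j : ℤ) ∣ a * pp j) : (qq j : ℤ) ∣ a :=
  (Nat.isCoprime_iff_coprime.2 (pp_coprime j).symm).dvd_of_dvd_mul_right h

theorem hh_eq (j : ℕ) (i : ℤ) {m : ℕ} (hm : m < qq j) (h : (qq j : ℤ) ∣ i + m * pp j) :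
    hh j i = m := by
  have h1 : (qq j : ℤ) ∣ ((hh j i : ℤ) - m) * pp j := by
    have := dvd_sub (hh_dvd j i) h
    rwa [show i + hh j i * (pp j : ℤ) - (i + m * pp j) = ((hh j i : ℤ) - m) * pp j by ring] at this
  have h2 := dvd_sub_of_dvd j h1
  have h3 := hh_lt j i
  have h4 : (hh j i : ℤ) - m = 0 := by
    refine Int.eq_zero_of_abs_lt_dvd h2 ?_
    rw [abs_lt]; constructor <;> omega
  omega

theorem hh_eq_zero (j : ℕ) {i : ℤ} (h : (qq j : ℤ) ∣ i) : hh j i = 0 :=
  hh_eq j i (qq_pos j) (by simpa using h)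

theorem hh_pos (j : ℕ) {i : ℤ} (h : ¬ (qq j : ℤ) ∣ i) : 0 < hh j i := by
  refine Nat.pos_of_ne_zero fun h0 => h ?_
  have := hh_dvd j i
  rw [h0] at this
  simpa using this

theorem hh_add_pp (j : ℕ) {i : ℤ} (h : ¬ (qq j : ℤ) ∣ i) : hh j (i + pp j) + 1 = hh j i := by
  have h1 := hh_pos j h
  have h2 := hh_lt j i
  have : hh j (i + pp j) = hh j i - 1 := by
    refine hh_eq j _ (by omega) ?_
    have := hh_dvd j i
    convert this using 1
    rw [Nat.cast_sub h1]; push_cast; ring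
  omega

theorem hh_add_pp' (j : ℕ) {i : ℤ} (h : (qq j : ℤ) ∣ i) : hh j (i + pp j) + 1 = qq j := by
  have h2 := qq_pos j
  have : hh j (i + pp j) = qq j - 1 := by
    refine hh_eq j _ (by omega) ?_
    have := dvd_add h (dvd_mul_right (qq j : ℤ) (pp j))
    rwa [show i + (qq j : ℤ) * pp j = i + pp j + ((qq j - 1 : ℕ) : ℤ) * pp j by
      rw [Nat.cast_sub h2]; push_cast; ring] at this
  omega

theorem hh_add_mul (j : ℕ) (n i : ℤ) : hh j (qq j * n + i) = hh j i := by
  refine hh_eq j _ (hh_lt j i) ?_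
  rw [add_assoc]
  exact dvd_add (dvd_mul_right _ _) (hh_dvd j i)

theorem not_dvd_of_odd (j : ℕ) {i : ℤ} (h : i % 2 = 1) : ¬ (qq j : ℤ) ∣ i := by
  intro h1
  have h2 : (2 : ℤ) ∣ qq j := by exact_mod_cast qq_even j
  have := h2.trans h1
  omega

theorem hh_mul_dd_le (j : ℕ) {m : ℕ} (hm : m ≤ qq j) : m * dd j ≤ 1 / 128 := by
  refine le_trans ?_ (qq_dd_le j)
  have := dd_pos j
  gcongr

/-- signed distance to the nearest integer -/
noncomputable def fr (t : ℝ) : ℝ := t - round t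

theorem abs_fr_le (t : ℝ) : |fr t| ≤ 1 / 2 := abs_sub_round t

theorem fr_add_int (t : ℝ) (n : ℤ) : fr (t + n) = fr t := by
  simp [fr]

/-- the local coordinate of level `j` -/
noncomputable def xx (j : ℕ) (t : ℝ) : ℝ := qq j * fr t

theorem xx_eq (j : ℕ) (t : ℝ) : xx j t = qq j * t - ((qq j : ℤ) * round t : ℤ) := by
  rw [xx, fr]; push_cast; ring

theorem xx_eq_of (j : ℕ) (t : ℝ) (n : ℤ) (h : |qq j * t - ((qq j : ℤ) * n : ℤ)| < 32) :
    round t = n := by
  have h0 := qq_geR j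
  push_cast at h
  rw [← mul_sub, abs_mul, abs_of_pos (qq_posR j)] at h
  have h1 : |t - n| < 1 / 2 := by
    by_contra h2
    push Not at h2
    nlinarith
  rw [abs_lt] at h1
  rw [round_eq_iff]
  constructor <;> linarith [h1.1, h1.2]

theorem abs_xx_mono {i j : ℕ} (h : i ≤ j) (t : ℝ) : |xx i t| ≤ |xx j t| := by
  rw [xx, xx, abs_mul, abs_mul, abs_of_pos (qq_posR i), abs_of_pos (qq_posR j)]
  gcongr
  exact_mod_cast qq_mono h

theorem xx_add_int (j : ℕ) (t : ℝ) (n : ℤ) : xx j (t + n) = xx j t := by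
  rw [xx, xx, fr_add_int]

/-- within `q` steps there is a full reset -/
theorem exists_reset (j : ℕ) (t : ℝ) : ∃ m : ℕ, m < qq j ∧ |xx j (t + m * al)| ≤ 2 / 3 := by
  set i : ℤ := round (qq j * t)
  have hi : |qq j * t - i| ≤ 1 / 2 := abs_sub_round _
  obtain ⟨n, hn⟩ := hh_dvd j i
  refine ⟨hh j i, hh_lt j i, ?_⟩
  have h1 : qq j * (t + hh j i * al) - ((qq j : ℤ) * n : ℤ) = (qq j * t - i) + hh j i * dd j := by
    rw [← hn, mul_add, mul_left_comm, qq_mul_al]; push_cast; ring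
  have h2 := hh_mul_dd_le j (hh_lt j i).le
  have h3 : 0 ≤ hh j i * dd j := by have := dd_pos j; positivity
  have h4 : |qq j * (t + hh j i * al) - ((qq j : ℤ) * n : ℤ)| ≤ 2 / 3 := by
    rw [h1, abs_le] at *
    constructor <;> linarith [hi.1, hi.2]
  rw [xx_eq, xx_eq_of j _ n (by linarith)]
  exact h4

end Crest.Agent.H0163
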